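import Vale.Agent.P249.TP3.Spec
import Vale.Agent.P249.TP.Basic

/-!
# P249, phase 3, block ALG: additive in each mode + gauge invariant => linear in the tensor
Author: helper892.
-/

open Finset
open scoped BigOperators

namespace Vale.Agent.P249.TP3
namespace Alg

open Vale.Agent.P249.TP

section tele

variable {M : Type} [Monoid M]

/-- telescoping -/
lemma prod_tele : ∀ (m : ℕ) (A : Fin m → M) (u : Fin (m + 1) → Mˣ),
    (List.ofFn fun j : Fin m => (↑(u j.castSucc)⁻¹ : M) * A j * ↑(u j.succ)).prod =
      (↑(u 0)⁻¹ : M) * (List.ofFn A).prod * ↑(u (Fin.last m)) := by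
  intro m
  induction m with
  | zero =>
    intro A u
    simp
  | succ m ih =>
    intro A u
    have h := ih (fun j => A j.succ) (fun j => u j.succ)
    have h1 : (fun i : Fin m => (↑(u i.succ.castSucc)⁻¹ : M) * A i.succ * ↑(u i.succ.succ)) =
        fun j : Fin m => (↑(u j.castSucc.succ)⁻¹ : M) * A j.succ * ↑(u j.succ.succ) := by
      funext j
      rw [Fin.succ_castSucc]
    rw [List.ofFn_succ, List.prod_cons, List.ofFn_succ (f := A), List.prod_cons, h1, h]
    have h2 : Fin.castSucc (0 : Fin (m + 1)) = 0 := rfl
    have h3 : (Fin.last m).succ = Fin.last (m + 1) := rfl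
    rw [h2, h3]
    have h4 : (↑(u (Fin.succ 0)) : M) * ↑(u (Fin.succ 0))⁻¹ = 1 := Units.mul_inv _
    calc (↑(u 0)⁻¹ : M) * A 0 * ↑(u (Fin.succ 0)) *
          (↑(u (Fin.succ 0))⁻¹ * (List.ofFn fun j => A j.succ).prod * ↑(u (Fin.last (m + 1))))
        = (↑(u 0)⁻¹ : M) * A 0 * (↑(u (Fin.succ 0)) * ↑(u (Fin.succ 0))⁻¹) *
          ((List.ofFn fun j => A j.succ).prod * ↑(u (Fin.last (m + 1)))) := by
          simp only [mul_assoc]
      _ = _ := by
          rw [h4]
          simp only [mul_assoc, mul_one]

/-- moving everything to the first place -/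
lemma collect {X : Type} : ∀ (n : ℕ) (h : (Fin (n + 1) → M) → X),
    (∀ (A : Fin (n + 1) → M) (i : Fin n) (B : M),
      h (Function.update A i.castSucc (A i.castSucc * B)) =
        h (Function.update A i.succ (B * A i.succ))) →
    ∀ A, h A = h (Fin.cons (List.ofFn A).prod fun _ => 1) := by
  intro n
  induction n with
  | zero =>
    intro h _ A
    congr 1
    funext i
    have hi : i = 0 := Fin.eq_zero i
    subst hi
    simp
  | succ n ih =>
    intro h hb A
    have h1 := ih (fun A' => h (Fin.cons (A 0) A')) (by
      intro A' i B
      have h2 := hb (Fin.cons (A 0) A') i.succ B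
      have e1 : i.succ.castSucc = i.castSucc.succ := rfl
      rw [e1] at h2
      simp only [Fin.cons_succ, ← Fin.cons_update] at h2
      exact h2) (fun j => A j.succ)
    have e0 : (Fin.cons (A 0) fun j => A j.succ : Fin (n + 2) → M) = A := by
      funext j
      refine Fin.cases ?_ (fun i => ?_) j
      · rfl
      · rfl
    simp only [e0] at h1
    rw [h1]
    have h3 := hb (Fin.cons (A 0) fun _ => 1) 0 (List.ofFn fun j => A j.succ).prod
    have e2 : Fin.castSucc (0 : Fin (n + 1)) = 0 := rfl
    rw [e2, Fin.update_cons_zero, ← Fin.cons_update, Fin.cons_zero, Fin.cons_succ, mul_one] at h3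
    have e4 : (Function.update (fun _ : Fin (n + 1) => (1 : M)) 0
        (List.ofFn fun j => A j.succ).prod) =
        Fin.cons (List.ofFn fun j => A j.succ).prod fun _ => 1 := by
      funext j
      refine Fin.cases ?_ (fun i => ?_) j
      · simp
      · simp
    rw [e4] at h3
    rw [← h3, List.ofFn_succ (f := A), List.prod_cons]

lemma prod_update_last {n : ℕ} (A : Fin (n + 1) → M) (B : M) :
    (List.ofFn (Function.update A (Fin.last n) (A (Fin.last n) * B))).prod =
      (List.ofFn A).prod * B := by
  rw [List.ofFn_succ', List.ofFn_succ' (f := A), List.concat_eq_append, List.concat_eq_append,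
    List.prod_append, List.prod_append, List.prod_singleton, List.prod_singleton,
    Function.update_self, mul_assoc]
  congr 2
  congr 1
  funext i
  rw [Function.update_of_ne]
  exact (Fin.castSucc_lt_last i).ne

lemma prod_cons_one {n : ℕ} (P : M) :
    (List.ofFn (Fin.cons P fun _ => 1 : Fin (n + 1) → M)).prod = P := by
  rw [List.ofFn_succ, List.prod_cons]
  simp

end tele

section main

variable {F : Type} [Field F] {s n : ℕ}

/-- elementary unipotent matrix -/
def tv (a b : Fin (s + 1)) (hab : a ≠ b) (z : F) : (Mt F s)ˣ where
  val := Matrix.transvection a b z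
  inv := Matrix.transvection a b (-z)
  val_inv := by
    have h := Matrix.transvection_mul_transvection_same a b hab z (-z)
    rw [add_neg_cancel, Matrix.transvection_zero] at h
    exact h
  inv_val := by
    have h := Matrix.transvection_mul_transvection_same a b hab (-z) z
    rw [neg_add_cancel, Matrix.transvection_zero] at h
    exact h

lemma tv_val (a b : Fin (s + 1)) (hab : a ≠ b) (z : F) :
    ((tv a b hab z : (Mt F s)ˣ) : Mt F s) = 1 + Matrix.single a b z := rfl

theorem abstr (hs : 1 ≤ s) (h : (Fin (n + 1) → Mt F s) → ZMod 2)
    (hadd : ∀ (A : Fin (n + 1) → Mt F s) (i : Fin (n + 1)) (x y : Mt F s),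
      h (Function.update A i (x + y)) = h (Function.update A i x) + h (Function.update A i y))
    (hg : ∀ u : Fin (n + 2) → (Mt F s)ˣ,
      (∀ P : Mt F s, ((↑(u 0)⁻¹ : Mt F s) * P * ↑(u (Fin.last (n + 1)))) 0 0 = P 0 0) →
      ∀ A : Fin (n + 1) → Mt F s,
        h (fun j => (↑(u j.castSucc)⁻¹ : Mt F s) * A j * ↑(u j.succ)) = h A) :
    ∃ φ : F →+ ZMod 2, ∀ A, h A = φ ((List.ofFn A).prod 0 0) := by
  classical
  -- units can be moved across bonds
  have hunit : ∀ (G : (Mt F s)ˣ) (A : Fin (n + 1) → Mt F s) (i : Fin n),
      h (Function.update A i.castSucc (A i.castSucc * (G : Mt F s))) =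
        h (Function.update A i.succ ((G : Mt F s) * A i.succ)) := by
    intro G A i
    have hne1 : i.succ.castSucc ≠ (0 : Fin (n + 2)) := by
      intro hh
      have := congrArg Fin.val hh
      simp at this
    have hne2 : i.succ.castSucc ≠ Fin.last (n + 1) := by
      intro hh
      have := congrArg Fin.val hh
      simp at this
      omega
    have h1 := hg (Function.update (fun _ => 1) i.succ.castSucc G) (by
      intro P
      rw [Function.update_of_ne hne1.symm, Function.update_of_ne hne2.symm]
      simp) (Function.update A i.succ ((G : Mt F s) * A i.succ))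
    rw [← h1]
    congr 1
    funext j
    by_cases hj1 : j = i.castSucc
    · subst hj1
      have e1 : i.castSucc.castSucc ≠ i.succ.castSucc := by
        intro hh
        have := congrArg Fin.val hh
        simp at this
      have e2 : i.castSucc ≠ i.succ := by
        intro hh
        have := congrArg Fin.val hh
        simp at this
      have e3 : i.castSucc.succ = i.succ.castSucc := rfl
      rw [Function.update_self, Function.update_of_ne e1, e3, Function.update_self,
        Function.update_of_ne e2]
      simp
    · by_cases hj2 : j = i.succ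
      · subst hj2
        have e1 : i.succ.succ ≠ i.succ.castSucc := by
          intro hh
          have := congrArg Fin.val hh
          simp at this
        rw [Function.update_of_ne hj1, Function.update_self, Function.update_of_ne e1,
          Function.update_self, Units.val_one, mul_one, Units.inv_mul_cancel_left]
      · have e1 : j.castSucc ≠ i.succ.castSucc := by
          intro hh
          exact hj2 (Fin.castSucc_injective _ hh)
        have e2 : j.succ ≠ i.succ.castSucc := by
          intro hh
          apply hj1
          have e3 : i.succ.castSucc = i.castSucc.succ := rfl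
          rw [e3] at hh
          exact Fin.succ_injective _ hh
        rw [Function.update_of_ne hj1, Function.update_of_ne e1, Function.update_of_ne e2,
          Function.update_of_ne hj2]
        simp
  -- everything can be moved
  have mvadd : ∀ B C : Mt F s,
      (∀ (A : Fin (n + 1) → Mt F s) (i : Fin n),
        h (Function.update A i.castSucc (A i.castSucc * B)) =
          h (Function.update A i.succ (B * A i.succ))) →
      (∀ (A : Fin (n + 1) → Mt F s) (i : Fin n),
        h (Function.update A i.castSucc (A i.castSucc * C)) =
          h (Function.update A i.succ (C * A i.succ))) →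
      (∀ (A : Fin (n + 1) → Mt F s) (i : Fin n),
        h (Function.update A i.castSucc (A i.castSucc * (B + C))) =
          h (Function.update A i.succ ((B + C) * A i.succ))) := by
    intro B C hB hC A i
    rw [mul_add, hadd, add_mul, hadd, hB, hC]
  have mvmul : ∀ B C : Mt F s,
      (∀ (A : Fin (n + 1) → Mt F s) (i : Fin n),
        h (Function.update A i.castSucc (A i.castSucc * B)) =
          h (Function.update A i.succ (B * A i.succ))) →
      (∀ (A : Fin (n + 1) → Mt F s) (i : Fin n),
        h (Function.update A i.castSucc (A i.castSucc * C)) =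
          h (Function.update A i.succ (C * A i.succ))) →
      (∀ (A : Fin (n + 1) → Mt F s) (i : Fin n),
        h (Function.update A i.castSucc (A i.castSucc * (B * C))) =
          h (Function.update A i.succ ((B * C) * A i.succ))) := by
    intro B C hB hC A i
    have e2 : i.castSucc ≠ i.succ := by
      intro hh
      have := congrArg Fin.val hh
      simp at this
    have h1 := hC (Function.update A i.castSucc (A i.castSucc * B)) i
    rw [Function.update_self, Function.update_idem, Function.update_of_ne e2.symm,
      Function.update_comm e2] at h1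
    have h2 := hB (Function.update A i.succ (C * A i.succ)) i
    rw [Function.update_self, Function.update_idem, Function.update_of_ne e2] at h2
    rw [← mul_assoc, h1, h2, mul_assoc]
  have mvneg1 : ∀ (A : Fin (n + 1) → Mt F s) (i : Fin n),
      h (Function.update A i.castSucc (A i.castSucc * (-1))) =
        h (Function.update A i.succ ((-1) * A i.succ)) := by
    intro A i
    have := hunit (-1) A i
    simpa using this
  have mvsingle : ∀ (a b : Fin (s + 1)) (hab : a ≠ b) (z : F)
      (A : Fin (n + 1) → Mt F s) (i : Fin n),
      h (Function.update A i.castSucc (A i.castSucc * Matrix.single a b z)) =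
        h (Function.update A i.succ (Matrix.single a b z * A i.succ)) := by
    intro a b hab z A i
    have e : Matrix.single a b z = (1 + Matrix.single a b z) + (-1 : Mt F s) := by abel
    rw [e]
    refine mvadd _ _ (fun A i => ?_) mvneg1 A i
    exact hunit (tv a b hab z) A i
  have mvsingle' : ∀ (a b : Fin (s + 1)) (z : F)
      (A : Fin (n + 1) → Mt F s) (i : Fin n),
      h (Function.update A i.castSucc (A i.castSucc * Matrix.single a b z)) =
        h (Function.update A i.succ (Matrix.single a b z * A i.succ)) := by
    intro a b z
    by_cases hab : a = b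
    · subst hab
      obtain ⟨c, hc⟩ : ∃ c : Fin (s + 1), c ≠ a := by
        have : Nontrivial (Fin (s + 1)) := Fin.nontrivial_iff_two_le.mpr (by omega)
        exact exists_ne a
      have e : Matrix.single a a z = Matrix.single a c z * Matrix.single c a (1 : F) := by
        rw [Matrix.single_mul_single_same, mul_one]
      rw [e]
      exact mvmul _ _ (mvsingle a c hc.symm z) (mvsingle c a hc 1)
    · exact mvsingle a b hab z
  have mvall : ∀ (B : Mt F s) (A : Fin (n + 1) → Mt F s) (i : Fin n),
      h (Function.update A i.castSucc (A i.castSucc * B)) =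
        h (Function.update A i.succ (B * A i.succ)) := by
    intro B
    rw [Matrix.matrix_eq_sum_single B]
    refine Finset.sum_induction _ (fun B : Mt F s => ∀ (A : Fin (n + 1) → Mt F s) (i : Fin n),
      h (Function.update A i.castSucc (A i.castSucc * B)) =
        h (Function.update A i.succ (B * A i.succ))) mvadd ?_ ?_
    · intro A i
      have := mvsingle' 0 0 0 A i
      simpa using this
    · intro a _
      refine Finset.sum_induction _ (fun B : Mt F s => ∀ (A : Fin (n + 1) → Mt F s) (i : Fin n),
        h (Function.update A i.castSucc (A i.castSucc * B)) =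
          h (Function.update A i.succ (B * A i.succ))) mvadd ?_ ?_
      · intro A i
        have := mvsingle' 0 0 0 A i
        simpa using this
      · intro b _
        exact mvsingle' a b _
  -- the ends
  have hleft1 : ∀ (A : Fin (n + 1) → Mt F s) (a b : Fin (s + 1)) (z : F), a ≠ 0 → a ≠ b →
      h (Function.update A 0 (Matrix.single a b z * A 0)) = 0 := by
    intro A a b z ha hab
    have hl : Fin.last (n + 1) ≠ 0 := by
      intro hh
      have := congrArg Fin.val hh
      simp at this
    have h1 := hg (Function.update (fun _ => 1) 0 (tv a b hab z)⁻¹) (by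
      intro P
      rw [Function.update_self, Function.update_of_ne hl, inv_inv, tv_val, Units.val_one, mul_one,
        add_mul, one_mul, Matrix.add_apply, Matrix.single_mul_apply_of_ne _ _ _ _ _ ha.symm,
        add_zero]) A
    have h2 : (fun j : Fin (n + 1) =>
        (↑(Function.update (fun _ => 1 : Fin (n + 2) → (Mt F s)ˣ) 0 (tv a b hab z)⁻¹
          j.castSucc)⁻¹ : Mt F s) * A j *
        ↑(Function.update (fun _ => 1 : Fin (n + 2) → (Mt F s)ˣ) 0 (tv a b hab z)⁻¹ j.succ)) =
        Function.update A 0 (A 0 + Matrix.single a b z * A 0) := by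
      funext j
      rw [Function.update_of_ne (Fin.succ_ne_zero j)]
      by_cases hj : j = 0
      · subst hj
        have e0 : Fin.castSucc (0 : Fin (n + 1)) = 0 := rfl
        rw [e0, Function.update_self, Function.update_self, inv_inv, tv_val, Units.val_one,
          mul_one, add_mul, one_mul]
      · have e0 : j.castSucc ≠ 0 := by
          intro hh
          apply hj
          exact Fin.castSucc_injective _ hh
        rw [Function.update_of_ne e0, Function.update_of_ne hj]
        simp
    rw [h2, hadd, Function.update_eq_self] at h1
    exact add_eq_left.mp h1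
  have hleft : ∀ (A : Fin (n + 1) → Mt F s) (a b : Fin (s + 1)) (z : F), a ≠ 0 →
      h (Function.update A 0 (Matrix.single a b z * A 0)) = 0 := by
    intro A a b z ha
    by_cases hab : a = b
    · subst hab
      have e : Matrix.single a a z = Matrix.single a 0 z * Matrix.single 0 a (1 : F) := by
        rw [Matrix.single_mul_single_same, mul_one]
      have h1 := hleft1 (Function.update A 0 (Matrix.single 0 a 1 * A 0)) a 0 z ha ha
      rw [Function.update_self, Function.update_idem, ← mul_assoc, ← e] at h1
      exact h1
    · exact hleft1 A a b z ha hab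
  have hright1 : ∀ (A : Fin (n + 1) → Mt F s) (a b : Fin (s + 1)) (z : F), b ≠ 0 → a ≠ b →
      h (Function.update A (Fin.last n) (A (Fin.last n) * Matrix.single a b z)) = 0 := by
    intro A a b z hb hab
    have hl : (0 : Fin (n + 2)) ≠ Fin.last (n + 1) := by
      intro hh
      have := congrArg Fin.val hh
      simp at this
    have h1 := hg (Function.update (fun _ => 1) (Fin.last (n + 1)) (tv a b hab z)) (by
      intro P
      rw [Function.update_self, Function.update_of_ne hl, tv_val, inv_one, Units.val_one, one_mul,
        mul_add, mul_one, Matrix.add_apply, Matrix.mul_single_apply_of_ne _ _ _ _ _ hb.symm,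
        add_zero]) A
    have h2 : (fun j : Fin (n + 1) =>
        (↑(Function.update (fun _ => 1 : Fin (n + 2) → (Mt F s)ˣ) (Fin.last (n + 1))
          (tv a b hab z) j.castSucc)⁻¹ : Mt F s) * A j *
        ↑(Function.update (fun _ => 1 : Fin (n + 2) → (Mt F s)ˣ) (Fin.last (n + 1))
          (tv a b hab z) j.succ)) =
        Function.update A (Fin.last n) (A (Fin.last n) +
          A (Fin.last n) * Matrix.single a b z) := by
      funext j
      rw [Function.update_of_ne (Fin.castSucc_lt_last j).ne]
      by_cases hj : j = Fin.last n
      · subst hj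
        have e0 : (Fin.last n).succ = Fin.last (n + 1) := rfl
        rw [e0, Function.update_self, Function.update_self, tv_val, inv_one, Units.val_one,
          one_mul, mul_add, mul_one]
      · have e0 : j.succ ≠ Fin.last (n + 1) := by
          intro hh
          apply hj
          exact Fin.succ_injective _ hh
        rw [Function.update_of_ne e0, Function.update_of_ne hj]
        simp
    rw [h2, hadd, Function.update_eq_self] at h1
    exact add_eq_left.mp h1
  have hright : ∀ (A : Fin (n + 1) → Mt F s) (a b : Fin (s + 1)) (z : F), b ≠ 0 →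
      h (Function.update A (Fin.last n) (A (Fin.last n) * Matrix.single a b z)) = 0 := by
    intro A a b z hb
    by_cases hab : a = b
    · subst hab
      have e : Matrix.single a a z = Matrix.single a 0 z * Matrix.single 0 a (1 : F) := by
        rw [Matrix.single_mul_single_same, mul_one]
      have h1 := hright1 (Function.update A (Fin.last n)
        (A (Fin.last n) * Matrix.single a 0 z)) 0 a 1 hb hb.symm
      rw [Function.update_self, Function.update_idem, mul_assoc, ← e] at h1
      exact h1
    · exact hright1 A a b z hb hab
  -- the function of the product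
  have hcol := collect n h (fun A i B => mvall B A i)
  set Φ : Mt F s →+ ZMod 2 := AddMonoidHom.mk' (fun P => h (Fin.cons P fun _ => 1)) (by
    intro P Q
    have h1 := hadd (Fin.cons 0 fun _ => 1) 0 P Q
    rw [Fin.update_cons_zero, Fin.update_cons_zero, Fin.update_cons_zero] at h1
    exact h1) with hΦ
  have hΦa : ∀ P, Φ P = h (Fin.cons P fun _ => 1) := fun P => rfl
  have hΦl : ∀ (a b : Fin (s + 1)) (z : F), a ≠ 0 → Φ (Matrix.single a b z) = 0 := by
    intro a b z ha
    have h1 := hleft (Fin.cons (Matrix.single a b z) fun _ => 1) a a 1 ha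
    rw [Fin.update_cons_zero, Fin.cons_zero, Matrix.single_mul_single_same, one_mul] at h1
    exact h1
  have hΦr : ∀ (a b : Fin (s + 1)) (z : F), b ≠ 0 → Φ (Matrix.single a b z) = 0 := by
    intro a b z hb
    have h1 := hright (Fin.cons (Matrix.single a b z) fun _ => 1) b b 1 hb
    rw [hcol, prod_update_last, prod_cons_one, Matrix.single_mul_single_same, mul_one] at h1
    exact h1
  refine ⟨AddMonoidHom.mk' (fun z => Φ (Matrix.single 0 0 z)) (by
    intro z z'
    rw [Matrix.single_add, map_add]), ?_⟩
  intro A
  rw [hcol A, ← hΦa]
  set P := (List.ofFn A).prod with hP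
  show Φ P = Φ (Matrix.single 0 0 (P 0 0))
  conv_lhs => rw [Matrix.matrix_eq_sum_single P]
  rw [map_sum, Finset.sum_eq_single 0]
  · rw [map_sum, Finset.sum_eq_single 0]
    · intro b _ hb
      exact hΦr _ _ _ hb
    · intro hh
      exact absurd (Finset.mem_univ _) hh
  · intro a _ ha
    rw [map_sum]
    exact Finset.sum_eq_zero fun b _ => hΦl _ _ _ ha
  · intro hh
    exact absurd (Finset.mem_univ _) hh

end main

section final

variable {F : Type} [Field F] {k s a : ℕ}

/-- expansion over the values of the bits -/
lemma expand (g : Om F k s → ZMod 2)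
    (h1 : ∀ (ω : Om F k s) (i : Fin k) (x y : Bool → Mt F s),
      g (Function.update ω i (x + y)) = g (Function.update ω i x) + g (Function.update ω i y))
    (ω : Om F k s) :
    g ω = ∑ c : Fin k → Bool, g (fun i => Pi.single (c i) (ω i (c i))) := by
  classical
  let G : MultilinearMap ℕ (fun _ : Fin k => Bool → Mt F s) (ZMod 2) :=
    { toFun := g
      map_update_add' := by
        intro inst x i u v
        obtain rfl : inst = instDecidableEqFin k := Subsingleton.elim _ _
        exact h1 x i u v
      map_update_smul' := by
        intro inst x i c u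
        obtain rfl : inst = instDecidableEqFin k := Subsingleton.elim _ _
        let L : (Bool → Mt F s) →+ ZMod 2 :=
          AddMonoidHom.mk' (fun u => g (Function.update x i u)) (fun u v => h1 x i u v)
        exact map_nsmul L c u }
  have h2 : ω = fun i => ∑ b : Bool, (Pi.single b (ω i b) : Bool → Mt F s) := by
    funext i
    exact (Finset.univ_sum_single (ω i)).symm
  have h3 : g ω = G ω := rfl
  rw [h3]
  conv_lhs => rw [h2]
  rw [MultilinearMap.map_sum]
  rfl

/-- gauge transformations -/
def gauge {n : ℕ} (u : Fin (n + 2) → (Mt F s)ˣ) : Om F (n + 1) s ≃ₗ[F] Om F (n + 1) s where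
  toFun ω := fun j b => (↑(u j.castSucc)⁻¹ : Mt F s) * ω j b * ↑(u j.succ)
  invFun ω := fun j b => (↑(u j.castSucc) : Mt F s) * ω j b * ↑(u j.succ)⁻¹
  map_add' ω η := by
    funext j b
    simp only [Pi.add_apply, mul_add, add_mul]
  map_smul' z ω := by
    funext j b
    simp only [Pi.smul_apply, RingHom.id_apply, Matrix.mul_smul, Matrix.smul_mul]
  left_inv ω := by
    funext j b
    simp only [mul_assoc, Units.mul_inv, mul_one, Units.mul_inv_cancel_left]
  right_inv ω := by
    funext j b
    simp only [mul_assoc, Units.inv_mul, mul_one, Units.inv_mul_cancel_left]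

lemma sf_gauge {n : ℕ} (u : Fin (n + 2) → (Mt F s)ˣ)
    (hu : ∀ P : Mt F s, ((↑(u 0)⁻¹ : Mt F s) * P * ↑(u (Fin.last (n + 1)))) 0 0 = P 0 0)
    (ω : Om F (n + 1) s) : sf (gauge u ω) = sf ω := by
  funext c
  unfold sf mp
  have h := prod_tele (n + 1) (fun i => ω i (c i)) u
  show (List.ofFn fun i => (↑(u i.castSucc)⁻¹ : Mt F s) * ω i (c i) * ↑(u i.succ)).prod 0 0 = _
  rw [h, hu]

/-- an additive function on `V (Fin a)` -/
lemma add_eq_sum (ψ : V (Fin a) →+ ZMod 2) (v : V (Fin a)) :
    ψ v = ∑ j, v j * ψ (Pi.single j 1) := by
  have hv : v = ∑ j, v j • (Pi.single j (1 : ZMod 2) : V (Fin a)) := by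
    funext i
    rw [Finset.sum_apply]
    simp [Pi.single_apply]
  conv_lhs => rw [hv, map_sum]
  refine Finset.sum_congr rfl fun j _ => ?_
  rcases zmod2_cases (v j) with hj | hj
  · rw [hj, zero_smul, map_zero, zero_mul]
  · rw [hj, one_smul, one_mul]

end final

end Alg

open Alg Vale.Agent.P249.TP in
/-- **ALG** -/
theorem specAlg : SpecAlg := by
  intro F _ _ _ a k s β hk hs g h1 h2
  classical
  obtain ⟨n, rfl⟩ : ∃ n, k = n + 1 := ⟨k - 1, by omega⟩
  have h1' : ∀ (ω : Om F (n + 1) s) (i : Fin (n + 1)) (x y : Bool → Mt F s),
      g (Function.update ω i (x + y)) = g (Function.update ω i x) + g (Function.update ω i y) := by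
    intro ω i x y
    have h := h1 (Function.update ω i x) i y
    rw [Function.update_self, Function.update_idem, Function.update_idem] at h
    exact h
  have key : ∀ c : Fin (n + 1) → Bool, ∃ φ : F →+ ZMod 2, ∀ A : Fin (n + 1) → Mt F s,
      g (fun i => Pi.single (c i) (A i)) = φ ((List.ofFn A).prod 0 0) := by
    intro c
    refine abstr hs (fun A => g (fun i => Pi.single (c i) (A i))) ?_ ?_
    · intro A i x y
      have e : ∀ z : Mt F s, (fun j => Pi.single (c j) (Function.update A i z j) :
          Om F (n + 1) s) = Function.update (fun j => Pi.single (c j) (A j)) i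
            (Pi.single (c i) z) := by
        intro z
        funext j
        by_cases hj : j = i
        · subst hj
          rw [Function.update_self, Function.update_self]
        · rw [Function.update_of_ne hj, Function.update_of_ne hj]
      simp only [e]
      rw [Pi.single_add, h1']
    · intro u hu A
      have h := h2 (gauge u) (sf_gauge u hu) (fun i => Pi.single (c i) (A i))
      rw [← h]
      congr 1
      funext j b
      show (Pi.single (c j) ((↑(u j.castSucc)⁻¹ : Mt F s) * A j * ↑(u j.succ)) :
        Bool → Mt F s) b = (↑(u j.castSucc)⁻¹ : Mt F s) *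
          (Pi.single (c j) (A j) : Bool → Mt F s) b * ↑(u j.succ)
      by_cases hb : b = c j
      · subst hb
        rw [Pi.single_eq_same, Pi.single_eq_same]
      · rw [Pi.single_eq_of_ne hb, Pi.single_eq_of_ne hb]
        simp
  choose φ hφ using key
  refine ⟨fun x => φ x.1 (β.symm (Pi.single x.2 1)), ?_⟩
  intro ω
  rw [expand g h1' ω]
  unfold pr
  rw [Fintype.sum_prod_type]
  refine Finset.sum_congr rfl fun c _ => ?_
  rw [hφ c (fun i => ω i (c i))]
  have h3 := add_eq_sum ((φ c).comp β.symm.toAddMonoidHom) (β (sf ω c))
  have h4 : ((φ c).comp β.symm.toAddMonoidHom) (β (sf ω c)) = φ c (sf ω c) := by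
    show φ c (β.symm (β (sf ω c))) = _
    rw [AddEquiv.symm_apply_apply]
  rw [h4] at h3
  exact h3

end Vale.Agent.P249.TP3
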