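import Vale.Agent.P249.TP3.Spec
import Vale.Agent.P249.H200.Absorb

/-!
# P249 phase 3, BLOCK3: absorption of an elementary tensor by a random matrix product
-/

open Finset
open scoped BigOperators

namespace Vale.Agent.P249.TP3

open Vale.Agent.P249.TP
open Vale.Agent.P249.H200 (TT act e0 tns yx Eav IsFr Good thF absorb_main act_zero act_add
  actHom Eav_congr)

namespace B3

variable {F : Type} [Field F] {s : ℕ}

/-- the frame of a matrix product: its first column -/
def fr {k : ℕ} (ω : Om F k s) : Fin (s + 1) → TT F Bool k := fun m c => mp ω c m 0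

/-- the core of a family of matrices -/
def core (B : Bool → Mt F s) : Fin (s + 1) → Fin (s + 1) → Bool → F := fun m j c => B c m j

/-- the equivalence between families of matrices and cores -/
def coreEq (F : Type) (s : ℕ) : (Bool → Mt F s) ≃ (Fin (s + 1) → Fin (s + 1) → Bool → F) where
  toFun B := fun m j c => B c m j
  invFun A := fun c => Matrix.of fun m j => A m j c
  left_inv _ := rfl
  right_inv _ := rfl

lemma mp_succ {k : ℕ} (ω : Om F (k + 1) s) (c : Fin (k + 1) → Bool) :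
    mp ω c = ω 0 (c 0) * mp (Fin.tail ω) (Fin.tail c) := by
  unfold mp
  rw [List.ofFn_succ, List.prod_cons]
  rfl

lemma fr_zero (ω : Om F 0 s) : fr ω = e0 s := by
  funext m c
  simp only [fr, mp, List.ofFn_zero, List.prod_nil, e0, Matrix.one_apply]

lemma fr_succ {k : ℕ} (ω : Om F (k + 1) s) :
    fr ω = act (coreEq F s (ω 0)) (fr (Fin.tail ω)) := by
  funext m c
  simp only [fr, act]
  rw [mp_succ, Matrix.mul_apply]
  rfl

lemma isFr_fr : ∀ {k : ℕ} (ω : Om F k s), IsFr s k (fr ω)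
  | 0, ω => by rw [fr_zero]; exact IsFr.zero
  | k + 1, ω => by rw [fr_succ]; exact IsFr.succ k _ _ (isFr_fr _)

lemma exists_fr {k : ℕ} {Y : Fin (s + 1) → TT F Bool k} (hY : IsFr s k Y) :
    ∃ ω : Om F k s, Y = fr ω := by
  induction hY with
  | zero => exact ⟨fun i => i.elim0, (fr_zero _).symm⟩
  | succ k A Y _ ih =>
    obtain ⟨ω, hω⟩ := ih
    refine ⟨Fin.cons ((coreEq F s).symm A) ω, ?_⟩
    rw [fr_succ, hω]
    simp

lemma av_fr [Fintype F] [DecidableEq F] : ∀ {k : ℕ} (h : (Fin (s + 1) → TT F Bool k) → ℝ),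
    av (fun ω : Om F k s => h (fr ω)) = Eav s k h
  | 0, h => by
      have h1 : ∀ ω : Om F 0 s, h (fr ω) = h (e0 s) := fun ω => by rw [fr_zero]
      simp only [h1]
      rw [av_const]
      rfl
  | k + 1, h => by
      rw [← av_equiv (Fin.consEquiv fun _ => Bool → Mt F s) (fun ω : Om F (k + 1) s => h (fr ω)),
        av_prod]
      show _ = av _
      rw [← av_equiv (coreEq F s)]
      refine av_congr fun B => ?_
      rw [← av_fr]
      refine av_congr fun ω => ?_
      rw [fr_succ]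
      rfl

lemma isFr_zero' (k : ℕ) : IsFr s (k + 1) (0 : Fin (s + 1) → TT F Bool (k + 1)) := by
  rw [← act_zero (F := F) (N := Bool) (M := Fin (s + 1)) (M' := Fin (s + 1)) (k := k) 0]
  have h1 : act (0 : Fin (s + 1) → Fin (s + 1) → Bool → F)
      (0 : Fin (s + 1) → TT F Bool k) =
      act (0 : Fin (s + 1) → Fin (s + 1) → Bool → F) (fr (fun _ => 0 : Om F k s)) := by
    funext m c
    simp [act]
  rw [h1]
  exact IsFr.succ k _ _ (isFr_fr _)

lemma isFr_yx : ∀ {k : ℕ} (x : Fin k → Bool → F), IsFr s k (yx s x)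
  | 0, x => by
      have : yx s x = (e0 s : Fin (s + 1) → TT F Bool 0) := by
        funext m c
        by_cases hm : m = 0
        · simp only [yx, e0, hm, if_true]
          show ∏ l : Fin 0, x l (c l) = 1
          simp
        · simp only [yx, e0, hm, if_false]
          rfl
      rw [this]
      exact IsFr.zero
  | k + 1, x => by
      have h1 : yx s x = act (fun m j => if m = 0 ∧ j = 0 then x 0 else 0)
          (yx s (Fin.tail x)) := by
        funext m i
        simp only [act, yx]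
        rw [Finset.sum_eq_single 0]
        · by_cases hm : m = 0
          · subst hm
            rw [if_pos rfl, if_pos ⟨rfl, rfl⟩, if_pos rfl]
            show (∏ l, x l (i l)) = x 0 (i 0) * ∏ l, (Fin.tail x) l ((Fin.tail i) l)
            rw [Fin.prod_univ_succ]
            rfl
          · simp [hm]
        · intro j _ hj
          simp [hj]
        · intro h; exact absurd (Finset.mem_univ _) h
      rw [h1]
      exact IsFr.succ k _ _ (isFr_yx _)

lemma isFr_thF {k : ℕ} {Y : Fin (s + 1) → TT F Bool k} (hY : IsFr s k Y)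
    (a b : Fin (s + 1) → Bool → F) : IsFr s (k + 2) (thF Y a b) := by
  have h1 : thF Y a b = act (fun m (j : Fin (s + 1)) => if j = 0 then a m else 0)
      (act (fun (m : Fin (s + 1)) j => if m = 0 then b j else 0) Y) := by
    funext m i
    simp only [act, thF]
    symm
    rw [Finset.sum_eq_single 0]
    · rw [if_pos rfl]
      simp only [if_true]
      rfl
    · intro j _ hj
      simp [hj]
    · intro h; exact absurd (Finset.mem_univ _) h
  rw [h1]
  exact IsFr.succ _ _ _ (IsFr.succ _ _ _ hY)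

/-- sums of at most `2 s + 2` frames -/
def Yc (s : ℕ) (k : ℕ) (Y : Fin (s + 1) → TT F Bool k) : Prop :=
  ∃ W : Fin (2 * s + 2) → Fin (s + 1) → TT F Bool k, (∀ i, IsFr s k (W i)) ∧ Y = ∑ i, W i

lemma thF_sum_left {k b : ℕ} (Y : Fin (s + 1) → TT F Bool k)
    (u : Fin b → Fin (s + 1) → Bool → F) (v : Fin (s + 1) → Bool → F) (z : Fin b → ZMod 2) :
    ∑ i, (if z i = 0 then 0 else thF Y (u i) v) = thF Y (∑ i, if z i = 0 then 0 else u i) v := by
  funext m c
  simp only [Finset.sum_apply, thF]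
  rw [Finset.sum_mul]
  refine Finset.sum_congr rfl fun i _ => ?_
  split_ifs <;> simp [thF]

lemma sum_pad {X : Type} [AddCommMonoid X] {b n : ℕ} (hb : b ≤ n) (f : Fin b → X) :
    ∑ i : Fin n, (if h : (i : ℕ) < b then f ⟨i, h⟩ else 0) = ∑ i, f i := by
  obtain ⟨m, rfl⟩ := Nat.exists_eq_add_of_le hb
  rw [Fin.sum_univ_add]
  simp

lemma good_Yc : Good (F := F) (N := Bool) s (fun k => Yc s k) := by
  constructor
  · rintro k A Y ⟨W, hW, rfl⟩
    refine ⟨fun i => act A (W i), fun i => IsFr.succ k A _ (hW i), ?_⟩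
    exact map_sum (actHom k A) W univ
  · intro k Y hY b hb u v Z
    -- the sum as a sum of `b` frames
    have h1 : (∑ a : Fin b × Fin b, if Z a = 0 then 0 else thF Y (u a.1) (v a.2)) =
        ∑ j : Fin b, thF Y (∑ i, if Z (i, j) = 0 then 0 else u i) (v j) := by
      rw [Fintype.sum_prod_type, Finset.sum_comm]
      refine Finset.sum_congr rfl fun j _ => ?_
      exact thF_sum_left Y u (v j) fun i => Z (i, j)
    set G : Fin b → Fin (s + 1) → TT F Bool (k + 2) :=
      fun j => thF Y (∑ i, if Z (i, j) = 0 then 0 else u i) (v j) with hG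
    have hGf : ∀ j, IsFr s (k + 2) (G j) := fun j => isFr_thF hY _ _
    rw [h1]
    constructor
    · refine ⟨fun i => if h : (i : ℕ) < b then G ⟨i, h⟩ else 0, fun i => ?_, ?_⟩
      · dsimp only
        split_ifs with h
        · exact hGf _
        · exact isFr_zero' _
      · rw [sum_pad (by omega)]
    · intro x
      set G' : Fin (b + 1) → Fin (s + 1) → TT F Bool (k + 2) := Fin.snoc G (yx s x) with hG'
      have hG'f : ∀ j, IsFr s (k + 2) (G' j) := by
        intro j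
        refine Fin.lastCases ?_ (fun j => ?_) j
        · rw [hG', Fin.snoc_last]; exact isFr_yx x
        · rw [hG', Fin.snoc_castSucc]; exact hGf j
      refine ⟨fun i => if h : (i : ℕ) < b + 1 then G' ⟨i, h⟩ else 0, fun i => ?_, ?_⟩
      · dsimp only
        split_ifs with h
        · exact hG'f _
        · exact isFr_zero' _
      · rw [sum_pad (by omega), Fin.sum_univ_castSucc]
        simp [hG']

/-- first component, as vectors over `F_2` -/
def iot {a k : ℕ} (β : F ≃+ V (Fin a)) (s : ℕ) :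
    (Fin (s + 1) → TT F Bool k) →+ V (Ix k a) where
  toFun Y := tr β (Y 0)
  map_zero' := by
    funext x
    simp [tr]
  map_add' := by
    intro Y Y'
    funext x
    simp [tr]

lemma iot_fr {a k : ℕ} (β : F ≃+ V (Fin a)) (ω : Om F k s) : iot β s (fr ω) = Sm β ω := rfl

lemma iot_yx {a k : ℕ} (β : F ≃+ V (Fin a)) (Y : Fin (s + 1) → TT F Bool k)
    (x : Fin k → Bool → F) : iot β s (Y + yx s x) = iot β s Y + tr β (tn x) := by
  rw [map_add]
  congr 1

lemma Sm_zero {a k : ℕ} (hk : 1 ≤ k) (β : F ≃+ V (Fin a)) :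
    Sm β (fun _ => 0 : Om F k s) = 0 := by
  obtain ⟨k, rfl⟩ : ∃ k', k = k' + 1 := ⟨k - 1, by omega⟩
  funext x
  simp only [Sm, tr, sf, mp_succ]
  simp

lemma KK_of_Yc {a k : ℕ} (hk : 1 ≤ k) (β : F ≃+ V (Fin a)) {r : ℕ} (hr : 2 * s + 2 ≤ r)
    (Y : Fin (s + 1) → TT F Bool k) (hY : Yc s k Y) : KK β k s r (iot β s Y) := by
  obtain ⟨W, hW, rfl⟩ := hY
  choose ω hω using fun i => exists_fr (hW i)
  refine ⟨fun i => if h : (i : ℕ) < 2 * s + 2 then ω ⟨i, h⟩ else fun _ => 0, ?_⟩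
  have h1 : ∀ i : Fin r, Sm β (if h : (i : ℕ) < 2 * s + 2 then ω ⟨i, h⟩ else fun _ => 0) =
      if h : (i : ℕ) < 2 * s + 2 then Sm β (ω ⟨i, h⟩) else 0 := by
    intro i
    split_ifs with h
    · rfl
    · exact Sm_zero hk β
  rw [Finset.sum_congr rfl fun i _ => h1 i, sum_pad hr (fun i => Sm β (ω i)), map_sum]
  exact Finset.sum_congr rfl fun i _ => by rw [hω i, iot_fr]

/-- the theorem for one exponent `r > 2` -/
theorem block_of (hAbs : SpecAbs) (p r : ℝ) (hr : 2 < r) (hKey : KeyAt p r) :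
    ∃ c C : ℝ, 0 < c ∧ 0 < C ∧
    ∀ (F : Type) [Field F] [Fintype F] [DecidableEq F] (a k s : ℕ) (β : F ≃+ V (Fin a)),
      1 ≤ k → 1 ≤ s →
      ∀ (D ε : ℝ), 1 ≤ D → 0 ≤ ε → ∀ (ι : Type) [Fintype ι]
      (τ : List (Ix k a × ZMod 2) → V (Ix k a) → ι → ℝ),
      Sys p D ε (KK β k s ((2 * s + 3) * (k + 1) + 2)) τ →
      ∀ (ψ : ι → ℝ) (P : ι → V (Ix k a)), ∑ i, |ψ i| ^ (p / (p - 1)) ≤ 1 →
      ∀ C' : List (Ix k a), C'.length ≤ Fintype.card (Ix k a) → ∀ x : Fin k → Bool → F,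
        |av (fun ω : Om F k s =>
          gg τ ψ P C' (Sm β ω + tr β (tn x)) - gg τ ψ P C' (Sm β ω))| ≤
          k * (C * (D * (2 : ℝ) ^ (-c * s) +
            ε * 2 ^ (Fintype.card (Ix k a) + (2 * s + 3) ^ 2))) := by
  obtain ⟨c, C, hc, hC, hmain⟩ := absorb_main hAbs r hr
  refine ⟨c, 4 * C + 8, hc, by linarith, ?_⟩
  intro F _ _ _ a k s β hk hs D ε hD hε ι _ τ hτ ψ P hψ C' hC' x
  obtain ⟨k, rfl⟩ : ∃ k', k = k' + 1 := ⟨k - 1, by omega⟩
  set K := KK β (k + 1) s ((2 * s + 3) * (k + 1 + 1) + 2) with hK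
  set g := gg τ ψ P C' with hg
  set n : ℕ := Fintype.card (Ix (k + 1) a) with hn
  have hKey' := hKey D ε hD hε (Ix (k + 1) a) K ι τ hτ ψ P hψ C' hC'
  have hD' : (0 : ℝ) ≤ ε * 2 ^ n := by positivity
  -- sup bound
  have hsup : ∀ ξ, K ξ → |g ξ| ≤ D + ε * 2 ^ n := by
    intro ξ hξ
    have h := hKey' (Fin 0) 0 ξ (fun ζ => by simpa using hξ) (fun _ => 1)
    simp only [AddMonoidHom.zero_apply, add_zero, one_mul, Finset.univ_unique,
      Finset.sum_singleton, abs_one, mul_one, hat, Fintype.card_fin] at h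
    have h2 : ∀ y z : V (Fin 0), w z y = 1 := by
      intro y z
      have : z = 0 := Subsingleton.elim _ _
      rw [this, w_zero]
    simp only [h2, abs_one, Real.one_rpow, mul_one] at h
    exact h
  have hkk : ∀ b : ℕ, b ≤ 2 * s + 1 → ∀ (Φ : V (Fin b × Fin b) →+ V (Ix (k + 1) a))
      (ξ₀ : V (Ix (k + 1) a)), (∀ Z, K (ξ₀ + Φ Z)) → ∀ ω : V (Fin b × Fin b) → ℝ,
      |∑ Z, ω Z * g (ξ₀ + Φ Z)| ≤
        (D + ε * 2 ^ n) * (∑ z, |hat ω z| ^ r) ^ (1 / r) +
          (ε * 2 ^ (n + (2 * s + 1) ^ 2)) * ∑ Z, |ω Z| := by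
    intro b hb Φ ξ₀ hΦ ω
    have h := hKey' (Fin b × Fin b) Φ ξ₀ hΦ ω
    refine h.trans (add_le_add ?_ ?_)
    · apply mul_le_mul_of_nonneg_right (by linarith)
      apply Real.rpow_nonneg
      exact Finset.sum_nonneg fun z _ => Real.rpow_nonneg (abs_nonneg _) _
    · apply mul_le_mul_of_nonneg_right _ (Finset.sum_nonneg fun z _ => abs_nonneg _)
      apply mul_le_mul_of_nonneg_left _ hε
      apply pow_le_pow_right₀ (by norm_num)
      have h1 : Fintype.card (Fin b × Fin b) = b * b := by simp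
      have h2 : b * b ≤ (2 * s + 1) ^ 2 := by nlinarith
      rw [h1]
      exact Nat.add_le_add_left h2 _
  have h := hmain F Bool (Fin a) (Ix (k + 1) a) β s hs (fun k => Yc s k) good_Yc K g
    (D + ε * 2 ^ n) (ε * 2 ^ (n + (2 * s + 1) ^ 2)) (by positivity) hsup hkk k (iot β s)
    (fun Y hY => KK_of_Yc (by omega) β (by nlinarith) Y hY) x
  rw [← av_fr, ← av_fr, ← av_sub] at h
  simp only [iot_yx, iot_fr] at h
  refine h.trans ?_
  have hcs : (2 : ℝ) ^ (-c * s) ≤ 1 := by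
    rw [Real.rpow_le_one_iff_of_pos (by norm_num)]
    left
    refine ⟨by norm_num, ?_⟩
    rw [neg_mul]
    have : 0 ≤ c * s := by positivity
    linarith
  have hcs0 : (0 : ℝ) < (2 : ℝ) ^ (-c * s) := by positivity
  have e1 : ε * 2 ^ n ≤ ε * 2 ^ (n + (2 * s + 3) ^ 2) :=
    mul_le_mul_of_nonneg_left (pow_le_pow_right₀ (by norm_num) (by omega)) hε
  have e2 : ε * 2 ^ (n + (2 * s + 1) ^ 2) ≤ ε * 2 ^ (n + (2 * s + 3) ^ 2) :=
    mul_le_mul_of_nonneg_left (pow_le_pow_right₀ (by norm_num)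
      (by have : (2 * s + 1) ^ 2 ≤ (2 * s + 3) ^ 2 := Nat.pow_le_pow_left (by omega) 2
          omega)) hε
  set X : ℝ := ε * 2 ^ (n + (2 * s + 3) ^ 2) with hX
  have hX0 : 0 ≤ X := by positivity
  have e3 : C * (D + ε * 2 ^ n) * (2 : ℝ) ^ (-c * s) ≤ C * (D * (2 : ℝ) ^ (-c * s)) + C * X := by
    have h1 : C * (ε * 2 ^ n) * (2 : ℝ) ^ (-c * s) ≤ C * X * 1 :=
      mul_le_mul (mul_le_mul_of_nonneg_left e1 hC.le) hcs hcs0.le (by positivity)
    nlinarith
  have e4 : C * (D + ε * 2 ^ n) * (2 : ℝ) ^ (-c * s) + 2 * (ε * 2 ^ (n + (2 * s + 1) ^ 2)) ≤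
      C * (D * (2 : ℝ) ^ (-c * s)) + C * X + 2 * X := by linarith
  have hDc : 0 ≤ D * (2 : ℝ) ^ (-c * s) := by positivity
  have e5 : C * (D + ε * 2 ^ n) * (2 : ℝ) ^ (-c * s) + 2 * (ε * 2 ^ (n + (2 * s + 1) ^ 2)) ≤
      (C + 2) * (D * (2 : ℝ) ^ (-c * s) + X) := by nlinarith
  have hk0 : (0 : ℝ) ≤ k := Nat.cast_nonneg k
  calc 4 * (k : ℝ) * (C * (D + ε * 2 ^ n) * (2 : ℝ) ^ (-c * s) +
        2 * (ε * 2 ^ (n + (2 * s + 1) ^ 2)))
      ≤ 4 * (k : ℝ) * ((C + 2) * (D * (2 : ℝ) ^ (-c * s) + X)) :=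
        mul_le_mul_of_nonneg_left e5 (by positivity)
    _ = (k : ℝ) * ((4 * C + 8) * (D * (2 : ℝ) ^ (-c * s) + X)) := by ring
    _ ≤ ((k + 1 : ℕ) : ℝ) * ((4 * C + 8) * (D * (2 : ℝ) ^ (-c * s) + X)) := by
        apply mul_le_mul_of_nonneg_right _ (by positivity)
        push_cast
        linarith

end B3

theorem specBlock3_of (hAbs : SpecAbs) (hGt : SpecKeyGt) (hLt : SpecKeyLt) : SpecBlock3 := by
  intro p hp hp2
  rcases lt_or_gt_of_ne hp2 with h | h
  · refine B3.block_of hAbs p (p / (p - 1)) ?_ (hLt p hp h.le)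
    rw [lt_div_iff₀ (by linarith)]
    linarith
  · exact B3.block_of hAbs p p h (hGt p h.le)

end Vale.Agent.P249.TP3
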