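import Vale.Agent.P249.TP3.Spec
import Vale.Agent.P249.TP.Final

/-! # P249, phase 3, FINAL3: asymptotics (second source, helper892) -/

open Finset MeasureTheory
open scoped BigOperators

namespace Vale.Agent.P249.TP3

open Vale.Agent.P249.TP

namespace Fin892

/-- numerics -/
lemma numerics (k₀ : ℕ) : ∃ x₀ : ℝ, 1 ≤ x₀ ∧ ∀ x : ℝ, x₀ ≤ x →
    k₀ ≤ ⌊x ^ (1 / 19 : ℝ)⌋₊ ∧ ((⌊x ^ (1 / 19 : ℝ)⌋₊ : ℕ) : ℝ) ^ 19 ≤ x ∧
      Real.exp (x ^ (1 / 20 : ℝ)) ≤
        Real.log 2 * ((2 : ℝ) ^ (⌊x ^ (1 / 19 : ℝ)⌋₊ : ℕ) / 2) := by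
  refine ⟨(max (k₀ : ℝ) (2 ^ 20)) ^ 19, ?_, fun x hx => ?_⟩
  · exact one_le_pow₀ (le_trans (by norm_num) (le_max_right _ _))
  set M : ℝ := max (k₀ : ℝ) (2 ^ 20) with hM
  have hM0 : 0 ≤ M := le_trans (by norm_num) (le_max_right _ _)
  have hx0 : 0 < x := lt_of_lt_of_le (by positivity) hx
  set u : ℝ := x ^ (1 / 19 : ℝ) with hu
  have hu0 : 0 ≤ u := Real.rpow_nonneg hx0.le _
  have hux : u ^ 19 = x := by
    rw [hu, ← Real.rpow_natCast, ← Real.rpow_mul hx0.le]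
    norm_num
  have hMu : M ≤ u := by
    have h1 : M ^ 19 ≤ u ^ 19 := by rw [hux]; exact hx
    exact le_of_pow_le_pow_left₀ (by norm_num) hu0 h1
  have hk0u : (k₀ : ℝ) ≤ u := (le_max_left _ _).trans hMu
  have h2u : (2 : ℝ) ^ 20 ≤ u := (le_max_right _ _).trans hMu
  have hfl : (⌊u⌋₊ : ℝ) ≤ u := Nat.floor_le hu0
  have hfl2 : u - 1 ≤ (⌊u⌋₊ : ℝ) := by
    have := Nat.lt_floor_add_one u
    linarith
  refine ⟨Nat.le_floor hk0u, ?_, ?_⟩
  · rw [← hux]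
    exact pow_le_pow_left₀ (Nat.cast_nonneg _) hfl 19
  · have hl2 : (0.69 : ℝ) ≤ Real.log 2 := by
      have := Real.log_two_gt_d9
      linarith
    have hupos : 0 < u := lt_of_lt_of_le (by positivity) h2u
    have h1 : x ^ (1 / 20 : ℝ) = u ^ (19 / 20 : ℝ) := by
      rw [hu, ← Real.rpow_mul hx0.le]
      norm_num
    have h2 : (2 : ℝ) ≤ u ^ (1 / 20 : ℝ) := by
      have h3 : ((2 : ℝ) ^ 20) ^ (1 / 20 : ℝ) ≤ u ^ (1 / 20 : ℝ) :=
        Real.rpow_le_rpow (by positivity) h2u (by norm_num)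
      have h4 : ((2 : ℝ) ^ 20) ^ (1 / 20 : ℝ) = 2 := by
        rw [← Real.rpow_natCast, ← Real.rpow_mul (by norm_num)]
        norm_num
      linarith
    have h3 : u ^ (19 / 20 : ℝ) * u ^ (1 / 20 : ℝ) = u := by
      rw [← Real.rpow_add hupos]
      norm_num
    have h4 : u ^ (19 / 20 : ℝ) ≤ u / 2 := by
      have h5 : 0 ≤ u ^ (19 / 20 : ℝ) := Real.rpow_nonneg hu0 _
      have h6 : u ^ (19 / 20 : ℝ) * 2 ≤ u ^ (19 / 20 : ℝ) * u ^ (1 / 20 : ℝ) :=
        mul_le_mul_of_nonneg_left h2 h5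
      linarith
    rw [h1]
    have h6 : Real.exp (u ^ (19 / 20 : ℝ)) ≤ Real.exp ((u - 3) * Real.log 2) := by
      apply Real.exp_le_exp.mpr
      have h7 : (2 : ℝ) ^ 20 = 1048576 := by norm_num
      have h8 : (u - 3) * 0.69 ≤ (u - 3) * Real.log 2 :=
        mul_le_mul_of_nonneg_left hl2 (by linarith)
      linarith
    refine h6.trans ?_
    have h7 : Real.exp ((u - 3) * Real.log 2) = (2 : ℝ) ^ (u - 3) := by
      rw [Real.rpow_def_of_pos (by norm_num), mul_comm]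
    rw [h7]
    have h8 : (2 : ℝ) ^ (u - 3) ≤ (2 : ℝ) ^ ((⌊u⌋₊ : ℝ) - 2) :=
      Real.rpow_le_rpow_of_exponent_le (by norm_num) (by linarith)
    refine h8.trans ?_
    rw [Real.rpow_sub (by norm_num), Real.rpow_natCast]
    have h9 : (0 : ℝ) < (2 : ℝ) ^ ⌊u⌋₊ := by positivity
    have h10 : (2 : ℝ) ^ (2 : ℝ) = 4 := by norm_num
    rw [h10]
    nlinarith

end Fin892

set_option linter.style.haveILetI false in
open FinT in
/-- **FINAL3** -/
theorem specFinal3_of892 (hcore : SpecCore3) : SpecFinal3 := by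
  intro p _ hp1 hpt hp2 D hD
  have hpr1 : 1 < p.toReal := by
    have := (ENNReal.toReal_lt_toReal (by simp) hpt).mpr hp1
    simpa using this
  have hpr2 : p.toReal ≠ 2 := by
    intro h
    apply hp2
    have h2 : p.toReal = (2 : ENNReal).toReal := by rw [h]; simp
    exact (ENNReal.toReal_eq_toReal_iff' hpt (by simp)).mp h2
  obtain ⟨k₀, hcore'⟩ := hcore p.toReal D hpr1 hpr2 hD
  obtain ⟨x₀, hx₀, hnum⟩ := Fin892.numerics k₀
  refine ⟨⌈Real.exp (Real.exp x₀)⌉₊, fun N hN => ?_⟩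
  have hN1 : Real.exp (Real.exp x₀) ≤ N := (Nat.le_ceil _).trans (by exact_mod_cast hN)
  have hNpos : (0 : ℝ) < N := lt_of_lt_of_le (Real.exp_pos _) hN1
  have hL1 : Real.exp x₀ ≤ Real.log N := (Real.le_log_iff_exp_le hNpos).mpr hN1
  have hLpos : 0 < Real.log (N : ℝ) := lt_of_lt_of_le (Real.exp_pos _) hL1
  have hx : x₀ ≤ Real.log (Real.log N) := (Real.le_log_iff_exp_le hLpos).mpr hL1
  obtain ⟨hm1, hm2, hm3⟩ := hnum _ hx
  set m : ℕ := ⌊Real.log (Real.log (N : ℝ)) ^ (1 / 19 : ℝ)⌋₊ with hm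
  obtain ⟨I, _, _, X, hX1, hX2⟩ := hcore' m hm1
  have hcard : X.card ≤ N := by
    by_cases hX0 : X.card = 0
    · omega
    · have hXpos : (0 : ℝ) < X.card := by
        have : 0 < X.card := Nat.pos_of_ne_zero hX0
        exact_mod_cast this
      have h3 : Real.log X.card ≤ Real.log N := by
        calc Real.log X.card ≤ Real.exp ((m : ℝ) ^ 19) := hX1
          _ ≤ Real.exp (Real.log (Real.log N)) := Real.exp_le_exp.mpr hm2
          _ = Real.log N := Real.exp_log hLpos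
      have := (Real.log_le_log_iff hXpos hNpos).mp h3
      exact_mod_cast this
  letI : MeasurableSpace (V I) := ⊤
  haveI : DiscreteMeasurableSpace (V I) := ⟨fun _ => trivial⟩
  obtain ⟨Y, hY1, hY2⟩ := transfer hpt X N hcard hX2
  refine ⟨V I, inferInstance, unif _, isProb_unif _, Y, hY1, ?_⟩
  intro d hd
  have hlt := hY2 d hd
  refine le_trans ?_ hlt.le
  rw [Real.rpow_def_of_pos (by norm_num : (0 : ℝ) < 2)]
  exact Real.exp_le_exp.mpr hm3

end Vale.Agent.P249.TP3
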