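import Vale.Agent.P249.TP3.Path3

/-!
# P249, phase 3: GRADE3 and COUNT3 (helper54)
-/

open Finset
open scoped BigOperators

namespace Vale.Agent.P249.TP3

open Vale.Agent.P249.TP

namespace Gr3

variable {F : Type} [Field F] {k s a : ℕ}

lemma sf_zero (hk : 1 ≤ k) : sf (0 : Om F k s) = 0 := by
  funext c
  obtain ⟨k, rfl⟩ : ∃ j, k = j + 1 := ⟨k - 1, by omega⟩
  simp [sf, mp, List.ofFn_succ]

lemma Sm_zero (β : F ≃+ V (Fin a)) (hk : 1 ≤ k) : Sm β (0 : Om F k s) = 0 := by
  funext x
  simp [Sm, tr, sf_zero hk]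

/-- elementary tensors are matrix products -/
lemma sf_elem (x : Fin k → Bool → F) :
    sf (fun l c => x l c • (1 : Mt F s)) = tn x := by
  funext c
  have h : ∀ (n : ℕ) (y : Fin n → F), (List.ofFn fun i => y i • (1 : Mt F s)).prod =
      (∏ i, y i) • (1 : Mt F s) := by
    intro n
    induction n with
    | zero => intro y; simp
    | succ n ih =>
      intro y
      rw [List.ofFn_succ, List.prod_cons, ih (fun i => y i.succ), Fin.prod_univ_succ,
        smul_mul_smul_comm, mul_one]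
  unfold sf mp tn
  rw [h k fun i => x i (c i)]
  simp

end Gr3

open Gr3 in
theorem specGrade3 : SpecGrade3 := by
  classical
  intro F _ a k s β hk
  refine ⟨⟨fun i => i.elim0, by simp⟩, ?_, ?_, ?_⟩
  · rintro m n S hmn ⟨ω, rfl⟩
    obtain ⟨j, rfl⟩ := Nat.exists_eq_add_of_le hmn
    refine ⟨Fin.append ω (fun _ => 0), ?_⟩
    rw [Fin.sum_univ_add]
    simp [Sm_zero β hk]
  · rintro m n S S' ⟨ω, rfl⟩ ⟨ω', rfl⟩
    refine ⟨Fin.append ω ω', ?_⟩
    rw [Fin.sum_univ_add]
    simp
  · intro i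
    refine ⟨fun _ => fun l c => (if c = i.1 l then
      (if (l : ℕ) = 0 then β.symm (Pi.single i.2 1) else 1) else 0) • (1 : Mt F s), ?_⟩
    rw [Fin.sum_univ_one, single_eq_tr β hk i]
    unfold Sm
    rw [sf_elem]

theorem specCount3 : SpecCount3 := by
  classical
  intro F _ _ a k s r β
  have h1 : Nat.card {S : V (Ix k a) // KK β k s r S} ≤ Nat.card (Fin r → Om F k s) := by
    refine Nat.card_le_card_of_surjective
      (fun ω : Fin r → Om F k s => (⟨∑ i, Sm β (ω i), ω, rfl⟩ :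
        {S : V (Ix k a) // KK β k s r S})) ?_
    rintro ⟨S, ω, rfl⟩
    exact ⟨ω, rfl⟩
  have h2 : Nat.card (Fin r → Om F k s) = Fintype.card F ^ (r * (2 * k * (s + 1) ^ 2)) := by
    rw [Nat.card_eq_fintype_card]
    simp only [Om, Mt, Fintype.card_fun, Fintype.card_fin, Fintype.card_bool]
    have h3 : Fintype.card (Matrix (Fin (s + 1)) (Fin (s + 1)) F) =
        Fintype.card F ^ ((s + 1) ^ 2) := by
      have : Fintype.card (Matrix (Fin (s + 1)) (Fin (s + 1)) F) =
        Fintype.card (Fin (s + 1) → Fin (s + 1) → F) := Fintype.card_congr (Equiv.refl _)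
      rw [this]
      simp only [Fintype.card_fun, Fintype.card_fin]
      rw [← pow_mul]; ring_nf
    rw [h3, ← pow_mul, ← pow_mul, ← pow_mul]
    congr 1
    ring
  rw [h2] at h1
  exact_mod_cast h1

end Vale.Agent.P249.TP3
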