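import Vale.Agent.P249.TP.Spec

/-!
# P249, phase 3: `log log d_p(n, D) ≥ (log log n) ^ (1/20)`, `p ≠ 2`
Frozen definitions and statements (host helper54).  Each `SpecXxx : Prop` below is to be proved as
`theorem specXxx : SpecXxx` in the file named in its doc string.  Proofs: `TP3/PROOF.md`.
Definitions of phase 2 (`V, sg, pr, w, av, nE, nT, Sys, TestFam, L3, BiLip, def1, def2, Graded, gg,
hat, bil, SpecKeyGt, SpecKeyLt, SpecAbs`) are those of `TP/Spec.lean`.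
-/

open Finset
open scoped BigOperators

namespace Vale.Agent.P249.TP3

open Vale.Agent.P249.TP

/-! ### Matrix products -/

/-- matrices of size `s + 1` -/
abbrev Mt (F : Type) (s : ℕ) := Matrix (Fin (s + 1)) (Fin (s + 1)) F

/-- parameters: `k` modes, alphabet `Bool` -/
abbrev Om (F : Type) (k s : ℕ) := Fin k → Bool → Mt F s

section mp

variable {F : Type} [Field F] {k s a : ℕ}

/-- the product `ω_0(c_0) ω_1(c_1) ⋯ ω_{k-1}(c_{k-1})` -/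
def mp (ω : Om F k s) (c : Fin k → Bool) : Mt F s := (List.ofFn fun i => ω i (c i)).prod

/-- the `F`-valued tensor of a matrix product -/
def sf (ω : Om F k s) (c : Fin k → Bool) : F := mp ω c 0 0

/-- index set of the coordinates -/
abbrev Ix (k a : ℕ) := (Fin k → Bool) × Fin a

/-- from `F`-valued tensors to vectors over `F_2` -/
def tr (β : F ≃+ V (Fin a)) (f : (Fin k → Bool) → F) : V (Ix k a) := fun x => β (f x.1) x.2

/-- the frequency of a matrix product -/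
def Sm (β : F ≃+ V (Fin a)) (ω : Om F k s) : V (Ix k a) := tr β (sf ω)

/-- elementary tensors -/
def tn (x : Fin k → Bool → F) (c : Fin k → Bool) : F := ∏ i, x i (c i)

/-- sums of `r` matrix products -/
def KK (β : F ≃+ V (Fin a)) (k s r : ℕ) (S : V (Ix k a)) : Prop :=
  ∃ ω : Fin r → Om F k s, S = ∑ i, Sm β (ω i)

variable {q : ℕ}

/-- partial line sums; `t` enumerates `F` -/
def PS (β : F ≃+ V (Fin a)) (t : Fin q → F) (j : ℕ) (x : Om F k s × Om F k s) : V (Ix k a) :=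
  ∑ i ∈ univ.filter (fun i : Fin q => (i : ℕ) < j), Sm β (x.1 + t i • x.2)

/-- first frequency of a test: `inl j` = line test, `inr i` = additivity in the mode `i` -/
def ts (β : F ≃+ V (Fin a)) (t : Fin q → F) (u : Fin q ⊕ Fin k) (x : Om F k s × Om F k s) :
    V (Ix k a) :=
  match u with
  | Sum.inl j => PS β t j x
  | Sum.inr _ => Sm β x.1

/-- second frequency of a test -/
def ts' (β : F ≃+ V (Fin a)) (t : Fin q → F) (u : Fin q ⊕ Fin k) (x : Om F k s × Om F k s) :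
    V (Ix k a) :=
  match u with
  | Sum.inl j => Sm β (x.1 + t j • x.2)
  | Sum.inr i => Sm β (Function.update x.1 i (x.2 i))

end mp

/-! ### Statements: testing -/

/-- **RS** (Rubinfeld–Sudan self-correction).  File `Rs.lean`. -/
def SpecRs : Prop := ∀ (F Ω : Type) [Field F] [Fintype F] [AddCommGroup Ω] [Module F Ω]
  [Fintype Ω] (f : Ω → ZMod 2) (d : ℝ), 3 * (Fintype.card F : ℝ) ^ 2 * d < 1 →
  av (fun x : Ω × Ω => if ∑ t : F, f (x.1 + t • x.2) = 0 then (0 : ℝ) else 1) ≤ d →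
  ∃ g : Ω → ZMod 2, (∀ x h, ∑ t : F, g (x + t • h) = 0) ∧
    av (fun x => if f x = g x then (0 : ℝ) else 1) ≤ 2 * (Fintype.card F : ℝ) * d

/-- **ZT** (zero test).  File `Rs.lean`. -/
def SpecZt : Prop := ∀ (F Ω : Type) [Field F] [Fintype F] [AddCommGroup Ω] [Module F Ω]
  [Fintype Ω] (G : Ω → ZMod 2), (∀ x h, ∑ t : F, G (x + t • h) = 0) →
  (Fintype.card F : ℝ) * av (fun x => if G x = 0 then (0 : ℝ) else 1) < 1 → ∀ x, G x = 0

/-- **LINE** (a matrix product of `k ≤ q - 2` matrices sums to zero on lines).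
File `Line.lean`. -/
def SpecLine : Prop := ∀ (F : Type) [Field F] [Fintype F] (k s : ℕ), k + 2 ≤ Fintype.card F →
  ∀ (ω η : Om F k s) (c : Fin k → Bool), ∑ t : F, mp (ω + t • η) c = 0

/-- **ALG** (exact algebra: additive in each mode + gauge invariant).  File `Alg.lean`. -/
def SpecAlg : Prop := ∀ (F : Type) [Field F] [Fintype F] [DecidableEq F] (a k s : ℕ)
  (β : F ≃+ V (Fin a)), 1 ≤ k → 1 ≤ s → ∀ g : Om F k s → ZMod 2,
  (∀ (ω : Om F k s) (i : Fin k) (y : Bool → Mt F s),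
    g (Function.update ω i (ω i + y)) = g ω + g (Function.update ω i y)) →
  (∀ γ : Om F k s ≃ₗ[F] Om F k s, (∀ ω, sf (γ ω) = sf ω) → ∀ ω, g (γ ω) = g ω) →
  ∃ P : V (Ix k a), ∀ ω, g ω = pr (Sm β ω) P

/-- **LT3** (linearity testing on matrix products).  File `Lt3.lean`; uses RS, ZT, LINE, ALG. -/
def SpecLt3 : Prop := ∀ (F : Type) [Field F] [Fintype F] [DecidableEq F] (a k s : ℕ)
  (β : F ≃+ V (Fin a)) (t : Fin (Fintype.card F) ≃ F), 1 ≤ k → 1 ≤ s → k + 2 ≤ Fintype.card F →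
  ∀ (f : V (Ix k a) → ZMod 2) (e : ℝ), 0 ≤ e → 10 * (Fintype.card F : ℝ) ^ 4 * e ≤ 1 →
  (∀ u : Fin (Fintype.card F) ⊕ Fin k, av (fun x : Om F k s × Om F k s =>
    if f (ts β t u x) + f (ts' β t u x) = f (ts β t u x + ts' β t u x)
      then (0 : ℝ) else 1) ≤ e) →
  ∃ P : V (Ix k a), av (fun ω : Om F k s =>
    if f (Sm β ω) = pr (Sm β ω) P then (0 : ℝ) else 1) ≤ 2 * (Fintype.card F : ℝ) ^ 2 * e

/-! ### Statements: analysis -/

/-- **START3** (location map from a peaked system, abstract form).  File `Start3.lean`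
(adaptation of `TP/Start.lean`). -/
def SpecStart3 : Prop := ∀ p : ℝ, 1 < p → ∃ c : ℝ, 0 < c ∧ c ≤ 1 ∧
  ∀ (I U Ω Ω' : Type) [Fintype I] [DecidableEq I] [Fintype U] [Nonempty U] [Fintype Ω]
    [Nonempty Ω] [Fintype Ω'] [Nonempty Ω'] (S : Ω → V I) (s s' : U → Ω' → V I) (u₀ : U)
    (e : ℝ), 0 < e → e ≤ 1 →
    (∀ h : V I → ℝ, av (fun ω => h (S ω)) = av (fun x => h (s u₀ x))) →
    (∀ f : V I → ZMod 2, (∀ u, av (fun x => if f (s u x) + f (s' u x) = f (s u x + s' u x)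
        then (0 : ℝ) else 1) ≤ e) →
      ∃ P : V I, av (fun ω => if f (S ω) = pr (S ω) P then (0 : ℝ) else 1) ≤ 1 / 100) →
    ∀ (ι : Type) [Fintype ι] (T : V I → ι → ℝ) (H₀ : ℝ), 0 < H₀ → H₀ ≤ ∑ i, |T 0 i| ^ p →
      av (fun x : U × Ω' => def1 p T (s x.1 x.2) + def2 p T (s x.1 x.2) (s' x.1 x.2)) ≤
        c * e / Fintype.card U * ∑ i, |T 0 i| ^ p →
      ∃ (ψ : ι → ℝ) (P : ι → V I), ∑ i, |ψ i| ^ (p / (p - 1)) ≤ 1 ∧
        1 / 4 * H₀ ^ (1 / p) ≤ av (fun ω => ∑ i, ψ i * (w (S ω) (P i) * T (S ω) i))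

/-- **LIN3** (linearisation, explicit in `Λ`).  Files `Lin3*.lean` (adaptation of `TP/Lin.lean`,
`SP/LinL3*.lean`, `SP/LinLog.lean`: there `N` does not depend on `Λ` and `C₀ ≤ C Λ ^ 3`). -/
def SpecLin3 : Prop := ∀ p D : ℝ, 1 < p → 1 ≤ D → ∃ C : ℝ, 1 ≤ C ∧ ∀ Λ : ℝ, 1 ≤ Λ →
  ∀ (I : Type) [Fintype I] [DecidableEq I] (K : V I → Prop), K 0 → ∀ (ε : ℝ), 0 < ε → ε ≤ 1 →
    ∀ fam : TestFam p Λ K, ∃ X : Finset (V I → ℝ),
      Real.log X.card ≤ C * Λ * (Nat.card {S : V I // K S} : ℝ) ^ 4 *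
        ((Fintype.card I : ℝ) + 1) ^ 2 * (1 + Real.log (1 / ε)) ∧
      ∀ (ι : Type) [Fintype ι] (F : (V I → ℝ) → ι → ℝ), BiLip p D X F →
        ∃ τ : List (I × ZMod 2) → V I → ι → ℝ, Sys p D ε K τ ∧ L3 fam τ

/-- **UNI3** (choice of the universe, explicit in `δ`).  File `Uni3.lean` (the proof of
`TP/Uni.lean` with its constants written out: `Λ = 4 ^ L`, `ν = 4 ^ (-L)`, `H₀ = 4 ^ (-L) / C`). -/
def SpecUni3 : Prop := ∀ p D : ℝ, 1 < p → p ≠ 2 → 1 ≤ D → ∃ C : ℝ, 1 ≤ C ∧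
  ∀ δ : ℝ, 0 < δ → δ ≤ 1 → ∃ L : ℕ, 1 ≤ L ∧ (L : ℝ) ≤ C / δ ∧
    ∀ (I : Type) [Fintype I] [DecidableEq I] (K : ℕ → V I → Prop), Graded K →
      ∀ (Q : Type) [Fintype Q] [Nonempty Q] (s s' : Q → V I) (m : ℕ),
      (∀ q, K m (s q)) → (∀ q, K m (s' q)) →
      ∃ fam : TestFam p (4 ^ L) (K (2 * L * m)), ∀ ε : ℝ, 0 ≤ ε → ε ≤ (1 / 4) ^ L →
        ∀ (m' : ℕ) (ι : Type) [Fintype ι] (τ : List (I × ZMod 2) → V I → ι → ℝ),
          Sys p D ε (K (2 * L * m + m')) τ → L3 fam τ →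
          ∃ τ' : List (I × ZMod 2) → V I → ι → ℝ, Sys p D ε (K m') τ' ∧
            1 / C * (1 / 4) ^ L ≤ ∑ i, |τ' [] 0 i| ^ p ∧
            av (fun q => def1 p (τ' []) (s q) + def2 p (τ' []) (s q) (s' q)) ≤
              δ * ∑ i, |τ' [] 0 i| ^ p

/-! ### Statements: structure of the frequencies -/

/-- **GRADE3**.  File `Grade3.lean`. -/
def SpecGrade3 : Prop := ∀ (F : Type) [Field F] (a k s : ℕ) (β : F ≃+ V (Fin a)), 1 ≤ k →
  Graded (KK β k s)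

/-- **COUNT3**.  File `Grade3.lean`. -/
def SpecCount3 : Prop := ∀ (F : Type) [Field F] [Fintype F] (a k s r : ℕ)
  (β : F ≃+ V (Fin a)),
  (Nat.card {S : V (Ix k a) // KK β k s r S} : ℝ) ≤
    (Fintype.card F : ℝ) ^ (r * (2 * k * (s + 1) ^ 2))

/-- **BLOCK3** (absorption of an elementary tensor by a random matrix product, bond by bond).
File `Block3.lean`; uses `SpecAbs`, `SpecKeyGt`, `SpecKeyLt` of phase 2. -/
def SpecBlock3 : Prop := ∀ p : ℝ, 1 < p → p ≠ 2 → ∃ c C : ℝ, 0 < c ∧ 0 < C ∧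
  ∀ (F : Type) [Field F] [Fintype F] [DecidableEq F] (a k s : ℕ) (β : F ≃+ V (Fin a)),
    1 ≤ k → 1 ≤ s →
    ∀ (D ε : ℝ), 1 ≤ D → 0 ≤ ε → ∀ (ι : Type) [Fintype ι]
    (τ : List (Ix k a × ZMod 2) → V (Ix k a) → ι → ℝ),
    Sys p D ε (KK β k s ((2 * s + 3) * (k + 1) + 2)) τ →
    ∀ (ψ : ι → ℝ) (P : ι → V (Ix k a)), ∑ i, |ψ i| ^ (p / (p - 1)) ≤ 1 →
    ∀ C' : List (Ix k a), C'.length ≤ Fintype.card (Ix k a) → ∀ x : Fin k → Bool → F,
      |av (fun ω : Om F k s =>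
        gg τ ψ P C' (Sm β ω + tr β (tn x)) - gg τ ψ P C' (Sm β ω))| ≤
        k * (C * (D * (2 : ℝ) ^ (-c * s) +
          ε * 2 ^ (Fintype.card (Ix k a) + (2 * s + 3) ^ 2)))

/-! ### Assembly -/

/-- **CORE3** (assembly).  File `Core3.lean`. -/
def SpecCore3 : Prop := ∀ (p D : ℝ), 1 < p → p ≠ 2 → 1 ≤ D →
  ∃ k₀ : ℕ, ∀ k : ℕ, k₀ ≤ k → ∃ (I : Type) (_ : Fintype I) (_ : DecidableEq I)
    (X : Finset (V I → ℝ)),
    Real.log X.card ≤ Real.exp ((k : ℝ) ^ 19) ∧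
    ∀ (ι : Type) [Fintype ι] (F : (V I → ℝ) → ι → ℝ), BiLip p D X F →
      (2 : ℝ) ^ ((2 : ℝ) ^ k / 2) < Fintype.card ι

/-- **FINAL3** (asymptotics and translation to `L_p(μ)`).  File `Final3.lean`; uses CORE3. -/
def SpecFinal3 : Prop := ∀ (p : ENNReal) [Fact (1 ≤ p)], 1 < p → p ≠ ⊤ → p ≠ 2 →
  ∀ D : ℝ, 1 ≤ D → ∃ n₀ : ℕ, ∀ n : ℕ, n₀ ≤ n →
    ∃ (Ω : Type) (_ : MeasurableSpace Ω) (μ : MeasureTheory.Measure Ω)
      (_ : MeasureTheory.IsProbabilityMeasure μ) (X : Finset (MeasureTheory.Lp ℝ p μ)),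
      X.card = n ∧ ∀ d : ℕ,
        (∃ f : MeasureTheory.Lp ℝ p μ → PiLp p (fun _ : Fin d => ℝ), ∃ s : ℝ, 0 < s ∧
          ∀ x ∈ X, ∀ y ∈ X, s * ‖x - y‖ ≤ ‖f x - f y‖ ∧ ‖f x - f y‖ ≤ D * s * ‖x - y‖) →
        Real.exp (Real.exp ((Real.log (Real.log n)) ^ (1 / 20 : ℝ))) ≤ d

end Vale.Agent.P249.TP3
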