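import Vale.Agent.P249.TP3.Lin3Log
import Vale.Agent.P249.TP3.Spec
import Vale.Agent.P249.TP.Lin

/-!
# P249, phase 3, block LIN3: linearisation, explicit in `Λ`
(adaptation of `SP/LinL3.lean` of helper586 and `TP/Lin.lean` by helper892)
-/

open Finset

namespace Vale.Agent.P249.TP3

open Vale.Agent.P249.H65 (box bavg ic l1)
open Vale.Agent.P249.SP (nT)

/-- LIN-L3 with explicit dependence on `Λ` -/
def SpecL3x : Prop := ∀ p D : ℝ, 1 < p → 1 ≤ D →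
  ∃ (N : ℕ) (C₁ : ℝ), 1 ≤ C₁ ∧ ∀ Λ : ℝ, 1 ≤ Λ →
    ∀ (κ : Type) [Fintype κ] [DecidableEq κ]
      (E : Type) [NormedAddCommGroup E] [NormedSpace ℝ E] (φ : (κ → ℝ) →ₗ[ℝ] E),
      (∀ i, ‖φ (Pi.single i 1)‖ ≤ 1) →
      ∀ (W : Type) [Fintype W] (π : W → ℝ) (b : W → κ → ℤ), (∀ t, 0 ≤ π t) →
        (∀ t, l1 (ic (b t)) ≤ Λ) → (∑ t, π t ≤ Λ * ∑ t, π t * ‖φ (ic (b t))‖ ^ p) →
        ∀ B : ℕ, C₁ * Λ ^ 3 * ((Fintype.card κ : ℝ) + 1) ≤ B →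
          ∀ (ι : Type) [Fintype ι] (g : (κ → ℤ) → ι → ℝ),
            (∀ a a' : κ → ℤ, (∀ i, |a i| ≤ 4 * (B : ℤ) ^ (N + 2)) →
              (∀ i, |a' i| ≤ 4 * (B : ℤ) ^ (N + 2)) →
              ‖φ (ic (a - a'))‖ ≤ nT p (g a - g a') ∧
              nT p (g a - g a') ≤ D * ‖φ (ic (a - a'))‖) →
            ∃ (j : ℕ) (x₀ : κ → ℤ), j ≤ N ∧ (∀ i, |x₀ i| ≤ (B : ℤ) ^ (N + 2)) ∧
              (2 / 3) ^ p * ∑ t, π t * ‖φ (ic (b t))‖ ^ p ≤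
                ∑ t, π t * nT p (bavg (B ^ (j + 1)) fun a =>
                  g (x₀ + a + b t) - g (x₀ + a)) ^ p

/-- constants, independent of `Λ` -/
theorem exists_consts3 {p D C : ℝ} (hp : 1 ≤ p) (hD : 1 ≤ D) (hC : 0 ≤ C) :
    ∃ (N : ℕ) (C₁ : ℝ), 0 < N ∧ 2 ≤ C₁ ∧ ∀ Λ : ℝ, 1 ≤ Λ → 2 ≤ C₁ * Λ ^ 3 ∧ Λ ≤ C₁ * Λ ^ 3 ∧
      (18 : ℝ) ^ (p - 1) * ((C * (2 * D ^ p / N + (2 + 2 * p) * D ^ p / (C₁ * Λ ^ 3)) +
        4 * (1 / (32 * (18 : ℝ) ^ (p - 1) * D ^ p)) * D ^ p) +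
          Λ * (8 * D * Λ ^ 2 / (C₁ * Λ ^ 3)) ^ p) ≤ 1 / 4 := by
  have h18 : (0 : ℝ) < 18 ^ (p - 1) := by positivity
  have hD0 : 0 < D := by linarith
  have hDp : (0 : ℝ) < D ^ p := by positivity
  obtain ⟨N, hN⟩ := exists_nat_ge (64 * (18 : ℝ) ^ (p - 1) * C * D ^ p + 1)
  have hN1 : (1 : ℝ) ≤ N := by
    have : 0 ≤ 64 * (18 : ℝ) ^ (p - 1) * C * D ^ p := by positivity
    linarith
  have hp0 : 0 ≤ p := by linarith
  set C₁ : ℝ := 3 + 32 * (18 : ℝ) ^ (p - 1) * C * (2 + 2 * p) * D ^ p +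
    8 * D + 32 * (18 : ℝ) ^ (p - 1) * (8 * D) with hC₁
  have a1 : 0 ≤ 32 * (18 : ℝ) ^ (p - 1) * C * (2 + 2 * p) * D ^ p := by positivity
  have a2 : 0 ≤ 8 * D := by positivity
  have a3 : 0 ≤ 32 * (18 : ℝ) ^ (p - 1) * (8 * D) := by positivity
  refine ⟨N, C₁, ?_, by linarith, ?_⟩
  · have : (0 : ℝ) < N := by linarith
    exact_mod_cast this
  intro Λ hΛ
  have hΛ0 : 0 < Λ := by linarith
  have hΛ2 : 1 ≤ Λ ^ 2 := one_le_pow₀ hΛ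
  have hΛ3 : 1 ≤ Λ ^ 3 := one_le_pow₀ hΛ
  have hΛ13 : Λ ≤ Λ ^ 3 := by nlinarith
  have hΛ23 : Λ ^ 2 ≤ Λ ^ 3 := by nlinarith
  have hC₁3 : 3 ≤ C₁ := by linarith
  set C₀ : ℝ := C₁ * Λ ^ 3 with hC₀
  have d0 : C₁ ≤ C₀ := by
    rw [hC₀]
    nlinarith
  have d1 : 32 * (18 : ℝ) ^ (p - 1) * C * (2 + 2 * p) * D ^ p ≤ C₀ := by linarith
  have d2 : 8 * D * Λ ^ 2 ≤ C₀ := by
    have e1 : 8 * D * Λ ^ 2 ≤ 8 * D * Λ ^ 3 := mul_le_mul_of_nonneg_left hΛ23 a2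
    have e2 : 8 * D * Λ ^ 3 ≤ C₀ := by
      rw [hC₀]
      exact mul_le_mul_of_nonneg_right (by linarith) (by positivity)
    linarith
  have d3 : 32 * (18 : ℝ) ^ (p - 1) * Λ * (8 * D * Λ ^ 2) ≤ C₀ := by
    have e1 : 32 * (18 : ℝ) ^ (p - 1) * Λ * (8 * D * Λ ^ 2) =
        32 * (18 : ℝ) ^ (p - 1) * (8 * D) * Λ ^ 3 := by ring
    rw [e1, hC₀]
    exact mul_le_mul_of_nonneg_right (by linarith) (by positivity)
  have d4 : Λ ≤ C₀ := by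
    rw [hC₀]
    nlinarith
  have hC₀0 : 0 < C₀ := by linarith
  refine ⟨by linarith, d4, ?_⟩
  have hNr : (0 : ℝ) < N := by linarith
  have b1 : (18 : ℝ) ^ (p - 1) * (C * (2 * D ^ p / N)) ≤ 1 / 32 := by
    have : (18 : ℝ) ^ (p - 1) * (C * (2 * D ^ p / N))
        = (64 * (18 : ℝ) ^ (p - 1) * C * D ^ p) / N * (1 / 32) := by ring
    rw [this]
    have h2 : (64 * (18 : ℝ) ^ (p - 1) * C * D ^ p) / N ≤ 1 := by
      rw [div_le_one hNr]; linarith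
    linarith
  have b2 : (18 : ℝ) ^ (p - 1) * (C * ((2 + 2 * p) * D ^ p / C₀)) ≤ 1 / 32 := by
    have : (18 : ℝ) ^ (p - 1) * (C * ((2 + 2 * p) * D ^ p / C₀))
        = (32 * (18 : ℝ) ^ (p - 1) * C * (2 + 2 * p) * D ^ p) / C₀ * (1 / 32) := by ring
    rw [this]
    have h2 : (32 * (18 : ℝ) ^ (p - 1) * C * (2 + 2 * p) * D ^ p) / C₀ ≤ 1 := by
      rw [div_le_one hC₀0]; linarith
    linarith
  have b3 : (18 : ℝ) ^ (p - 1) * (4 * (1 / (32 * (18 : ℝ) ^ (p - 1) * D ^ p)) * D ^ p)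
      = 1 / 8 := by
    field_simp
    norm_num
  have b4 : (18 : ℝ) ^ (p - 1) * (Λ * (8 * D * Λ ^ 2 / C₀) ^ p) ≤ 1 / 32 := by
    have c1 : 8 * D * Λ ^ 2 / C₀ ≤ 1 := by rw [div_le_one hC₀0]; linarith
    have c0 : 0 ≤ 8 * D * Λ ^ 2 / C₀ := by positivity
    have c2 : (8 * D * Λ ^ 2 / C₀) ^ p ≤ 8 * D * Λ ^ 2 / C₀ := by
      calc (8 * D * Λ ^ 2 / C₀) ^ p ≤ (8 * D * Λ ^ 2 / C₀) ^ (1 : ℝ) :=
            Real.rpow_le_rpow_of_exponent_ge' c0 c1 (by norm_num) hp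
        _ = _ := Real.rpow_one _
    have c3 : (18 : ℝ) ^ (p - 1) * (Λ * (8 * D * Λ ^ 2 / C₀))
        = (32 * (18 : ℝ) ^ (p - 1) * Λ * (8 * D * Λ ^ 2)) / C₀ * (1 / 32) := by ring
    have c4 : (32 * (18 : ℝ) ^ (p - 1) * Λ * (8 * D * Λ ^ 2)) / C₀ ≤ 1 := by
      rw [div_le_one hC₀0]; linarith
    have c5 := mul_le_mul_of_nonneg_left c2 (show 0 ≤ (18 : ℝ) ^ (p - 1) * Λ by positivity)
    linarith
  have e : (18 : ℝ) ^ (p - 1) * ((C * (2 * D ^ p / N + (2 + 2 * p) * D ^ p / C₀) +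
        4 * (1 / (32 * (18 : ℝ) ^ (p - 1) * D ^ p)) * D ^ p) +
          Λ * (8 * D * Λ ^ 2 / C₀) ^ p)
      = (18 : ℝ) ^ (p - 1) * (C * (2 * D ^ p / N)) +
        (18 : ℝ) ^ (p - 1) * (C * ((2 + 2 * p) * D ^ p / C₀)) +
        (18 : ℝ) ^ (p - 1) * (4 * (1 / (32 * (18 : ℝ) ^ (p - 1) * D ^ p)) * D ^ p) +
        (18 : ℝ) ^ (p - 1) * (Λ * (8 * D * Λ ^ 2 / C₀) ^ p) := by ring
  rw [e, b3]
  linarith

open Vale.Agent.P249.H65 Vale.Agent.P249.SP Vale.Agent.P249.SP.LThree in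
theorem specL3x : SpecL3x := by
  intro p D hp hD
  have hp1 : 1 ≤ p := hp.le
  have hD0 : 0 < D := by linarith
  set η : ℝ := 1 / (32 * (18 : ℝ) ^ (p - 1) * D ^ p) with hη
  have hη0 : 0 < η := by positivity
  obtain ⟨C, hC, huc⟩ := uconv hp hη0
  obtain ⟨N, C₁, hN, hC₁, hall⟩ := exists_consts3 hp1 hD hC.le
  refine ⟨N, C₁, by linarith, ?_⟩
  intro Λ hΛ
  obtain ⟨hC₀, hC₀Λ, hconst⟩ := hall Λ hΛ
  intro κ _ _ E _ _ φ hφ W _ π b hπ hb hmass B hB ι _ g hg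
  have : Fact (1 ≤ ENNReal.ofReal p) := ⟨by
    rw [← ENNReal.ofReal_one]; exact ENNReal.ofReal_le_ofReal hp1⟩
  set G : (κ → ℤ) → PiLp (ENNReal.ofReal p) (fun _ : ι => ℝ) :=
    fun a => WithLp.toLp (ENNReal.ofReal p) (g a) with hG
  have hBL : BL D (B ^ (N + 2)) φ G := by
    intro a a' ha ha'
    have h1 := hg a a' (fun i => by have := ha i; push_cast at this; exact this)
      (fun i => by have := ha' i; push_cast at this; exact this)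
    rw [nT_eq hp, WithLp.toLp_sub] at h1
    exact h1
  obtain ⟨j, x, hj, hx, hmain⟩ := l3_core hp1 hD hΛ hC.le hη0.le hN hC₀ hC₀Λ
    (uc_pi (ι := ι) hp huc) hφ π b hπ hb hmass hB hBL
  refine ⟨j + 1, x, by omega, fun i => by
    have := box_abs hx i; push_cast at this; exact this, ?_⟩
  set S : ℝ := ∑ t, π t * ‖φ (ic (b t))‖ ^ p with hS
  have hS0 : 0 ≤ S := Finset.sum_nonneg fun t _ =>
    mul_nonneg (hπ t) (Real.rpow_nonneg (norm_nonneg _) p)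
  have hA : ∀ t, ‖uj G (B ^ (j + 2)) (b t) x‖ =
      nT p (bavg (B ^ (j + 1 + 1)) fun a => g (x + a + b t) - g (x + a)) := by
    intro t
    rw [nT_eq hp]
    congr 1
    unfold uj bavg
    simp only [hG]
    rw [WithLp.toLp_smul, WithLp.toLp_sum]
    rfl
  simp only [hA] at hmain
  set T : ℝ := ∑ t, π t * nT p (bavg (B ^ (j + 1 + 1)) fun a => g (x + a + b t) - g (x + a)) ^ p
    with hT
  have h1 : S ≤ (9 / 8 : ℝ) ^ (p - 1) * T + 1 / 4 * S := by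
    refine hmain.trans (add_le_add le_rfl ?_)
    exact mul_le_mul_of_nonneg_right hconst hS0
  have h98 : (0 : ℝ) < (9 / 8) ^ (p - 1) := by positivity
  have h2 : (2 / 3 : ℝ) ^ p * (9 / 8) ^ (p - 1) ≤ 3 / 4 := by
    have e1 : (2 / 3 : ℝ) ^ p = (2 / 3) ^ (p - 1) * (2 / 3) := by
      rw [← Real.rpow_add_one (by norm_num)]; congr 1; ring
    have e2 : (2 / 3 : ℝ) ^ (p - 1) * (9 / 8) ^ (p - 1) = (3 / 4) ^ (p - 1) := by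
      rw [← Real.mul_rpow (by norm_num) (by norm_num)]; norm_num
    have e3 : (3 / 4 : ℝ) ^ (p - 1) ≤ 1 :=
      Real.rpow_le_one (by norm_num) (by norm_num) (by linarith)
    calc (2 / 3 : ℝ) ^ p * (9 / 8) ^ (p - 1)
        = ((2 / 3 : ℝ) ^ (p - 1) * (9 / 8) ^ (p - 1)) * (2 / 3) := by rw [e1]; ring
      _ ≤ 3 / 4 := by rw [e2]; linarith
  have h3 : (9 / 8 : ℝ) ^ (p - 1) * ((2 / 3 : ℝ) ^ p * S) ≤ (9 / 8 : ℝ) ^ (p - 1) * T := by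
    have := mul_le_mul_of_nonneg_right h2 hS0
    linarith
  exact le_of_mul_le_mul_left h3 h98


open Vale.Agent.P249.TP Vale.Agent.P249.TP.LinM Vale.Agent.P249.TP.LinAux Vale.Agent.P249.H65 in
/-- **LIN3** -/
theorem specLin3 : SpecLin3 := by
  intro p D hp hD
  have hp0 : 0 < p := by linarith
  have : Fact (1 ≤ ENNReal.ofReal p) :=
    ⟨by rw [← ENNReal.ofReal_one]; exact ENNReal.ofReal_le_ofReal hp.le⟩
  obtain ⟨N, C₁, hC₁, h3⟩ := specL3x p D hp hD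
  obtain ⟨C, hC, hlog⟩ := specLogx D C₁ N hD hC₁
  refine ⟨C, hC, fun Λ hΛ I _ _ K hK0 ε hε hε1 fam => ?_⟩
  classical
  have hC₀ : 1 ≤ C₁ * Λ ^ 3 := one_le_mul_of_one_le_of_one_le hC₁ (one_le_pow₀ hΛ)
  have hcard : Nat.card {S : V I // K S} = Fintype.card (Ks K) := Nat.card_eq_fintype_card
  have hk1 : 1 ≤ Fintype.card (Ks K) := Fintype.card_pos_iff.2 ⟨⟨0, hK0⟩⟩
  obtain ⟨r, hr⟩ : ∃ r : ℕ,
    r = ⌈32 * D * Λ ^ 3 * (((Fintype.card (Ks K) : ℕ) : ℝ) + 1) / ε⌉₊ := ⟨_, rfl⟩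
  obtain ⟨B, hB⟩ : ∃ B : ℕ, B = ⌈C₁ * Λ ^ 3⌉₊ * r ^ 2 := ⟨_, rfl⟩
  obtain ⟨M, hM⟩ : ∃ M : ℕ, M = 4 * B ^ (N + 2) := ⟨_, rfl⟩
  obtain ⟨f1, f2, f3, f4, f5⟩ := r_facts hD hΛ (Nat.cast_nonneg _) hε hε1 hr
  refine ⟨(XX (ph p K) r (Fintype.card I) M (r ^ 2)).image (un p I), ?_, ?_⟩
  · rw [hcard]
    refine hlog Λ hΛ (Fintype.card I) (Fintype.card (Ks K)) ε hk1 hε hε1 r B M _ hr hB hM ?_
    refine Finset.card_image_le.trans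
      ((card_XX (ph p K) r (Fintype.card I) M (r ^ 2)).trans (le_of_eq ?_))
    rw [Fintype.card_prod, ZMod.card, mul_comm (Fintype.card I) 2]
  · intro ι _ F hF
    refine lin_core (f := fun x => tl p (F (un p I x))) hp hD hΛ hC₀ hε fam (h3 Λ hΛ)
      f1 f2 f3 f4 f5 hB hM fun x hx y hy => ?_
    have h1 := hF (un p I x) (Finset.mem_image_of_mem _ hx) (un p I y)
      (Finset.mem_image_of_mem _ hy)
    rw [nE_un hp0, LinAux.nT_eq hp0] at h1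
    exact h1

end Vale.Agent.P249.TP3
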