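import Vale.Agent.P249.TP3.Spec

/-!
# P249 phase 3, block LINE (helper54)
-/

open Finset
open scoped BigOperators

namespace Vale.Agent.P249.TP3

namespace Ln

/-- a product of `k` affine functions of `t` is a polynomial of degree at most `k` -/
lemma prod_poly {F R : Type*} [Field F] [Ring R] [Algebra F R] : ∀ (k : ℕ) (A B : Fin k → R),
    ∃ C : ℕ → R, (∀ j, k < j → C j = 0) ∧ ∀ t : F,
      (List.ofFn fun i => A i + t • B i).prod = ∑ j ∈ range (k + 1), t ^ j • C j := by
  intro k
  induction k with
  | zero =>
    intro A B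
    refine ⟨fun j => if j = 0 then 1 else 0, fun j hj => if_neg (by omega), fun t => ?_⟩
    simp
  | succ k ih =>
    intro A B
    obtain ⟨C, hC, h⟩ := ih (fun i => A i.succ) (fun i => B i.succ)
    refine ⟨fun j => A 0 * C j + if j = 0 then 0 else B 0 * C (j - 1), fun j hj => ?_,
      fun t => ?_⟩
    · simp only
      rw [hC j (by omega), hC (j - 1) (by omega)]
      simp
    · rw [List.ofFn_succ, List.prod_cons, h t, add_mul]
      have e1 : ∑ j ∈ range (k + 1 + 1), t ^ j • (A 0 * C j + if j = 0 then 0 else B 0 * C (j - 1))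
          = ∑ j ∈ range (k + 1 + 1), t ^ j • (A 0 * C j) +
            ∑ j ∈ range (k + 1 + 1), t ^ j • (if j = 0 then 0 else B 0 * C (j - 1)) := by
        rw [← Finset.sum_add_distrib]
        exact Finset.sum_congr rfl fun j _ => smul_add _ _ _
      rw [e1]
      congr 1
      · rw [Finset.sum_range_succ (fun j => t ^ j • (A 0 * C j)), hC (k + 1) (by omega), mul_zero,
          smul_zero, add_zero, Finset.mul_sum]
        exact Finset.sum_congr rfl fun j _ => mul_smul_comm _ _ _
      · rw [Finset.sum_range_succ' (fun j => t ^ j • (if j = 0 then 0 else B 0 * C (j - 1)))]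
        simp only [if_true, smul_zero, add_zero, Nat.add_eq_zero_iff, one_ne_zero, and_false,
          if_false, Nat.add_sub_cancel]
        rw [Finset.mul_sum]
        refine Finset.sum_congr rfl fun j _ => ?_
        rw [smul_mul_assoc, mul_smul_comm, smul_smul, pow_succ']

end Ln

/-- **LINE** -/
theorem specLine : SpecLine := by
  intro F _ _ k s hk ω η c
  obtain ⟨C, -, h⟩ := Ln.prod_poly (F := F) k (fun i => ω i (c i)) (fun i => η i (c i))
  have h1 : ∀ t : F, mp (ω + t • η) c = ∑ j ∈ range (k + 1), t ^ j • C j := by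
    intro t
    rw [← h t]
    rfl
  simp only [h1]
  rw [Finset.sum_comm]
  refine Finset.sum_eq_zero fun j hj => ?_
  rw [← Finset.sum_smul, FiniteField.sum_pow_lt_card_sub_one F j, zero_smul]
  have := Finset.mem_range.1 hj
  omega

end Vale.Agent.P249.TP3
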