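import Vale.Agent.P249.TP3.Spec
import Vale.Agent.P249.TP.Basic

/-!
# P249 phase 3, block LT3: linearity testing on matrix products (helper54)
-/

open Finset
open scoped BigOperators

namespace Vale.Agent.P249.TP3

open Vale.Agent.P249.TP

set_option linter.unusedSectionVars false

namespace Lt

section algebra

variable {F : Type} [Field F] {a k s : ℕ}

lemma mp_eq (ω : Om F k s) (c : Fin k → Bool) :
    mp ω c = MultilinearMap.mkPiAlgebraFin F k (Mt F s) (fun i => ω i (c i)) := by
  rw [MultilinearMap.mkPiAlgebraFin_apply]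
  rfl

lemma eval_update (ω : Om F k s) (i : Fin k) (y : Bool → Mt F s) (c : Fin k → Bool) :
    (fun j => Function.update ω i y j (c j)) =
      Function.update (fun j => ω j (c j)) i (y (c i)) := by
  funext j
  by_cases h : j = i
  · subst h; simp
  · simp [Function.update_of_ne h]

lemma mp_update_add (ω : Om F k s) (i : Fin k) (y z : Bool → Mt F s) (c : Fin k → Bool) :
    mp (Function.update ω i (y + z)) c =
      mp (Function.update ω i y) c + mp (Function.update ω i z) c := by
  rw [mp_eq, mp_eq, mp_eq, eval_update, eval_update, eval_update]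
  exact MultilinearMap.map_update_add _ _ _ _ _

lemma Sm_update_add (β : F ≃+ V (Fin a)) (ω : Om F k s) (i : Fin k) (y : Bool → Mt F s) :
    Sm β (Function.update ω i (ω i + y)) = Sm β ω + Sm β (Function.update ω i y) := by
  funext x
  have h := mp_update_add ω i (ω i) y x.1
  rw [Function.update_eq_self] at h
  simp only [Sm, tr, sf, Pi.add_apply]
  rw [h, Matrix.add_apply, map_add]
  rfl

lemma sum_Sm_line [Fintype F] (hL : SpecLine) (hk : k + 2 ≤ Fintype.card F) (β : F ≃+ V (Fin a))
    (ω η : Om F k s) : ∑ t : F, Sm β (ω + t • η) = 0 := by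
  funext x
  rw [Finset.sum_apply]
  simp only [Sm, tr, sf, Pi.zero_apply]
  have h := congrFun (congrFun (hL F k s hk ω η x.1) 0) 0
  rw [Matrix.sum_apply] at h
  have h2 : β (∑ t : F, mp (ω + t • η) x.1 0 0) = 0 := by rw [h]; simp
  rw [map_sum] at h2
  have h3 := congrFun h2 x.2
  rw [Finset.sum_apply] at h3
  simpa using h3

variable {q : ℕ}

lemma PS_zero (β : F ≃+ V (Fin a)) (t : Fin q → F) (x : Om F k s × Om F k s) :
    PS β t 0 x = 0 := by
  simp [PS]

lemma PS_succ (β : F ≃+ V (Fin a)) (t : Fin q → F) (j : Fin q) (x : Om F k s × Om F k s) :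
    PS β t (j + 1) x = PS β t j x + Sm β (x.1 + t j • x.2) := by
  unfold PS
  have h : (univ.filter fun i : Fin q => (i : ℕ) < j + 1) =
      insert j (univ.filter fun i : Fin q => (i : ℕ) < j) := by
    ext i
    simp only [Finset.mem_filter, Finset.mem_univ, true_and, Finset.mem_insert]
    constructor
    · intro h
      rcases Nat.lt_succ_iff_lt_or_eq.1 h with h | h
      · exact Or.inr h
      · exact Or.inl (Fin.ext h)
    · rintro (h | h)
      · subst h; exact Nat.lt_succ_self _
      · exact Nat.lt_succ_of_lt h
  rw [h, Finset.sum_insert (by simp), add_comm]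

lemma PS_last (β : F ≃+ V (Fin a)) (t : Fin q → F) (x : Om F k s × Om F k s) :
    PS β t q x = ∑ i, Sm β (x.1 + t i • x.2) := by
  unfold PS
  rw [Finset.filter_true_of_mem fun i _ => i.2]

/-- if all line tests pass, the line sum of `f ∘ Sm` vanishes -/
lemma line_of_tests [Fintype F] (hL : SpecLine) (hk : k + 2 ≤ Fintype.card F)
    (β : F ≃+ V (Fin a)) (t : Fin (Fintype.card F) ≃ F) (f : V (Ix k a) → ZMod 2)
    (x : Om F k s × Om F k s)
    (h : ∀ j : Fin (Fintype.card F), f (PS β t j x) + f (Sm β (x.1 + t j • x.2)) =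
      f (PS β t j x + Sm β (x.1 + t j • x.2))) :
    ∑ u : F, f (Sm β (x.1 + u • x.2)) = 0 := by
  have key : ∀ n : ℕ, ∀ hn : n ≤ Fintype.card F,
      f (PS β t n x) = f 0 + ∑ i ∈ univ.filter (fun i : Fin (Fintype.card F) => (i : ℕ) < n),
        f (Sm β (x.1 + t i • x.2)) := by
    intro n
    induction n with
    | zero => intro _; simp [PS_zero]
    | succ n ih =>
      intro hn
      have h1 := ih (by omega)
      have h2 := h ⟨n, by omega⟩
      have h3 := PS_succ β t ⟨n, by omega⟩ x
      simp only at h2 h3
      rw [h3, ← h2, h1, add_assoc]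
      congr 1
      have h4 : (univ.filter fun i : Fin (Fintype.card F) => (i : ℕ) < n + 1) =
          insert ⟨n, by omega⟩ (univ.filter fun i : Fin (Fintype.card F) => (i : ℕ) < n) := by
        ext i
        simp only [Finset.mem_filter, Finset.mem_univ, true_and, Finset.mem_insert]
        constructor
        · intro h
          rcases Nat.lt_succ_iff_lt_or_eq.1 h with h | h
          · exact Or.inr h
          · exact Or.inl (Fin.ext h)
        · rintro (h | h)
          · subst h; exact Nat.lt_succ_self _
          · exact Nat.lt_succ_of_lt h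
      rw [h4, Finset.sum_insert (by simp), add_comm]
  have h1 := key (Fintype.card F) le_rfl
  rw [PS_last, Finset.filter_true_of_mem fun i _ => i.2] at h1
  have h2 : ∑ i, Sm β (x.1 + t i • x.2) = ∑ u : F, Sm β (x.1 + u • x.2) :=
    t.sum_comp (fun u => Sm β (x.1 + u • x.2))
  have h3 : ∑ i, f (Sm β (x.1 + t i • x.2)) = ∑ u : F, f (Sm β (x.1 + u • x.2)) :=
    t.sum_comp (fun u => f (Sm β (x.1 + u • x.2)))
  rw [h2, sum_Sm_line hL hk, h3] at h1
  exact left_eq_add.1 h1

end algebra

section maps

variable {F : Type} [Field F] {k s : ℕ}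

/-- replacement of one mode, as a homomorphism -/
def updH (i : Fin k) : Om F k s × (Bool → Mt F s) →+ Om F k s :=
  AddMonoidHom.mk' (fun p => Function.update p.1 i p.2) (by
    intro p p'
    funext j
    by_cases h : j = i
    · subst h; simp
    · simp [Function.update_of_ne h])

@[simp] lemma updH_apply (i : Fin k) (p : Om F k s × (Bool → Mt F s)) :
    updH i p = Function.update p.1 i p.2 := rfl

/-- addition in one mode, as a homomorphism -/
def addH (i : Fin k) : Om F k s × (Bool → Mt F s) →+ Om F k s :=
  AddMonoidHom.mk' (fun p => Function.update p.1 i (p.1 i + p.2)) (by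
    intro p p'
    funext j
    by_cases h : j = i
    · subst h
      simp only [Function.update_self, Pi.add_apply, Prod.fst_add, Prod.snd_add]
      exact add_add_add_comm _ _ _ _
    · simp [Function.update_of_ne h])

@[simp] lemma addH_apply (i : Fin k) (p : Om F k s × (Bool → Mt F s)) :
    addH i p = Function.update p.1 i (p.1 i + p.2) := rfl

lemma updH_surj (i : Fin k) : Function.Surjective (updH (F := F) (s := s) i) := fun ω =>
  ⟨(ω, ω i), by simp⟩

lemma addH_surj (i : Fin k) : Function.Surjective (addH (F := F) (s := s) i) := fun ω =>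
  ⟨(ω, 0), by simp⟩

/-- marginal of a mode test -/
def margH (i : Fin k) : Om F k s × Om F k s →+ Om F k s × (Bool → Mt F s) :=
  AddMonoidHom.mk' (fun p => (p.1, p.2 i)) (by intro p p'; rfl)

@[simp] lemma margH_apply (i : Fin k) (p : Om F k s × Om F k s) : margH i p = (p.1, p.2 i) := rfl

lemma margH_surj (i : Fin k) : Function.Surjective (margH (F := F) (s := s) i) := fun p =>
  ⟨(p.1, fun _ => p.2), by simp⟩

lemma upd_line (i : Fin k) (ω η : Om F k s) (y z : Bool → Mt F s) (t : F) :
    Function.update (ω + t • η) i (y + t • z) =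
      Function.update ω i y + t • Function.update η i z := by
  funext j
  by_cases h : j = i
  · subst h; simp
  · simp [Function.update_of_ne h]

end maps

lemma fail_add3 {A B C : ZMod 2} {P Q R S : Prop} [Decidable P] [Decidable Q] [Decidable R]
    [Decidable S] (h : P → Q → R → S → A + B + C = 0) :
    (if A + B + C = 0 then (0 : ℝ) else 1) ≤
      (if P then (0 : ℝ) else 1) + (if Q then (0 : ℝ) else 1) + (if R then (0 : ℝ) else 1) +
        (if S then (0 : ℝ) else 1) := by
  by_cases hP : P
  · by_cases hQ : Q
    · by_cases hR : R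
      · by_cases hS : S
        · simp [hP, hQ, hR, hS, h hP hQ hR hS]
        · simp only [hP, hQ, hR, hS, if_true, if_false]; split_ifs <;> norm_num
      · simp only [hP, hQ, hR, if_true, if_false]; split_ifs <;> norm_num
    · simp only [hP, hQ, if_true, if_false]; split_ifs <;> norm_num
  · simp only [hP, if_false]; split_ifs <;> norm_num

end Lt

open Lt in
/-- **LT3** -/
theorem specLt3_of (hRs : SpecRs) (hZt : SpecZt) (hL : SpecLine) (hA : SpecAlg) : SpecLt3 := by
  intro F _ _ _ a k s β t hk hs hq f e he0 he htest
  set q : ℝ := (Fintype.card F : ℝ) with hqdef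
  have hq1 : 1 ≤ q := by
    rw [hqdef]
    have : 1 ≤ Fintype.card F := by omega
    exact_mod_cast this
  have hq0 : 0 < q := by linarith
  -- numerics
  have hq3 : q ^ 3 * e ≤ 1 / 10 := by
    have h1 : q ^ 3 * e ≤ q ^ 4 * e := by
      refine mul_le_mul_of_nonneg_right ?_ he0
      exact pow_le_pow_right₀ hq1 (by norm_num)
    linarith
  have hqe : q * e ≤ 1 / 10 := by
    have h1 : q ^ 1 * e ≤ q ^ 3 * e := by
      refine mul_le_mul_of_nonneg_right ?_ he0
      exact pow_le_pow_right₀ hq1 (by norm_num)
    linarith [pow_one q]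
  set f' : Om F k s → ZMod 2 := fun ω => f (Sm β ω) with hf'
  -- line test
  have hline : av (fun x : Om F k s × Om F k s =>
      if ∑ u : F, f' (x.1 + u • x.2) = 0 then (0 : ℝ) else 1) ≤ q * e := by
    have h1 : av (fun x : Om F k s × Om F k s =>
        if ∑ u : F, f' (x.1 + u • x.2) = 0 then (0 : ℝ) else 1) ≤
        av (fun x : Om F k s × Om F k s => ∑ j : Fin (Fintype.card F),
          if f (ts β t (Sum.inl j) x) + f (ts' β t (Sum.inl j) x) =
            f (ts β t (Sum.inl j) x + ts' β t (Sum.inl j) x) then (0 : ℝ) else 1) := by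
      refine av_mono fun x => ?_
      by_cases hx : ∀ j : Fin (Fintype.card F),
          f (PS β t j x) + f (Sm β (x.1 + t j • x.2)) =
            f (PS β t j x + Sm β (x.1 + t j • x.2))
      · rw [if_pos (line_of_tests hL hq β t f x hx)]
        exact Finset.sum_nonneg fun j _ => by split_ifs <;> norm_num
      · push Not at hx
        obtain ⟨j, hj⟩ := hx
        calc (if ∑ u : F, f' (x.1 + u • x.2) = 0 then (0 : ℝ) else 1) ≤ 1 := by
              split_ifs <;> norm_num
          _ = (if f (ts β t (Sum.inl j) x) + f (ts' β t (Sum.inl j) x) =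
            f (ts β t (Sum.inl j) x + ts' β t (Sum.inl j) x) then (0 : ℝ) else 1) := by
              rw [if_neg]; exact hj
          _ ≤ _ := Finset.single_le_sum (f := fun j => if f (ts β t (Sum.inl j) x) +
              f (ts' β t (Sum.inl j) x) = f (ts β t (Sum.inl j) x + ts' β t (Sum.inl j) x)
                then (0 : ℝ) else 1) (fun j _ => by split_ifs <;> norm_num) (Finset.mem_univ j)
    refine h1.trans ?_
    rw [av_sum]
    calc ∑ j : Fin (Fintype.card F), av (fun x : Om F k s × Om F k s =>
          if f (ts β t (Sum.inl j) x) + f (ts' β t (Sum.inl j) x) =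
            f (ts β t (Sum.inl j) x + ts' β t (Sum.inl j) x) then (0 : ℝ) else 1)
        ≤ ∑ _j : Fin (Fintype.card F), e := Finset.sum_le_sum fun j _ => htest (Sum.inl j)
      _ = q * e := by rw [Finset.sum_const, Finset.card_univ, Fintype.card_fin, nsmul_eq_mul]
  obtain ⟨g, hg, hgf⟩ := hRs F (Om F k s) f' (q * e) (by
    have : 3 * q ^ 2 * (q * e) = 3 * (q ^ 3 * e) := by ring
    rw [← hqdef, this]; linarith) hline
  rw [← hqdef] at hgf
  have hgf' : av (fun ω : Om F k s => if f' ω = g ω then (0 : ℝ) else 1) ≤ 2 * q ^ 2 * e := by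
    refine hgf.trans (le_of_eq ?_); ring
  -- additivity
  have hadd : ∀ (ω : Om F k s) (i : Fin k) (y : Bool → Mt F s),
      g (Function.update ω i (ω i + y)) = g ω + g (Function.update ω i y) := by
    intro ω i y
    have hz := hZt F (Om F k s × (Bool → Mt F s))
      (fun p => g (addH i p) + g p.1 + g (updH i p)) ?_ ?_ (ω, y)
    · simp only [addH_apply, updH_apply] at hz
      rw [add_assoc] at hz
      exact zmod2_add_eq_zero.1 hz
    · rintro ⟨ω, y⟩ ⟨η, z⟩
      simp only [addH_apply, updH_apply, Prod.fst_add, Prod.snd_add, Prod.smul_fst,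
        Prod.smul_snd]
      rw [Finset.sum_add_distrib, Finset.sum_add_distrib]
      have h1 : ∀ u : F, Function.update (ω + u • η) i ((ω + u • η) i + (y + u • z)) =
          Function.update ω i (ω i + y) + u • Function.update η i (η i + z) := by
        intro u
        rw [← upd_line]
        congr 1
        simp only [Pi.add_apply, Pi.smul_apply, smul_add]
        abel
      have h2 : ∀ u : F, Function.update (ω + u • η) i (y + u • z) =
          Function.update ω i y + u • Function.update η i z := fun u => upd_line i ω η y z u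
      simp only [h1, h2]
      rw [hg, hg, hg]; simp
    · have h1 : av (fun p : Om F k s × (Bool → Mt F s) =>
          if g (addH i p) + g p.1 + g (updH i p) = 0 then (0 : ℝ) else 1) ≤
          av (fun p : Om F k s × (Bool → Mt F s) =>
            (if f' (addH i p) = g (addH i p) then (0 : ℝ) else 1) +
            (if f' p.1 = g p.1 then (0 : ℝ) else 1) +
            (if f' (updH i p) = g (updH i p) then (0 : ℝ) else 1) +
            (if f (Sm β p.1) + f (Sm β (updH i p)) = f (Sm β p.1 + Sm β (updH i p))
              then (0 : ℝ) else 1)) := by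
        refine av_mono fun p => ?_
        refine fail_add3 fun h1 h2 h3 h4 => ?_
        rw [← h1, ← h2, ← h3]
        simp only [hf', updH_apply, addH_apply] at h4 ⊢
        rw [Sm_update_add, ← h4]
        rw [add_assoc]
        exact zmod2_add_self _
      have h2 : av (fun p : Om F k s × (Bool → Mt F s) =>
            if f' (addH i p) = g (addH i p) then (0 : ℝ) else 1) ≤ 2 * q ^ 2 * e := by
        rw [av_surj (addH i) (addH_surj i) (fun ω => if f' ω = g ω then (0 : ℝ) else 1)]
        exact hgf'
      have h3 : av (fun p : Om F k s × (Bool → Mt F s) =>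
            if f' p.1 = g p.1 then (0 : ℝ) else 1) ≤ 2 * q ^ 2 * e := by
        exact (le_of_eq (av_surj (AddMonoidHom.fst (Om F k s) (Bool → Mt F s))
          Prod.fst_surjective (fun ω => if f' ω = g ω then (0 : ℝ) else 1))).trans hgf'
      have h4 : av (fun p : Om F k s × (Bool → Mt F s) =>
            if f' (updH i p) = g (updH i p) then (0 : ℝ) else 1) ≤ 2 * q ^ 2 * e := by
        rw [av_surj (updH i) (updH_surj i) (fun ω => if f' ω = g ω then (0 : ℝ) else 1)]
        exact hgf'
      have h5 : av (fun p : Om F k s × (Bool → Mt F s) =>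
            if f (Sm β p.1) + f (Sm β (updH i p)) = f (Sm β p.1 + Sm β (updH i p))
              then (0 : ℝ) else 1) ≤ e := by
        rw [← av_surj (margH i) (margH_surj i) (fun p : Om F k s × (Bool → Mt F s) =>
            if f (Sm β p.1) + f (Sm β (updH i p)) = f (Sm β p.1 + Sm β (updH i p))
              then (0 : ℝ) else 1)]
        exact htest (Sum.inr i)
      rw [av_add, av_add, av_add] at h1
      have h6 : av (fun p : Om F k s × (Bool → Mt F s) =>
          if g (addH i p) + g p.1 + g (updH i p) = 0 then (0 : ℝ) else 1) ≤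
            6 * q ^ 2 * e + e := by linarith
      rw [← hqdef]
      calc q * _ ≤ q * (6 * q ^ 2 * e + e) := mul_le_mul_of_nonneg_left h6 hq0.le
        _ = 6 * (q ^ 3 * e) + q * e := by ring
        _ < 1 := by linarith
  -- gauge
  have hgauge : ∀ γ : Om F k s ≃ₗ[F] Om F k s, (∀ ω, sf (γ ω) = sf ω) → ∀ ω, g (γ ω) = g ω := by
    intro γ hγ ω
    have hz := hZt F (Om F k s) (fun ω => g (γ ω) + g ω) ?_ ?_ ω
    · exact zmod2_add_eq_zero.1 hz
    · intro x h
      rw [Finset.sum_add_distrib, hg x h, add_zero]
      simp only [map_add, map_smul]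
      exact hg _ _
    · have h1 : av (fun ω : Om F k s => if g (γ ω) + g ω = 0 then (0 : ℝ) else 1) ≤
          av (fun ω : Om F k s => (if f' (γ ω) = g (γ ω) then (0 : ℝ) else 1) +
            (if f' ω = g ω then (0 : ℝ) else 1)) := by
        refine av_mono fun ω => ?_
        by_cases h1 : f' (γ ω) = g (γ ω)
        · by_cases h2 : f' ω = g ω
          · have h3 : f' (γ ω) = f' ω := by
              simp only [hf', Sm, hγ]
            rw [if_pos]
            · split_ifs <;> norm_num
            · rw [← h1, ← h2, h3]; exact zmod2_add_self _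
          · simp only [h2, if_false]; split_ifs <;> norm_num
        · simp only [h1, if_false]; split_ifs <;> norm_num
      rw [av_add] at h1
      have h2 : av (fun ω : Om F k s => if f' (γ ω) = g (γ ω) then (0 : ℝ) else 1) ≤
          2 * q ^ 2 * e := by
        exact (le_of_eq (av_equiv γ.toEquiv
          (fun ω => if f' ω = g ω then (0 : ℝ) else 1))).trans hgf'
      rw [← hqdef]
      calc q * _ ≤ q * (4 * q ^ 2 * e) := by
            refine mul_le_mul_of_nonneg_left ?_ hq0.le
            linarith
        _ = 4 * (q ^ 3 * e) := by ring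
        _ < 1 := by linarith
  obtain ⟨P, hP⟩ := hA F a k s β hk hs g hadd hgauge
  refine ⟨P, ?_⟩
  refine le_trans (le_of_eq ?_) hgf'
  refine av_congr fun ω => ?_
  rw [hP ω]

end Vale.Agent.P249.TP3

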