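import Vale.Agent.P249.TP3.CoreSpec

/-!
# P249, phase 3: numerics of CORE3, cardinality (helper557)
-/

open Finset Filter Topology
open scoped BigOperators

namespace Vale.Agent.P249.TP3.NC

open Vale.Agent.P249.TP

/-- polynomial bound of the exponent -/
lemma exp_bound {C₁ C₂ k : ℝ} (hC₁ : 0 ≤ C₁) (hC₂ : 0 ≤ C₂) (hk : 1 ≤ k) {L q s r : ℝ}
    (hL0 : 0 ≤ L) (hL : L ≤ C₁ * k ^ 5) (hq0 : 0 ≤ q) (hq : q ≤ 6 * k) (hs0 : 0 ≤ s)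
    (hs : s ≤ C₂ * k ^ 5) (hr : r = 2 * L * q + ((2 * s + 3) * (k + 1) + 2)) :
    4 * (q * (r * (2 * k * (s + 1) ^ 2))) ≤
      48 * (12 * C₁ + 4 * C₂ + 8) * (C₂ + 1) ^ 2 * k ^ 18 := by
  have hk0 : 0 ≤ k := by linarith
  have h5 : 1 ≤ k ^ 5 := one_le_pow₀ hk
  have h6 : 1 ≤ k ^ 6 := one_le_pow₀ hk
  have hs2 : s + 1 ≤ (C₂ + 1) * k ^ 5 := by linarith
  have hs3 : 2 * s + 3 ≤ (2 * C₂ + 3) * k ^ 5 := by linarith
  have hr0 : 0 ≤ r := by rw [hr]; positivity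
  have hr1 : r ≤ (12 * C₁ + 4 * C₂ + 8) * k ^ 6 := by
    rw [hr]
    have e1 : L * q ≤ C₁ * k ^ 5 * (6 * k) := mul_le_mul hL hq hq0 (by positivity)
    have e2 : (2 * s + 3) * (k + 1) ≤ (2 * C₂ + 3) * k ^ 5 * (2 * k) :=
      mul_le_mul hs3 (by linarith) (by positivity) (by positivity)
    have e3 : C₁ * k ^ 5 * (6 * k) = 6 * C₁ * k ^ 6 := by ring
    have e4 : (2 * C₂ + 3) * k ^ 5 * (2 * k) = (4 * C₂ + 6) * k ^ 6 := by ring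
    rw [e3] at e1
    rw [e4] at e2
    linarith
  have hs4 : (s + 1) ^ 2 ≤ (C₂ + 1) ^ 2 * k ^ 10 := by
    calc (s + 1) ^ 2 ≤ ((C₂ + 1) * k ^ 5) ^ 2 := pow_le_pow_left₀ (by positivity) hs2 2
      _ = _ := by ring
  have e5 : 2 * k * (s + 1) ^ 2 ≤ 2 * k * ((C₂ + 1) ^ 2 * k ^ 10) :=
    mul_le_mul_of_nonneg_left hs4 (by positivity)
  have e6 : r * (2 * k * (s + 1) ^ 2) ≤
      (12 * C₁ + 4 * C₂ + 8) * k ^ 6 * (2 * k * ((C₂ + 1) ^ 2 * k ^ 10)) :=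
    mul_le_mul hr1 e5 (by positivity) (by positivity)
  have e7 : q * (r * (2 * k * (s + 1) ^ 2)) ≤
      6 * k * ((12 * C₁ + 4 * C₂ + 8) * k ^ 6 * (2 * k * ((C₂ + 1) ^ 2 * k ^ 10))) :=
    mul_le_mul hq e6 (by positivity) (by positivity)
  calc 4 * (q * (r * (2 * k * (s + 1) ^ 2))) ≤
      4 * (6 * k * ((12 * C₁ + 4 * C₂ + 8) * k ^ 6 * (2 * k * ((C₂ + 1) ^ 2 * k ^ 10)))) := by
        linarith
    _ = _ := by ring

lemma exp_bound2 {C₁ C₂ k : ℝ} (hC₁ : 0 ≤ C₁) (hC₂ : 0 ≤ C₂) (hk : 1 ≤ k) {L s : ℝ}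
    (hL : L ≤ C₁ * k ^ 5) (hs0 : 0 ≤ s) (hs : s ≤ C₂ * k ^ 5) :
    (2 * s + 3) ^ 2 + 2 * L ≤ ((2 * C₂ + 3) ^ 2 + 2 * C₁) * k ^ 18 := by
  have h5 : 1 ≤ k ^ 5 := one_le_pow₀ hk
  have h10 : k ^ 10 ≤ k ^ 18 := pow_le_pow_right₀ hk (by norm_num)
  have h518 : k ^ 5 ≤ k ^ 18 := pow_le_pow_right₀ hk (by norm_num)
  have hs3 : 2 * s + 3 ≤ (2 * C₂ + 3) * k ^ 5 := by linarith
  have e9 : (2 * s + 3) ^ 2 ≤ (2 * C₂ + 3) ^ 2 * k ^ 18 := by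
    calc (2 * s + 3) ^ 2 ≤ ((2 * C₂ + 3) * k ^ 5) ^ 2 := pow_le_pow_left₀ (by positivity) hs3 2
      _ = (2 * C₂ + 3) ^ 2 * k ^ 10 := by ring
      _ ≤ _ := mul_le_mul_of_nonneg_left h10 (by positivity)
  have e10 : C₁ * k ^ 5 ≤ C₁ * k ^ 18 := mul_le_mul_of_nonneg_left h518 hC₁
  linarith

lemma one_add_three {a b c : ℝ} (ha : 0 ≤ a) (hb : 0 ≤ b) (hc : 0 ≤ c) :
    1 + (a + b + c) ≤ (1 + a) * ((1 + b) * (1 + c)) := by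
  have h1 : 0 ≤ b * c := mul_nonneg hb hc
  have h2 : 0 ≤ a * b := mul_nonneg ha hb
  have h3 : 0 ≤ a * c := mul_nonneg ha hc
  have h4 : 0 ≤ a * (b * c) := mul_nonneg ha h1
  nlinarith

lemma four_le : (4 : ℝ) ≤ Real.exp 2 := by
  have h0 := Real.exp_one_gt_d9
  have : Real.exp 2 = Real.exp 1 * Real.exp 1 := by rw [← Real.exp_add]; norm_num
  rw [this]; nlinarith

lemma N_bound {N : ℝ} {a m : ℕ} (hN0 : 0 ≤ N) (hN : N ≤ ((2 : ℝ) ^ a) ^ m) :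
    N ^ 4 ≤ Real.exp (4 * ((2 : ℝ) ^ a * m)) := by
  have e2 : (2 : ℝ) ^ a ≤ Real.exp ((2 : ℝ) ^ a) := by
    have := Real.add_one_le_exp ((2 : ℝ) ^ a); linarith
  have e1 : N ≤ Real.exp ((2 : ℝ) ^ a * m) := by
    refine hN.trans ?_
    calc ((2 : ℝ) ^ a) ^ m ≤ (Real.exp ((2 : ℝ) ^ a)) ^ m :=
          pow_le_pow_left₀ (by positivity) e2 _
      _ = _ := by rw [← Real.exp_nat_mul]; congr 1; ring
  calc N ^ 4 ≤ (Real.exp ((2 : ℝ) ^ a * m)) ^ 4 := pow_le_pow_left₀ hN0 e1 4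
    _ = _ := by rw [← Real.exp_nat_mul]; congr 1

lemma y_bound {k a y : ℕ} (hk : 1 ≤ k) (ha : 2 ^ a ≤ 2 * (k + 2)) (hy : y = 2 ^ k * a) :
    (y : ℝ) + 1 ≤ Real.exp (8 * k) := by
  have hk1 : (1 : ℝ) ≤ k := by exact_mod_cast hk
  have e1 : (y : ℝ) ≤ Real.exp k * Real.exp (6 * k) := by
    rw [hy]
    push_cast
    have e2 : (2 : ℝ) ^ k ≤ Real.exp k := by
      calc (2 : ℝ) ^ k ≤ (Real.exp 1) ^ k :=
            pow_le_pow_left₀ (by norm_num) (by linarith [Real.exp_one_gt_d9]) _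
        _ = Real.exp k := by rw [← Real.exp_nat_mul, mul_one]
    have e3 : (a : ℝ) ≤ Real.exp (6 * k) := by
      have h1 : a ≤ 2 * (k + 2) := (Nat.lt_two_pow_self (n := a)).le.trans ha
      have h1' : (a : ℝ) ≤ 2 * (k + 2) := by exact_mod_cast h1
      have h2 := Real.add_one_le_exp (6 * (k : ℝ))
      linarith
    exact mul_le_mul e2 e3 (Nat.cast_nonneg _) (Real.exp_pos _).le
  rw [← Real.exp_add] at e1
  have e4 : (1 : ℝ) ≤ Real.exp (k + 6 * k) := Real.one_le_exp (by positivity)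
  have e5 : (2 : ℝ) ≤ Real.exp 1 := by linarith [Real.exp_one_gt_d9]
  calc (y : ℝ) + 1 ≤ 2 * Real.exp (k + 6 * k) := by linarith
    _ ≤ Real.exp 1 * Real.exp (k + 6 * k) :=
        mul_le_mul_of_nonneg_right e5 (Real.exp_pos _).le
    _ = Real.exp (1 + (k + 6 * k)) := by rw [← Real.exp_add]
    _ ≤ Real.exp (8 * k) := Real.exp_le_exp.2 (by linarith)

lemma M_bound {k L s y : ℕ} (hk : 1 ≤ k) (hy1 : (y : ℝ) + 1 ≤ Real.exp (8 * k)) :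
    1 + Real.log (1 / (1 / 2) ^ (3 * y + (2 * s + 3) ^ 2 + 2 * L)) ≤
      Real.exp (10 * k + ((2 * s + 3) ^ 2 + 2 * L)) := by
  have hk1 : (1 : ℝ) ≤ k := by exact_mod_cast hk
  rw [one_div, ← inv_pow, Real.log_pow]
  have e1 : Real.log ((1 / 2 : ℝ)⁻¹) ≤ 1 := by
    have : ((1 / 2 : ℝ)⁻¹) = 2 := by norm_num
    rw [this]; linarith [Real.log_two_lt_d9]
  have e3 : (0 : ℝ) ≤ (((3 * y + (2 * s + 3) ^ 2 + 2 * L : ℕ)) : ℝ) := Nat.cast_nonneg _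
  have e4 : (((3 * y + (2 * s + 3) ^ 2 + 2 * L : ℕ)) : ℝ) * Real.log ((1 / 2 : ℝ)⁻¹) ≤
      3 * y + (2 * s + 3) ^ 2 + 2 * L := by
    refine (mul_le_of_le_one_right e3 e1).trans (le_of_eq ?_)
    push_cast; ring
  have e5 : 1 + (3 * (y : ℝ) + (2 * s + 3) ^ 2 + 2 * L) ≤
      (1 + 3 * y) * ((1 + (2 * s + 3) ^ 2) * (1 + 2 * L)) :=
    one_add_three (by positivity) (by positivity) (by positivity)
  have e6 : 1 + 3 * (y : ℝ) ≤ Real.exp (10 * k) := by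
    have hy0 : (0 : ℝ) ≤ y := Nat.cast_nonneg _
    calc 1 + 3 * (y : ℝ) ≤ 4 * (y + 1) := by linarith
      _ ≤ Real.exp 2 * Real.exp (8 * k) :=
          mul_le_mul four_le hy1 (by positivity) (by positivity)
      _ = Real.exp (2 + 8 * k) := by rw [← Real.exp_add]
      _ ≤ Real.exp (10 * k) := Real.exp_le_exp.2 (by linarith)
  have e7 : 1 + (2 * (s : ℝ) + 3) ^ 2 ≤ Real.exp ((2 * s + 3) ^ 2) := by
    have := Real.add_one_le_exp ((2 * (s : ℝ) + 3) ^ 2); linarith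
  have e8 : 1 + 2 * (L : ℝ) ≤ Real.exp (2 * L) := by
    have := Real.add_one_le_exp (2 * (L : ℝ)); linarith
  calc 1 + (((3 * y + (2 * s + 3) ^ 2 + 2 * L : ℕ)) : ℝ) * Real.log ((1 / 2 : ℝ)⁻¹)
      ≤ 1 + (3 * (y : ℝ) + (2 * s + 3) ^ 2 + 2 * L) := by linarith
    _ ≤ (1 + 3 * y) * ((1 + (2 * s + 3) ^ 2) * (1 + 2 * L)) := e5
    _ ≤ Real.exp (10 * k) * (Real.exp ((2 * s + 3) ^ 2) * Real.exp (2 * L)) :=
        mul_le_mul e6 (mul_le_mul e7 e8 (by positivity) (by positivity)) (by positivity)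
          (by positivity)
    _ = _ := by rw [← Real.exp_add, ← Real.exp_add]

lemma M_nonneg (m : ℕ) : 0 ≤ 1 + Real.log (1 / (1 / 2 : ℝ) ^ m) := by
  have : 0 ≤ Real.log (1 / (1 / 2 : ℝ) ^ m) := by
    apply Real.log_nonneg
    rw [le_div_iff₀ (by positivity), one_mul]
    exact pow_le_one₀ (by norm_num) (by norm_num)
  linarith

lemma assemble {C F N4 Y M x₁ x₂ x₃ x₄ : ℝ} (hF0 : 0 ≤ F) (hN0 : 0 ≤ N4)
    (hY0 : 0 ≤ Y) (hM0 : 0 ≤ M) (hF : F ≤ Real.exp x₁) (hN : N4 ≤ Real.exp x₂)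
    (hY : Y ≤ Real.exp x₃) (hM : M ≤ Real.exp x₄) :
    C * F * N4 * Y * M ≤ Real.exp (C + x₁ + x₂ + x₃ + x₄) := by
  have hCe : C ≤ Real.exp C := by have := Real.add_one_le_exp C; linarith
  rw [Real.exp_add, Real.exp_add, Real.exp_add, Real.exp_add]
  refine mul_le_mul ?_ hM hM0 (by positivity)
  refine mul_le_mul ?_ hY hY0 (by positivity)
  refine mul_le_mul ?_ hN hN0 (by positivity)
  exact mul_le_mul hCe hF hF0 (by positivity)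

end Vale.Agent.P249.TP3.NC

namespace Vale.Agent.P249.TP3

theorem specNumCard : SpecNumCard := by
  intro C C₁ C₂ hC hC₁ hC₂
  set W : ℝ := C + 2 * C₁ + 48 * (12 * C₁ + 4 * C₂ + 8) * (C₂ + 1) ^ 2 + 26 +
    ((2 * C₂ + 3) ^ 2 + 2 * C₁) with hW
  obtain ⟨k₀, hk₀⟩ := exists_nat_ge W
  refine ⟨max 1 k₀, fun k hk a L s r y ha1 ha hy hL hs hr N hN0 hN => ?_⟩
  have hk1 : 1 ≤ k := le_trans (le_max_left _ _) hk
  have hkW : W ≤ k := hk₀.trans (by exact_mod_cast le_trans (le_max_right _ _) hk)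
  have hk1' : (1 : ℝ) ≤ k := by exact_mod_cast hk1
  have hq : (2 : ℝ) ^ a ≤ 6 * k := by
    have : (2 : ℝ) ^ a ≤ 2 * (k + 2) := by exact_mod_cast ha
    linarith
  have hrR : (r : ℝ) = 2 * L * 2 ^ a + ((2 * s + 3) * (k + 1) + 2) := by
    rw [hr]; push_cast; ring
  have b1 := NC.exp_bound hC₁.le hC₂.le hk1' (Nat.cast_nonneg L) hL
    (by positivity : (0 : ℝ) ≤ 2 ^ a) hq (Nat.cast_nonneg s) hs hrR
  have b2 := NC.exp_bound2 hC₁.le hC₂.le hk1' hL (Nat.cast_nonneg s) hs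
  have hN4 := NC.N_bound hN0 hN
  have hy1 := NC.y_bound hk1 ha hy
  have hM := NC.M_bound (L := L) (s := s) hk1 hy1
  have hM0 := NC.M_nonneg (3 * y + (2 * s + 3) ^ 2 + 2 * L)
  have hy2 : ((y : ℝ) + 1) ^ 2 ≤ Real.exp (16 * k) := by
    calc ((y : ℝ) + 1) ^ 2 ≤ (Real.exp (8 * k)) ^ 2 :=
          pow_le_pow_left₀ (by positivity) hy1 2
      _ = _ := by rw [← Real.exp_nat_mul]; congr 1; push_cast; ring
  have h4L : (4 : ℝ) ^ L ≤ Real.exp (2 * L) := by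
    calc (4 : ℝ) ^ L ≤ (Real.exp 2) ^ L := pow_le_pow_left₀ (by norm_num) NC.four_le _
      _ = Real.exp (2 * L) := by rw [← Real.exp_nat_mul, mul_comm]
  have h := NC.assemble (C := C) (by positivity : (0 : ℝ) ≤ 4 ^ L)
    (by positivity : (0 : ℝ) ≤ N ^ 4) (by positivity : (0 : ℝ) ≤ ((y : ℝ) + 1) ^ 2) hM0 h4L hN4
    hy2 hM
  refine h.trans (Real.exp_le_exp.2 ?_)
  have hcast : (2 : ℝ) ^ a * ((r * (2 * k * (s + 1) ^ 2) : ℕ) : ℝ) =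
      (2 : ℝ) ^ a * (r * (2 * k * (s + 1) ^ 2)) := by push_cast; ring
  rw [hcast]
  have c1 : (k : ℝ) ≤ (k : ℝ) ^ 18 := le_self_pow₀ hk1' (by norm_num)
  have c2 : (1 : ℝ) ≤ (k : ℝ) ^ 18 := one_le_pow₀ hk1'
  have c3 : C₁ * (k : ℝ) ^ 5 ≤ C₁ * (k : ℝ) ^ 18 :=
    mul_le_mul_of_nonneg_left (pow_le_pow_right₀ hk1' (by norm_num)) hC₁.le
  have c4 : C ≤ C * (k : ℝ) ^ 18 := le_mul_of_one_le_right (by linarith) c2
  have c5 : W * (k : ℝ) ^ 18 ≤ (k : ℝ) ^ 19 := by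
    calc W * (k : ℝ) ^ 18 ≤ k * (k : ℝ) ^ 18 := mul_le_mul_of_nonneg_right hkW (by positivity)
      _ = _ := by ring
  refine le_trans ?_ c5
  rw [hW]
  have e : (C + 2 * C₁ + 48 * (12 * C₁ + 4 * C₂ + 8) * (C₂ + 1) ^ 2 + 26 +
      ((2 * C₂ + 3) ^ 2 + 2 * C₁)) * (k : ℝ) ^ 18 = C * (k : ℝ) ^ 18 +
      2 * (C₁ * (k : ℝ) ^ 18) + 48 * (12 * C₁ + 4 * C₂ + 8) * (C₂ + 1) ^ 2 * (k : ℝ) ^ 18 +
      26 * (k : ℝ) ^ 18 + ((2 * C₂ + 3) ^ 2 + 2 * C₁) * (k : ℝ) ^ 18 := by ring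
  rw [e]
  linarith

end Vale.Agent.P249.TP3
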