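import Vale.Agent.P249.TP3.CoreSpec

/-!
# P249, phase 3: numerics of CORE3, choice of `a` and `s` (helper982)
-/

namespace Vale.Agent.P249.TP3

theorem specNumPar : SpecNumPar := by
  refine ⟨fun k => ⟨Nat.clog 2 (k + 2), ?_, ?_, ?_⟩, ?_⟩
  · exact Nat.clog_pos (by norm_num) (by omega)
  · exact Nat.le_pow_clog (by norm_num) _
  · have h1 : 2 ^ (Nat.clog 2 (k + 2)).pred < k + 2 :=
      Nat.pow_pred_clog_lt_self (by norm_num) (by omega)
    have h2 : 0 < Nat.clog 2 (k + 2) := Nat.clog_pos (by norm_num) (by omega)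
    obtain ⟨m, hm⟩ : ∃ m, Nat.clog 2 (k + 2) = m + 1 := ⟨Nat.clog 2 (k + 2) - 1, by omega⟩
    rw [hm] at h1 ⊢
    simp only [Nat.pred_succ] at h1
    rw [pow_succ]
    omega
  · intro c C₁ hc hC₁
    refine ⟨(2 * C₁ + 4) / c + 1, by positivity, ?_⟩
    intro k L hk hL
    have hk1 : (1 : ℝ) ≤ k := by exact_mod_cast hk
    have hk5 : (k : ℝ) ≤ (k : ℝ) ^ 5 := le_self_pow₀ hk1 (by norm_num)
    have h15 : (1 : ℝ) ≤ (k : ℝ) ^ 5 := one_le_pow₀ hk1
    have hL0 : (0 : ℝ) ≤ L := Nat.cast_nonneg L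
    have hpos : 0 < (2 * (L : ℝ) + 4 * k) / c := by positivity
    refine ⟨⌈(2 * (L : ℝ) + 4 * k) / c⌉₊, ?_, ?_, ?_⟩
    · exact Nat.one_le_ceil_iff.mpr hpos
    · have h := Nat.le_ceil ((2 * (L : ℝ) + 4 * k) / c)
      rw [div_le_iff₀ hc] at h
      linarith
    · have h := (Nat.ceil_lt_add_one hpos.le).le
      refine h.trans ?_
      have h3 : (2 * (L : ℝ) + 4 * k) / c ≤ ((2 * C₁ + 4) * (k : ℝ) ^ 5) / c := by
        apply div_le_div_of_nonneg_right _ hc.le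
        nlinarith
      have h4 : ((2 * C₁ + 4) * (k : ℝ) ^ 5) / c = (2 * C₁ + 4) / c * (k : ℝ) ^ 5 := by ring
      rw [h4] at h3
      nlinarith

end Vale.Agent.P249.TP3
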