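import Vale.Agent.P249.TP3.CoreSpec

/-!
# P249, phase 3: numerics of CORE3, the path (helper557)
-/

open Finset Filter Topology
open scoped BigOperators

namespace Vale.Agent.P249.TP3.NP

open Vale.Agent.P249.TP

lemma nat_le_two_pow (y : ℕ) : (y : ℝ) ≤ 2 ^ y := by
  exact_mod_cast (Nat.lt_two_pow_self (n := y)).le

lemma half_mul_two (n : ℕ) : ((1 : ℝ) / 2) ^ n * 2 ^ n = 1 := by
  rw [← mul_pow]; norm_num

lemma quarter_pow (L : ℕ) : ((1 : ℝ) / 2) ^ (2 * L) = (1 / 4) ^ L := by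
  rw [pow_mul]; norm_num

lemma s_decay {c : ℝ} {L k s : ℕ} (hs : 2 * (L : ℝ) + 4 * k ≤ c * s) :
    (2 : ℝ) ^ (-c * s) ≤ (1 / 2) ^ (4 * k) * (1 / 4) ^ L := by
  have h1 : (2 : ℝ) ^ (4 * k + 2 * L) ≤ (2 : ℝ) ^ (c * s) := by
    rw [← Real.rpow_natCast]
    apply Real.rpow_le_rpow_of_exponent_le (by norm_num)
    push_cast
    linarith
  have h2 : (2 : ℝ) ^ (-c * s) = ((2 : ℝ) ^ (c * s))⁻¹ := by
    rw [neg_mul, Real.rpow_neg (by norm_num)]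
  rw [h2]
  refine (inv_anti₀ (by positivity) h1).trans ?_
  rw [← inv_pow]
  have h3 : ((2 : ℝ)⁻¹) = 1 / 2 := by norm_num
  rw [h3, pow_add, quarter_pow]

lemma yk_le {k a y : ℕ} (ha : 2 ^ a ≤ 2 * (k + 2)) (hy : y = 2 ^ k * a) :
    (y : ℝ) * k ≤ 2 ^ (3 * k + 2) := by
  have hkk : k ≤ 2 ^ k := (Nat.lt_two_pow_self (n := k)).le
  have haa : a ≤ 2 ^ a := (Nat.lt_two_pow_self (n := a)).le
  have n1 : 2 * (k + 2) ≤ 2 ^ (k + 2) := by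
    have : k + 1 ≤ 2 ^ k := Nat.lt_two_pow_self
    rw [pow_add]; omega
  have n2 : y * k ≤ 2 ^ (3 * k + 2) := by
    rw [hy]
    calc 2 ^ k * a * k ≤ 2 ^ k * 2 ^ (k + 2) * 2 ^ k :=
          Nat.mul_le_mul (Nat.mul_le_mul_left _ ((haa.trans ha).trans n1)) hkk
      _ = 2 ^ (3 * k + 2) := by rw [← pow_add, ← pow_add]; congr 1; ring
  exact_mod_cast n2

/-- first term -/
lemma num_T1 {c CB D δ : ℝ} (hCB : 0 < CB) (hD : 0 < D) {k L a s y : ℕ}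
    (ha : 2 ^ a ≤ 2 * (k + 2)) (hs : 2 * (L : ℝ) + 4 * k ≤ c * s) (hy : y = 2 ^ k * a)
    (hδ : 4 * (CB * D) * (1 / 2) ^ k ≤ δ) :
    (y : ℝ) * (k * (CB * (D * (2 : ℝ) ^ (-c * s)))) ≤ δ * (1 / 4) ^ L := by
  have hB0 : (0 : ℝ) ≤ (1 / 4) ^ L := by positivity
  have e1 : (2 : ℝ) ^ (-c * s) ≤ (1 / 2) ^ (4 * k) * (1 / 4) ^ L := s_decay hs
  generalize ((1 : ℝ) / 4) ^ L = B at *
  have e2 := yk_le ha hy
  have h0 : 0 ≤ CB * D := by positivity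
  calc (y : ℝ) * (k * (CB * (D * (2 : ℝ) ^ (-c * s))))
      = CB * D * (((y : ℝ) * k) * (2 : ℝ) ^ (-c * s)) := by ring
    _ ≤ CB * D * (2 ^ (3 * k + 2) * ((1 / 2) ^ (4 * k) * B)) :=
        mul_le_mul_of_nonneg_left (mul_le_mul e2 e1 (by positivity) (by positivity)) h0
    _ = 4 * (CB * D) * (1 / 2) ^ k * B * ((1 / 2) ^ (3 * k) * 2 ^ (3 * k)) := by
        have : 4 * k = k + 3 * k := by ring
        rw [this, pow_add, pow_add]; ring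
    _ = 4 * (CB * D) * (1 / 2) ^ k * B := by rw [half_mul_two]; ring
    _ ≤ δ * B := mul_le_mul_of_nonneg_right hδ hB0

/-- second term -/
lemma num_T2 {CB δ ε : ℝ} (hCB : 0 < CB) {k L s y a : ℕ} (ha : 2 ^ a ≤ 2 * (k + 2))
    (hy : y = 2 ^ k * a) (hky : 2 ^ k ≤ y) (hk4 : 2 * k + 1 ≤ 2 ^ k)
    (hδ : CB * (1 / 2) ^ k ≤ δ)
    (hε : ε = (1 / 2) ^ (3 * y + (2 * s + 3) ^ 2 + 2 * L)) :
    (y : ℝ) * (k * (CB * (ε * 2 ^ (y + (2 * s + 3) ^ 2)))) ≤ δ * (1 / 4) ^ L := by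
  have hB0 : (0 : ℝ) ≤ (1 / 4) ^ L := by positivity
  have e1 : ε * 2 ^ (y + (2 * s + 3) ^ 2) = (1 / 2) ^ (2 * y) * (1 / 4) ^ L := by
    rw [hε]
    have : 3 * y + (2 * s + 3) ^ 2 + 2 * L = (y + (2 * s + 3) ^ 2) + 2 * y + 2 * L := by ring
    rw [this, pow_add, pow_add, quarter_pow L]
    generalize y + (2 * s + 3) ^ 2 = m
    have h := half_mul_two m
    calc (1 / 2 : ℝ) ^ m * (1 / 2) ^ (2 * y) * (1 / 4) ^ L * 2 ^ m
        = ((1 / 2 : ℝ) ^ m * 2 ^ m) * ((1 / 2) ^ (2 * y) * (1 / 4) ^ L) := by ring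
      _ = _ := by rw [h, one_mul]
  rw [e1]
  generalize ((1 : ℝ) / 4) ^ L = B at *
  have e2 := yk_le ha hy
  have e3 : (1 / 2 : ℝ) ^ (2 * y) ≤ (1 / 2) ^ (4 * k + 2) :=
    pow_le_pow_of_le_one (by norm_num) (by norm_num) (by omega)
  calc (y : ℝ) * (k * (CB * ((1 / 2) ^ (2 * y) * B)))
      = CB * B * (((y : ℝ) * k) * (1 / 2) ^ (2 * y)) := by ring
    _ ≤ CB * B * (2 ^ (3 * k + 2) * (1 / 2) ^ (4 * k + 2)) :=
        mul_le_mul_of_nonneg_left (mul_le_mul e2 e3 (by positivity) (by positivity))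
          (mul_nonneg hCB.le hB0)
    _ = CB * (1 / 2) ^ k * B * ((1 / 2) ^ (3 * k + 2) * 2 ^ (3 * k + 2)) := by
        have : 4 * k + 2 = k + (3 * k + 2) := by ring
        rw [this, pow_add]; ring
    _ = CB * (1 / 2) ^ k * B := by rw [half_mul_two]; ring
    _ ≤ δ * B := mul_le_mul_of_nonneg_right hδ hB0

lemma eps_le {ε : ℝ} {L s y : ℕ} (hε : ε = (1 / 2) ^ (3 * y + (2 * s + 3) ^ 2 + 2 * L)) :
    ε ≤ (1 / 2) ^ (3 * y) * (1 / 4) ^ L := by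
  rw [hε, pow_add, pow_add, quarter_pow]
  have h1 : (1 / 2 : ℝ) ^ ((2 * s + 3) ^ 2) ≤ 1 := pow_le_one₀ (by norm_num) (by norm_num)
  have h0 : (0 : ℝ) ≤ (1 / 2) ^ (3 * y) := by positivity
  have h2 : (0 : ℝ) ≤ (1 / 4) ^ L := by positivity
  exact mul_le_mul_of_nonneg_right (mul_le_of_le_one_right h0 h1) h2

/-- third term -/
lemma num_T3 {δ ε : ℝ} {k L s y N : ℕ} (hky : 2 ^ k ≤ y) (hδ : (1 / 2 : ℝ) ^ k ≤ δ)
    (hN : (N : ℝ) ≤ 2 ^ y)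
    (hε : ε = (1 / 2) ^ (3 * y + (2 * s + 3) ^ 2 + 2 * L)) :
    (y : ℝ) * (ε * N) ≤ δ * (1 / 4) ^ L := by
  have hε0 : 0 ≤ ε := by rw [hε]; positivity
  have hB0 : (0 : ℝ) ≤ (1 / 4) ^ L := by positivity
  have hεy := eps_le hε
  have hkk : k ≤ 2 ^ k := (Nat.lt_two_pow_self (n := k)).le
  have hyk : (1 / 2 : ℝ) ^ y ≤ (1 / 2) ^ k :=
    pow_le_pow_of_le_one (by norm_num) (by norm_num) (hkk.trans hky)
  generalize ((1 : ℝ) / 4) ^ L = B at *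
  have e3 := nat_le_two_pow y
  calc (y : ℝ) * (ε * N) ≤ 2 ^ y * (((1 / 2) ^ (3 * y) * B) * 2 ^ y) :=
        mul_le_mul e3 (mul_le_mul hεy hN (by positivity) (by positivity)) (by positivity)
          (by positivity)
    _ = (1 / 2) ^ y * B * (((1 / 2) ^ y * 2 ^ y) * ((1 / 2) ^ y * 2 ^ y)) := by
        have : 3 * y = y + y + y := by ring
        rw [this, pow_add, pow_add]; ring
    _ = (1 / 2) ^ y * B := by rw [half_mul_two]; ring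
    _ ≤ δ * B := mul_le_mul_of_nonneg_right (hyk.trans hδ) hB0

lemma card_rpow3 {p : ℝ} (hp : 1 < p) {k N : ℕ} (hN : (N : ℝ) ≤ (2 : ℝ) ^ ((2 : ℝ) ^ k / 2)) :
    (N : ℝ) ^ (1 / p) ≤ (2 : ℝ) ^ ((2 : ℝ) ^ k / (2 * p)) := by
  have hp0 : 0 < p := by linarith
  calc (N : ℝ) ^ (1 / p) ≤ ((2 : ℝ) ^ ((2 : ℝ) ^ k / 2)) ^ (1 / p) :=
        Real.rpow_le_rpow (Nat.cast_nonneg _) hN (by positivity)
    _ = _ := by rw [← Real.rpow_mul (by norm_num)]; congr 1; field_simp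

/-- fourth term -/
lemma num_T4 {p D δ : ℝ} (hp : 1 < p) (hD : 0 < D) {k L y N : ℕ} (hky : (2 : ℝ) ^ k ≤ y)
    (hL : (2 * L + k) * (2 * p) ≤ 2 ^ k) (hN : (N : ℝ) ≤ (2 : ℝ) ^ ((2 : ℝ) ^ k / 2))
    (hδ : D * (1 / 2) ^ k ≤ δ) :
    (N : ℝ) ^ (1 / p) * (D * (2 : ℝ) ^ (-(y : ℝ) / p)) ≤ δ * (1 / 4) ^ L := by
  have hp0 : 0 < p := by linarith
  have hN4 := card_rpow3 hp hN
  have e1 : (N : ℝ) ^ (1 / p) * (2 : ℝ) ^ (-(y : ℝ) / p) ≤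
      (2 : ℝ) ^ (-((2 : ℝ) ^ k / (2 * p))) := by
    calc (N : ℝ) ^ (1 / p) * (2 : ℝ) ^ (-(y : ℝ) / p)
        ≤ (2 : ℝ) ^ ((2 : ℝ) ^ k / (2 * p)) * (2 : ℝ) ^ (-((2 : ℝ) ^ k) / p) := by
          refine mul_le_mul hN4 ?_ (by positivity) (by positivity)
          apply Real.rpow_le_rpow_of_exponent_le (by norm_num)
          rw [neg_div, neg_div, neg_le_neg_iff]
          gcongr
      _ = _ := by
          rw [← Real.rpow_add (by norm_num)]; congr 1; field_simp; ring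
  have e2 : (2 : ℝ) ^ (-((2 : ℝ) ^ k / (2 * p))) ≤ (1 / 2) ^ k * (1 / 4) ^ L := by
    have e3 : (2 : ℝ) ^ (-((2 : ℝ) ^ k / (2 * p))) ≤ (2 : ℝ) ^ (-((k + 2 * L : ℕ) : ℝ)) := by
      apply Real.rpow_le_rpow_of_exponent_le (by norm_num)
      rw [neg_le_neg_iff, le_div_iff₀ (by positivity)]
      push_cast
      linarith
    refine e3.trans (le_of_eq ?_)
    rw [Real.rpow_neg (by norm_num), Real.rpow_natCast, ← inv_pow, ← one_div, pow_add,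
      quarter_pow]
  calc (N : ℝ) ^ (1 / p) * (D * (2 : ℝ) ^ (-(y : ℝ) / p))
      = D * ((N : ℝ) ^ (1 / p) * (2 : ℝ) ^ (-(y : ℝ) / p)) := by ring
    _ ≤ D * ((1 / 2) ^ k * (1 / 4) ^ L) := mul_le_mul_of_nonneg_left (e1.trans e2) hD.le
    _ = D * (1 / 2) ^ k * (1 / 4) ^ L := by ring
    _ ≤ _ := mul_le_mul_of_nonneg_right hδ (by positivity)

/-- fifth term -/
lemma num_T5 {p δ ε : ℝ} (hp : 1 < p) {k L s y N : ℕ} (hky : 2 ^ k ≤ y)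
    (hN : (N : ℝ) ≤ (2 : ℝ) ^ ((2 : ℝ) ^ k / 2)) (hδ : (1 / 2 : ℝ) ^ k ≤ δ)
    (hε : ε = (1 / 2) ^ (3 * y + (2 * s + 3) ^ 2 + 2 * L)) :
    (N : ℝ) ^ (1 / p) * ε ≤ δ * (1 / 4) ^ L := by
  have hε0 : 0 ≤ ε := by rw [hε]; positivity
  have hkyR : (2 : ℝ) ^ k ≤ y := by exact_mod_cast hky
  have e3 : (N : ℝ) ^ (1 / p) ≤ 2 ^ y := by
    refine (card_rpow3 hp hN).trans ?_
    rw [← Real.rpow_natCast 2 y]
    apply Real.rpow_le_rpow_of_exponent_le (by norm_num)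
    have hy0 : (0 : ℝ) ≤ y := Nat.cast_nonneg _
    rw [div_le_iff₀ (by linarith)]
    nlinarith
  have hB0 : (0 : ℝ) ≤ (1 / 4) ^ L := by positivity
  have hεy := eps_le hε
  have hkk : k ≤ 2 ^ k := (Nat.lt_two_pow_self (n := k)).le
  have hyk : (1 / 2 : ℝ) ^ y ≤ (1 / 2) ^ k :=
    pow_le_pow_of_le_one (by norm_num) (by norm_num) (hkk.trans hky)
  have hy1 : (1 / 2 : ℝ) ^ y ≤ 1 := pow_le_one₀ (by norm_num) (by norm_num)
  generalize ((1 : ℝ) / 4) ^ L = B at *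
  calc (N : ℝ) ^ (1 / p) * ε ≤ 2 ^ y * ((1 / 2) ^ (3 * y) * B) :=
        mul_le_mul e3 hεy hε0 (by positivity)
    _ = (1 / 2) ^ y * (1 / 2) ^ y * B * ((1 / 2) ^ y * 2 ^ y) := by
        have : 3 * y = y + y + y := by ring
        rw [this, pow_add, pow_add]; ring
    _ = (1 / 2) ^ y * (1 / 2) ^ y * B := by rw [half_mul_two]; ring
    _ ≤ (1 / 2) ^ y * 1 * B :=
        mul_le_mul_of_nonneg_right (mul_le_mul_of_nonneg_left hy1 (by positivity)) hB0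
    _ ≤ δ * B := by
        rw [mul_one]; exact mul_le_mul_of_nonneg_right (hyk.trans hδ) hB0

lemma rpow_ge_self {p x : ℝ} (hp : 1 < p) (h0 : 0 < x) (h1 : x ≤ 1) : x ≤ x ^ (1 / p) := by
  have := Real.rpow_le_rpow_of_exponent_ge h0 h1
    (show 1 / p ≤ 1 by rw [div_le_one (by linarith)]; linarith)
  rwa [Real.rpow_one] at this

/-- the total error of the path -/
lemma num3_path {p D c CB CU : ℝ} (hp : 1 < p) (hD : 1 ≤ D) (hCB : 0 < CB)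
    (hCU : 1 ≤ CU) {k L a s y : ℕ} (ha1 : 1 ≤ a) (ha : 2 ^ a ≤ 2 * (k + 2))
    (hs : 2 * (L : ℝ) + 4 * k ≤ c * s) (hy : y = 2 ^ k * a) (hk4 : 2 * k + 1 ≤ 2 ^ k)
    (hbig : 40 * CU * (4 * (CB + 1) * D) ≤ 2 ^ k) (hL : (2 * L + k) * (2 * p) ≤ 2 ^ k)
    {N : ℕ} (hN : (N : ℝ) ≤ (2 : ℝ) ^ ((2 : ℝ) ^ k / 2)) {ε : ℝ}
    (hε : ε = (1 / 2) ^ (3 * y + (2 * s + 3) ^ 2 + 2 * L)) :
    (y : ℝ) * (k * (CB * (D * (2 : ℝ) ^ (-c * s) + ε * 2 ^ (y + (2 * s + 3) ^ 2))) +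
      ε * N) + (N : ℝ) ^ (1 / p) * (D * (2 : ℝ) ^ (-(y : ℝ) / p) + ε) <
      1 / 4 * (1 / CU * (1 / 4) ^ L) ^ (1 / p) := by
  have hky : 2 ^ k ≤ y := by rw [hy]; exact Nat.le_mul_of_pos_right _ ha1
  have hkyR : (2 : ℝ) ^ k ≤ y := by exact_mod_cast hky
  have h2k : (0 : ℝ) < 2 ^ k := by positivity
  have hCU0 : 0 < CU := by linarith
  have hD0 : 0 < D := by linarith
  have hh : ∀ x : ℝ, x ≤ 4 * (CB + 1) * D → x * (1 / 2) ^ k ≤ 1 / (40 * CU) := by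
    intro x hx
    rw [le_div_iff₀ (by positivity), one_div_pow]
    have : x * (1 / 2 ^ k) * (40 * CU) = (40 * CU * x) / 2 ^ k := by ring
    rw [this, div_le_one h2k]
    exact (mul_le_mul_of_nonneg_left hx (by positivity)).trans hbig
  have hs1 : 4 * (CB * D) * (1 / 2) ^ k ≤ 1 / (40 * CU) := hh _ (by nlinarith)
  have hs2 : CB * (1 / 2) ^ k ≤ 1 / (40 * CU) := hh _ (by nlinarith)
  have hs3 : (1 / 2 : ℝ) ^ k ≤ 1 / (40 * CU) := by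
    have h3 := hh 1 (by nlinarith)
    rwa [one_mul] at h3
  have hs4 : D * (1 / 2) ^ k ≤ 1 / (40 * CU) := hh _ (by nlinarith)
  have hNy : (N : ℝ) ≤ 2 ^ y := by
    refine hN.trans ?_
    rw [← Real.rpow_natCast 2 y]
    apply Real.rpow_le_rpow_of_exponent_le (by norm_num)
    linarith
  have t1 := num_T1 (δ := 1 / (40 * CU)) hCB hD0 ha hs hy hs1
  have t2 := num_T2 (δ := 1 / (40 * CU)) hCB ha hy hky hk4 hs2 hε
  have t3 := num_T3 (δ := 1 / (40 * CU)) hky hs3 hNy hε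
  have t4 := num_T4 (δ := 1 / (40 * CU)) hp hD0 hkyR hL hN hs4
  have t5 := num_T5 (δ := 1 / (40 * CU)) hp hky hN hs3 hε
  have hB0 : (0 : ℝ) < (1 / 4) ^ L := by positivity
  have hB1 : ((1 : ℝ) / 4) ^ L ≤ 1 := pow_le_one₀ (by norm_num) (by norm_num)
  generalize ((1 : ℝ) / 4) ^ L = B at *
  have hpos : 0 < 1 / CU * B := by positivity
  have hle1 : 1 / CU * B ≤ 1 := by
    have : 1 / CU ≤ 1 := by rw [div_le_one hCU0]; exact hCU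
    exact mul_le_one₀ this hB0.le hB1
  have hR := rpow_ge_self hp hpos hle1
  have h41 : 1 / (40 * CU) * B = (1 / 40) * (1 / CU * B) := by
    field_simp
  rw [h41] at t1 t2 t3 t4 t5
  generalize 1 / CU * B = X at *
  have e : (y : ℝ) * (k * (CB * (D * (2 : ℝ) ^ (-c * s) + ε * 2 ^ (y + (2 * s + 3) ^ 2))) +
        ε * N) + (N : ℝ) ^ (1 / p) * (D * (2 : ℝ) ^ (-(y : ℝ) / p) + ε)
      = (y : ℝ) * (k * (CB * (D * (2 : ℝ) ^ (-c * s)))) +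
        (y : ℝ) * (k * (CB * (ε * 2 ^ (y + (2 * s + 3) ^ 2)))) + (y : ℝ) * (ε * N) +
        (N : ℝ) ^ (1 / p) * (D * (2 : ℝ) ^ (-(y : ℝ) / p)) + (N : ℝ) ^ (1 / p) * ε := by ring
  rw [e]
  linarith

lemma ev_le_two_pow (a b : ℝ) (m : ℕ) : ∀ᶠ k : ℕ in atTop, a * (k : ℝ) ^ m + b ≤ 2 ^ k := by
  have h := (tendsto_pow_const_div_const_pow_of_one_lt m (by norm_num : (1 : ℝ) < 2)).const_mul a
  have h2 := (tendsto_pow_const_div_const_pow_of_one_lt 0 (by norm_num : (1 : ℝ) < 2)).const_mul b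
  have h3 := h.add h2
  rw [mul_zero, mul_zero, add_zero] at h3
  filter_upwards [h3.eventually (gt_mem_nhds one_pos)] with k hk
  have h2k : (0 : ℝ) < 2 ^ k := by positivity
  rw [mul_div_assoc', mul_div_assoc', ← add_div, div_lt_one h2k, pow_zero, mul_one] at hk
  exact hk.le

end Vale.Agent.P249.TP3.NP

namespace Vale.Agent.P249.TP3

theorem specNumPath : SpecNumPath := by
  intro p D c Cb CU C₁ hp hD _ hCb hCU hC₁
  have h1 := NP.ev_le_two_pow 0 (40 * CU * (4 * (Cb + 1) * D)) 0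
  have h2 := NP.ev_le_two_pow (2 * p * (2 * C₁ + 1)) 0 5
  have h3 := NP.ev_le_two_pow 2 1 1
  obtain ⟨k₀, hk₀⟩ := Filter.eventually_atTop.1 ((h1.and h2).and
    (h3.and (Filter.eventually_ge_atTop 1)))
  refine ⟨k₀, fun k hk a L s N y ha1 ha hy hL hs hN ε hε => ?_⟩
  obtain ⟨⟨e1, e2⟩, e3, e4⟩ := hk₀ k hk
  have hk1 : (1 : ℝ) ≤ k := by exact_mod_cast e4
  refine NP.num3_path hp hD hCb hCU ha1 ha hs hy ?_ ?_ ?_ hN hε
  · have : ((2 * k + 1 : ℕ) : ℝ) ≤ ((2 ^ k : ℕ) : ℝ) := by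
      push_cast; linarith [e3, pow_one (k : ℝ)]
    exact_mod_cast this
  · linarith
  · have h5 : (k : ℝ) ≤ (k : ℝ) ^ 5 := le_self_pow₀ hk1 (by norm_num)
    have h6 : 2 * (L : ℝ) + k ≤ (2 * C₁ + 1) * (k : ℝ) ^ 5 := by linarith
    calc (2 * (L : ℝ) + k) * (2 * p) ≤ (2 * C₁ + 1) * (k : ℝ) ^ 5 * (2 * p) :=
          mul_le_mul_of_nonneg_right h6 (by linarith)
      _ ≤ 2 ^ k := by linarith

end Vale.Agent.P249.TP3
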