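import Vale.Agent.P249.TP3.Spec
import Vale.Agent.P249.TP.Basic

/-!
# P249 phase 3, block RS + ZT: Rubinfeld–Sudan self-correction (helper54)
-/

open Finset
open scoped BigOperators

namespace Vale.Agent.P249.TP3

open Vale.Agent.P249.TP

set_option linter.unusedSectionVars false

namespace RS

variable {F Ω : Type} [Field F] [Fintype F] [AddCommGroup Ω] [Module F Ω] [Fintype Ω]

/-- affine bijection -/
def aff (x : Ω) {t : F} (ht : t ≠ 0) : Ω ≃ Ω where
  toFun h := x + t • h
  invFun y := t⁻¹ • (y - x)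
  left_inv h := by simp [smul_smul, ht]
  right_inv y := by simp [smul_smul, ht]

@[simp] lemma aff_apply (x : Ω) {t : F} (ht : t ≠ 0) (h : Ω) : aff x ht h = x + t • h := rfl

/-- failure indicator -/
noncomputable def ind0 (P : Prop) : ℝ := by classical exact if P then 0 else 1

lemma ind0_nonneg (P : Prop) : 0 ≤ ind0 P := by unfold ind0; split_ifs <;> norm_num

lemma ind0_le_one (P : Prop) : ind0 P ≤ 1 := by unfold ind0; split_ifs <;> norm_num

lemma ind0_of {P : Prop} (h : P) : ind0 P = 0 := by unfold ind0; rw [if_pos h]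

lemma ind0_not {P : Prop} (h : ¬ P) : ind0 P = 1 := by unfold ind0; rw [if_neg h]

lemma ind0_lt {P : Prop} (h : ind0 P < 1) : P := by
  by_contra hP
  rw [ind0_not hP] at h
  exact lt_irrefl _ h

lemma ite_eq_ind0 (P : Prop) [Decidable P] : (if P then (0 : ℝ) else 1) = ind0 P := by
  by_cases h : P
  · rw [if_pos h, ind0_of h]
  · rw [if_neg h, ind0_not h]

section

variable [DecidableEq F]

/-- sum over the nonzero parameters -/
def As (f : Ω → ZMod 2) (x h : Ω) : ZMod 2 := ∑ t ∈ univ.erase (0 : F), f (x + t • h)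

lemma sum_line (f : Ω → ZMod 2) (x h : Ω) :
    ∑ t : F, f (x + t • h) = f x + As (F := F) f x h := by
  unfold As
  rw [← Finset.add_sum_erase univ (fun t : F => f (x + t • h)) (Finset.mem_univ 0)]
  simp

lemma card_erase : ((univ.erase (0 : F)).card : ℝ) = (Fintype.card F : ℝ) - 1 := by
  rw [Finset.card_erase_of_mem (Finset.mem_univ _), Finset.card_univ,
    Nat.cast_sub (Fintype.card_pos)]
  simp

/-- the collision lemma -/
lemma collision (f : Ω → ZMod 2) {d : ℝ}
    (hd : av (fun x : Ω × Ω => ind0 (∑ t : F, f (x.1 + t • x.2) = 0)) ≤ d) (x : Ω) :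
    av (fun p : Ω × Ω => ind0 (As (F := F) f x p.1 = As (F := F) f x p.2)) ≤
      2 * ((Fintype.card F : ℝ) - 1) * d := by
  have hpt : ∀ p : Ω × Ω, ind0 (As (F := F) f x p.1 = As (F := F) f x p.2) ≤
      (∑ t ∈ univ.erase (0 : F), ind0 (∑ u : F, f ((x + t • p.1) + u • p.2) = 0)) +
      ∑ u ∈ univ.erase (0 : F), ind0 (∑ t : F, f ((x + u • p.2) + t • p.1) = 0) := by
    intro p
    by_cases h1 : ∀ t ∈ univ.erase (0 : F), ∑ u : F, f ((x + t • p.1) + u • p.2) = 0
    · by_cases h2 : ∀ u ∈ univ.erase (0 : F), ∑ t : F, f ((x + u • p.2) + t • p.1) = 0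
      · rw [ind0_of]
        · exact add_nonneg (Finset.sum_nonneg fun _ _ => ind0_nonneg _)
            (Finset.sum_nonneg fun _ _ => ind0_nonneg _)
        · have e1 : As (F := F) f x p.1 =
              ∑ t ∈ univ.erase (0 : F), ∑ u ∈ univ.erase (0 : F), f (x + t • p.1 + u • p.2) := by
            unfold As
            refine Finset.sum_congr rfl fun t ht => ?_
            have := h1 t ht
            rw [sum_line] at this
            exact zmod2_add_eq_zero.1 this
          have e2 : As (F := F) f x p.2 =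
              ∑ u ∈ univ.erase (0 : F), ∑ t ∈ univ.erase (0 : F), f (x + u • p.2 + t • p.1) := by
            unfold As
            refine Finset.sum_congr rfl fun u hu => ?_
            have := h2 u hu
            rw [sum_line] at this
            exact zmod2_add_eq_zero.1 this
          rw [e1, e2, Finset.sum_comm]
          refine Finset.sum_congr rfl fun u _ => Finset.sum_congr rfl fun t _ => ?_
          congr 1
          abel
      · push Not at h2
        obtain ⟨u, hu, hu2⟩ := h2
        refine (ind0_le_one _).trans ?_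
        rw [← ind0_not hu2]
        refine (Finset.single_le_sum (f := fun u : F =>
          ind0 (∑ t : F, f ((x + u • p.2) + t • p.1) = 0)) (fun _ _ => ind0_nonneg _) hu).trans ?_
        exact le_add_of_nonneg_left (Finset.sum_nonneg fun _ _ => ind0_nonneg _)
    · push Not at h1
      obtain ⟨t, ht, ht2⟩ := h1
      refine (ind0_le_one _).trans ?_
      rw [← ind0_not ht2]
      refine (Finset.single_le_sum (f := fun t : F =>
        ind0 (∑ u : F, f ((x + t • p.1) + u • p.2) = 0)) (fun _ _ => ind0_nonneg _) ht).trans ?_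
      exact le_add_of_nonneg_right (Finset.sum_nonneg fun _ _ => ind0_nonneg _)
  refine (av_mono hpt).trans ?_
  rw [av_add, av_sum, av_sum]
  have b1 : ∀ t ∈ univ.erase (0 : F),
      av (fun p : Ω × Ω => ind0 (∑ u : F, f ((x + t • p.1) + u • p.2) = 0)) ≤ d := by
    intro t ht
    have ht0 : t ≠ 0 := Finset.ne_of_mem_erase ht
    refine (le_of_eq ?_).trans hd
    exact av_equiv ((aff x ht0).prodCongr (Equiv.refl Ω))
      (fun x : Ω × Ω => ind0 (∑ t : F, f (x.1 + t • x.2) = 0))
  have b2 : ∀ u ∈ univ.erase (0 : F),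
      av (fun p : Ω × Ω => ind0 (∑ t : F, f ((x + u • p.2) + t • p.1) = 0)) ≤ d := by
    intro u hu
    have hu0 : u ≠ 0 := Finset.ne_of_mem_erase hu
    refine (le_of_eq ?_).trans hd
    exact av_equiv ((Equiv.prodComm Ω Ω).trans ((aff x hu0).prodCongr (Equiv.refl Ω)))
      (fun x : Ω × Ω => ind0 (∑ t : F, f (x.1 + t • x.2) = 0))
  have s1 := Finset.sum_le_sum b1
  have s2 := Finset.sum_le_sum b2
  rw [Finset.sum_const, nsmul_eq_mul, card_erase] at s1 s2
  linarith

/-- the corrected value -/
noncomputable def gc (f : Ω → ZMod 2) (x : Ω) : ZMod 2 :=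
  if av (fun h => ind0 (As (F := F) f x h = 0)) ≤ 1 / 2 then 0 else 1

lemma gc_spec (f : Ω → ZMod 2) {d : ℝ}
    (hd : av (fun x : Ω × Ω => ind0 (∑ t : F, f (x.1 + t • x.2) = 0)) ≤ d) (x : Ω) :
    av (fun h => ind0 (As (F := F) f x h = gc (F := F) f x)) ≤
      2 * ((Fintype.card F : ℝ) - 1) * d := by
  refine le_trans ?_ (collision f hd x)
  have : Nonempty Ω := ⟨0⟩
  set X : Ω → ℝ := fun h => ind0 (As (F := F) f x h = 0) with hX
  set m : ℝ := av X with hm
  have hm0 : 0 ≤ m := av_nonneg fun _ => ind0_nonneg _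
  have hm1 : m ≤ 1 := av_le_of_le fun _ => ind0_le_one _
  have hcol : av (fun p : Ω × Ω => ind0 (As (F := F) f x p.1 = As (F := F) f x p.2)) =
      m * (1 - m) + m * (1 - m) := by
    have h1 : ∀ p : Ω × Ω, ind0 (As (F := F) f x p.1 = As (F := F) f x p.2) =
        X p.1 * (1 - X p.2) + (1 - X p.1) * X p.2 := by
      intro p
      simp only [hX]
      rcases zmod2_cases (As (F := F) f x p.1) with h1 | h1 <;>
      rcases zmod2_cases (As (F := F) f x p.2) with h2 | h2
      · rw [ind0_of (h1.trans h2.symm), ind0_of h1, ind0_of h2]; ring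
      · rw [ind0_not (by rw [h1, h2]; decide), ind0_of h1, ind0_not (by rw [h2]; decide)]; ring
      · rw [ind0_not (by rw [h1, h2]; decide), ind0_not (by rw [h1]; decide), ind0_of h2]; ring
      · rw [ind0_of (h1.trans h2.symm), ind0_not (by rw [h1]; decide),
          ind0_not (by rw [h2]; decide)]; ring
    rw [av_congr h1, av_prod]
    have h2 : ∀ h : Ω, av (fun h' : Ω => X h * (1 - X h') + (1 - X h) * X h') =
        X h * (1 - m) + (1 - X h) * m := by
      intro h
      rw [av_add, av_mul_left, av_mul_left, av_sub, av_const]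
    rw [av_congr h2, av_add, av_mul_right, av_mul_right, av_sub, av_const]
    ring
  rw [hcol]
  unfold gc
  split_ifs with hc
  · change m ≤ _
    change m ≤ 1 / 2 at hc
    nlinarith
  · have h1 : ∀ h, ind0 (As (F := F) f x h = 1) = 1 - X h := by
      intro h
      simp only [hX]
      rcases zmod2_cases (As (F := F) f x h) with h1 | h1
      · rw [ind0_not (by rw [h1]; decide), ind0_of h1]; ring
      · rw [ind0_of h1, ind0_not (by rw [h1]; decide)]; ring
    rw [av_congr h1, av_sub, av_const]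
    change ¬ m ≤ 1 / 2 at hc
    push Not at hc
    change 1 - m ≤ _
    nlinarith

lemma gc_close (f : Ω → ZMod 2) {d : ℝ}
    (hd : av (fun x : Ω × Ω => ind0 (∑ t : F, f (x.1 + t • x.2) = 0)) ≤ d) :
    av (fun x => ind0 (f x = gc (F := F) f x)) ≤ 2 * (Fintype.card F : ℝ) * d := by
  have : Nonempty Ω := ⟨0⟩
  have hd0 : 0 ≤ d := (av_nonneg fun _ => ind0_nonneg _).trans hd
  have h1 : av (fun x => ind0 (f x = gc (F := F) f x)) =
      av (fun p : Ω × Ω => ind0 (f p.1 = gc (F := F) f p.1)) := by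
    rw [av_prod]
    exact (av_congr fun x => (av_const (Ω := Ω) _).symm)
  have h2 : ∀ p : Ω × Ω, ind0 (f p.1 = gc (F := F) f p.1) ≤
      ind0 (∑ t : F, f (p.1 + t • p.2) = 0) +
        ind0 (As (F := F) f p.1 p.2 = gc (F := F) f p.1) := by
    intro p
    by_cases h3 : ∑ t : F, f (p.1 + t • p.2) = 0
    · by_cases h4 : As (F := F) f p.1 p.2 = gc (F := F) f p.1
      · rw [ind0_of, ind0_of h3, ind0_of h4, add_zero]
        rw [sum_line] at h3
        rw [← h4]
        exact zmod2_add_eq_zero.1 h3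
      · rw [ind0_not h4]
        exact (ind0_le_one _).trans (le_add_of_nonneg_left (ind0_nonneg _))
    · rw [ind0_not h3]
      exact (ind0_le_one _).trans (le_add_of_nonneg_right (ind0_nonneg _))
  rw [h1]
  refine (av_mono h2).trans ?_
  rw [av_add]
  have h3 : av (fun p : Ω × Ω => ind0 (As (F := F) f p.1 p.2 = gc (F := F) f p.1)) ≤
      2 * ((Fintype.card F : ℝ) - 1) * d := by
    rw [av_prod]
    exact av_le_of_le fun x => gc_spec f hd x
  linarith

lemma gc_line (f : Ω → ZMod 2) {d : ℝ} (h3 : 3 * (Fintype.card F : ℝ) ^ 2 * d < 1)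
    (hd : av (fun x : Ω × Ω => ind0 (∑ t : F, f (x.1 + t • x.2) = 0)) ≤ d) (x h : Ω) :
    ∑ t : F, gc (F := F) f (x + t • h) = 0 := by
  have : Nonempty Ω := ⟨0⟩
  have hd0 : 0 ≤ d := (av_nonneg fun _ => ind0_nonneg _).trans hd
  set q : ℝ := (Fintype.card F : ℝ) with hq
  have hq1 : 1 ≤ q := by
    rw [hq]
    exact_mod_cast Fintype.card_pos (α := F)
  set B : Ω × Ω → ℝ := fun p =>
    (∑ t : F, ind0 (As (F := F) f (x + t • h) (p.1 + t • p.2) = gc (F := F) f (x + t • h))) +
    ∑ u ∈ univ.erase (0 : F), ind0 (∑ t : F, f ((x + u • p.1) + t • (h + u • p.2)) = 0) with hB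
  have hav : av B < 1 := by
    rw [hB, av_add, av_sum, av_sum]
    have b1 : ∀ t ∈ (univ : Finset F), av (fun p : Ω × Ω =>
        ind0 (As (F := F) f (x + t • h) (p.1 + t • p.2) = gc (F := F) f (x + t • h))) ≤
          2 * (q - 1) * d := by
      intro t _
      refine le_trans (le_of_eq ?_) (gc_spec f hd (x + t • h))
      exact av_surj (G := Ω × Ω) (H := Ω)
        (AddMonoidHom.mk' (fun p : Ω × Ω => p.1 + t • p.2) (by
          intro p p'
          simp only [Prod.fst_add, Prod.snd_add, smul_add]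
          abel)) (fun y => ⟨(y, 0), by simp⟩)
        (fun h' => ind0 (As (F := F) f (x + t • h) h' = gc (F := F) f (x + t • h)))
    have b2 : ∀ u ∈ univ.erase (0 : F), av (fun p : Ω × Ω =>
        ind0 (∑ t : F, f ((x + u • p.1) + t • (h + u • p.2)) = 0)) ≤ d := by
      intro u hu
      have hu0 : u ≠ 0 := Finset.ne_of_mem_erase hu
      refine (le_of_eq ?_).trans hd
      exact av_equiv ((aff x hu0).prodCongr (aff h hu0))
        (fun x : Ω × Ω => ind0 (∑ t : F, f (x.1 + t • x.2) = 0))
    have s1 := Finset.sum_le_sum b1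
    have s2 := Finset.sum_le_sum b2
    rw [Finset.sum_const, nsmul_eq_mul, Finset.card_univ, ← hq] at s1
    rw [Finset.sum_const, nsmul_eq_mul, card_erase, ← hq] at s2
    have : q * (2 * (q - 1) * d) + (q - 1) * d ≤ 3 * q ^ 2 * d := by
      have h5 : q * (2 * (q - 1)) + (q - 1) ≤ 3 * q ^ 2 := by nlinarith
      calc q * (2 * (q - 1) * d) + (q - 1) * d = (q * (2 * (q - 1)) + (q - 1)) * d := by ring
        _ ≤ 3 * q ^ 2 * d := mul_le_mul_of_nonneg_right h5 hd0
    linarith
  obtain ⟨p, hp⟩ := exists_le_av B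
  have hp1 : B p < 1 := lt_of_le_of_lt hp hav
  have g1 : ∀ t : F, As (F := F) f (x + t • h) (p.1 + t • p.2) = gc (F := F) f (x + t • h) := by
    intro t
    refine ind0_lt (lt_of_le_of_lt ?_ hp1)
    rw [hB]
    refine (Finset.single_le_sum (f := fun t : F =>
      ind0 (As (F := F) f (x + t • h) (p.1 + t • p.2) = gc (F := F) f (x + t • h)))
      (fun _ _ => ind0_nonneg _) (Finset.mem_univ t)).trans ?_
    exact le_add_of_nonneg_right (Finset.sum_nonneg fun _ _ => ind0_nonneg _)
  have g2 : ∀ u ∈ univ.erase (0 : F),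
      ∑ t : F, f ((x + u • p.1) + t • (h + u • p.2)) = 0 := by
    intro u hu
    refine ind0_lt (lt_of_le_of_lt ?_ hp1)
    rw [hB]
    refine (Finset.single_le_sum (f := fun u : F =>
      ind0 (∑ t : F, f ((x + u • p.1) + t • (h + u • p.2)) = 0))
      (fun _ _ => ind0_nonneg _) hu).trans ?_
    exact le_add_of_nonneg_left (Finset.sum_nonneg fun _ _ => ind0_nonneg _)
  calc ∑ t : F, gc (F := F) f (x + t • h)
      = ∑ t : F, ∑ u ∈ univ.erase (0 : F), f (x + t • h + u • (p.1 + t • p.2)) :=
        Finset.sum_congr rfl fun t _ => (g1 t).symm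
    _ = ∑ u ∈ univ.erase (0 : F), ∑ t : F, f ((x + u • p.1) + t • (h + u • p.2)) := by
        rw [Finset.sum_comm]
        refine Finset.sum_congr rfl fun u _ => Finset.sum_congr rfl fun t _ => ?_
        congr 1
        rw [smul_add, smul_add, smul_comm u t]
        abel
    _ = 0 := Finset.sum_eq_zero g2

end

end RS

open RS in
/-- **RS** -/
theorem specRs : SpecRs := by
  classical
  intro F Ω _ _ _ _ _ f d h3 hd
  have hd' : av (fun x : Ω × Ω => ind0 (∑ t : F, f (x.1 + t • x.2) = 0)) ≤ d := by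
    refine le_trans (le_of_eq (av_congr fun x => ?_)) hd
    exact (ite_eq_ind0 _).symm
  refine ⟨gc (F := F) f, fun x h => gc_line f h3 hd' x h, ?_⟩
  refine le_trans (le_of_eq (av_congr fun x => ?_)) (gc_close f hd')
  exact ite_eq_ind0 _

open RS in
/-- **ZT** -/
theorem specZt : SpecZt := by
  classical
  intro F Ω _ _ _ _ _ G hG hav x
  have : Nonempty Ω := ⟨0⟩
  set q : ℝ := (Fintype.card F : ℝ) with hq
  have hm0 : 0 ≤ av (fun x => if G x = 0 then (0 : ℝ) else 1) :=
    av_nonneg fun _ => by split_ifs <;> norm_num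
  set B : Ω → ℝ := fun h => ∑ t ∈ univ.erase (0 : F), if G (x + t • h) = 0 then (0 : ℝ) else 1
    with hB
  have hB1 : av B < 1 := by
    rw [hB, av_sum]
    have b1 : ∀ t ∈ univ.erase (0 : F),
        av (fun h => if G (x + t • h) = 0 then (0 : ℝ) else 1) ≤
          av (fun x => if G x = 0 then (0 : ℝ) else 1) := by
      intro t ht
      have ht0 : t ≠ 0 := Finset.ne_of_mem_erase ht
      exact le_of_eq (av_equiv (aff x ht0) (fun x => if G x = 0 then (0 : ℝ) else 1))
    have s1 := Finset.sum_le_sum b1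
    rw [Finset.sum_const, nsmul_eq_mul, card_erase, ← hq] at s1
    linarith
  obtain ⟨h, hh⟩ := exists_le_av B
  have hh1 : B h < 1 := lt_of_le_of_lt hh hB1
  have hz : ∀ t ∈ univ.erase (0 : F), G (x + t • h) = 0 := by
    intro t ht
    by_contra hne
    have h1 := Finset.single_le_sum (f := fun t : F => if G (x + t • h) = 0 then (0 : ℝ) else 1)
      (fun t _ => by split_ifs <;> norm_num) ht
    simp only [hne, if_false] at h1
    exact absurd (lt_of_le_of_lt h1 hh1) (lt_irrefl _)
  have h2 := hG x h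
  rw [sum_line] at h2
  have h3 : As (F := F) G x h = 0 := Finset.sum_eq_zero hz
  rw [h3, add_zero] at h2
  exact h2

end Vale.Agent.P249.TP3
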