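import Vale.Agent.P249.TP.Start
import Vale.Agent.P249.TP3.Spec

/-!
# START3: location map from a peaked system, abstract linearity test, explicit constants
(helper133)
-/

open Finset
open scoped BigOperators

namespace Vale.Agent.P249.TP3

open Vale.Agent.P249.TP

open StartAux in
/-- abstract START: `a t q`, `b t q` are the pairs of the tests `t`, `S` is the law of the block,
`hLT` is the linearity test -/
theorem start3 {p : ℝ} (hp : 1 < p) {I : Type} [Fintype I] {ι : Type} [Fintype ι]
    (T : V I → ι → ℝ) {H₀ : ℝ} (hH₀ : 0 < H₀) (hH : H₀ ≤ ∑ i, |T 0 i| ^ p)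
    {𝒯 : Type} [Fintype 𝒯] (Q : 𝒯 → Type) [∀ t, Fintype (Q t)] (a b : (t : 𝒯) → Q t → V I)
    {Ω : Type} [Fintype Ω] [Nonempty Ω] (S : Ω → V I) {e : ℝ} (he : 0 < e)
    (hLT : ∀ f : V I → ZMod 2,
      (∀ t, av (fun q : Q t => if f (a t q) + f (b t q) = f (a t q + b t q) then (0 : ℝ) else 1)
        ≤ e) →
      ∃ P : V I, av (fun x => if f (S x) = pr (S x) P then (0 : ℝ) else 1) ≤ 1 / 100)
    (hdef : ∑ t, av (fun q : Q t => def1 p T (a t q) + def2 p T (a t q) (b t q)) ≤
      (16 : ℝ) ^ (-p) / 20 * e * ∑ i, |T 0 i| ^ p)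
    (hlaw : av (fun x => def1 p T (S x)) ≤ (16 : ℝ) ^ (-p) / 20 * ∑ i, |T 0 i| ^ p) :
    ∃ (ψ : ι → ℝ) (P : ι → V I), ∑ i, |ψ i| ^ (p / (p - 1)) ≤ 1 ∧
      1 / 4 * H₀ ^ (1 / p) ≤ av (fun x => ∑ i, ψ i * (w (S x) (P i) * T (S x) i)) := by
  classical
  have h16 : (0 : ℝ) < 16 ^ p := by positivity
  have h16' : (16 : ℝ) ^ p * (16 : ℝ) ^ (-p) = 1 := by
    rw [← Real.rpow_add (by norm_num)]; simp
  set H : ℝ := ∑ i, |T 0 i| ^ p with hHdef
  have hHpos : 0 < H := lt_of_lt_of_le hH₀ hH
  have hA : ∀ i, 0 ≤ |T 0 i| ^ p := fun i => Real.rpow_nonneg (abs_nonneg _) _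
  -- the failure probabilities
  set a1 : 𝒯 → ι → ℝ := fun t i => av (fun q : Q t =>
    nf (fun U => T U i) (a t q) (b t q)) with ha1
  have hb1 : ∀ t, ∑ i, |T 0 i| ^ p * a1 t i ≤
      16 ^ p * av (fun q : Q t => def1 p T (a t q) + def2 p T (a t q) (b t q)) := fun t => by
    have := fam_fail (H := 1) hp T (a t) (b t)
      (δ := av (fun q : Q t => def1 p T (a t q) + def2 p T (a t q) (b t q))) (by rw [mul_one])
    rwa [mul_one] at this
  have n1 : ∀ t i, 0 ≤ a1 t i := fun t i => av_nonneg fun q => nf_nonneg _ _ _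
  set good : ι → Prop := fun i => T 0 i ≠ 0 ∧ (∀ t, a1 t i ≤ e) with hgood
  have hex : ∀ i, ∃ P : V I, good i →
      av (fun x => if ff (fun U => T U i) (S x) = pr (S x) P then (0 : ℝ) else 1) ≤
          1 / 100 := by
    intro i
    by_cases hi : good i
    · obtain ⟨h0, h1⟩ := hi
      obtain ⟨P, hP⟩ := hLT (ff fun U => T U i)
        (fun t => (av_mono fun q => test_le (fun U => T U i) h0 _ _).trans (h1 t))
      exact ⟨P, fun _ => hP⟩
    · exact ⟨0, fun h => absurd h hi⟩
  choose P hP using hex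
  set c : ℝ := H ^ ((p - 1) / p) with hc
  have hc0 : 0 < c := Real.rpow_pos_of_pos hHpos _
  refine ⟨fun i => if good i then |T 0 i| ^ (p - 1) * sh (T 0 i) / c else 0, P, ?_, ?_⟩
  · -- norm
    have hpp : (0 : ℝ) < p / (p - 1) := div_pos (by linarith) (by linarith)
    have h1 : ∀ i, |(if good i then
        |T 0 i| ^ (p - 1) * sh (T 0 i) / c else 0)| ^ (p / (p - 1)) ≤ |T 0 i| ^ p / H := by
      intro i
      split_ifs with h
      · have e2 : |sh (T 0 i)| = 1 := by
          rcases sh_or (T 0 i) with h' | h' <;> rw [h'] <;> norm_num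
        have e3 : |(|T 0 i| ^ (p - 1))| = |T 0 i| ^ (p - 1) :=
          abs_of_nonneg (Real.rpow_nonneg (abs_nonneg _) _)
        rw [abs_div, abs_mul, e2, e3, abs_of_pos hc0, mul_one,
          Real.div_rpow (Real.rpow_nonneg (abs_nonneg _) _) hc0.le,
          ← Real.rpow_mul (abs_nonneg _), hc, ← Real.rpow_mul hHpos.le]
        have e4 : (p - 1) * (p / (p - 1)) = p := by
          have : p - 1 ≠ 0 := by linarith
          field_simp
        have e5 : (p - 1) / p * (p / (p - 1)) = 1 := by
          have : p - 1 ≠ 0 := by linarith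
          have : p ≠ 0 := by linarith
          field_simp
        rw [e4, e5, Real.rpow_one]
      · rw [abs_zero, Real.zero_rpow hpp.ne']
        exact div_nonneg (hA i) hHpos.le
    calc _ ≤ ∑ i, |T 0 i| ^ p / H := Finset.sum_le_sum fun i _ => h1 i
      _ = 1 := by rw [← Finset.sum_div, ← hHdef]; exact div_self hHpos.ne'
  · -- main estimate
    have hdef1 : (16 : ℝ) ^ p * av (fun x => def1 p T (S x)) ≤ 1 / 20 * H := by
      calc _ ≤ (16 : ℝ) ^ p * ((16 : ℝ) ^ (-p) / 20 * H) :=
            mul_le_mul_of_nonneg_left hlaw h16.le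
        _ = ((16 : ℝ) ^ p * (16 : ℝ) ^ (-p)) * (1 / 20 * H) := by ring
        _ = _ := by rw [h16', one_mul]
    -- mass of the good coordinates
    have hmass : 19 / 20 * H ≤ ∑ i, if good i then |T 0 i| ^ p else 0 := by
      have h1 : ∀ i, |T 0 i| ^ p - 1 / e * (∑ t, |T 0 i| ^ p * a1 t i) ≤
          if good i then |T 0 i| ^ p else 0 := by
        intro i
        have m1 : ∀ t, 0 ≤ |T 0 i| ^ p * a1 t i := fun t => mul_nonneg (hA i) (n1 t i)
        have m1s : 0 ≤ ∑ t, |T 0 i| ^ p * a1 t i := Finset.sum_nonneg fun t _ => m1 t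
        have hie : 0 < 1 / e := by positivity
        split_ifs with h
        · have : 0 ≤ 1 / e * (∑ t, |T 0 i| ^ p * a1 t i) := by positivity
          linarith
        · by_cases h0 : T 0 i = 0
          · have hz : |T 0 i| ^ p = 0 := by
              rw [h0, abs_zero, Real.zero_rpow (by linarith)]
            rw [hz]
            simp
          · have hx : |T 0 i| ^ p * e ≤ ∑ t, |T 0 i| ^ p * a1 t i := by
              have h' : ¬ (∀ t, a1 t i ≤ e) := fun h'' => h ⟨h0, h''⟩
              rw [not_forall] at h'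
              obtain ⟨t, ht⟩ := h'
              push Not at ht
              have h1 := mul_le_mul_of_nonneg_left ht.le (hA i)
              have h2 : |T 0 i| ^ p * a1 t i ≤ ∑ t, |T 0 i| ^ p * a1 t i :=
                Finset.single_le_sum (f := fun t => |T 0 i| ^ p * a1 t i)
                  (fun t _ => m1 t) (Finset.mem_univ t)
              linarith
            have hy := mul_le_mul_of_nonneg_left hx hie.le
            have hz : 1 / e * (|T 0 i| ^ p * e) = |T 0 i| ^ p := by field_simp
            rw [hz] at hy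
            linarith
      have h2 := Finset.sum_le_sum fun i (_ : i ∈ (univ : Finset ι)) => h1 i
      rw [Finset.sum_sub_distrib, ← Finset.mul_sum, Finset.sum_comm, ← hHdef] at h2
      have h3 : ∑ t, ∑ i, |T 0 i| ^ p * a1 t i ≤ 16 ^ p * ((16 : ℝ) ^ (-p) / 20 * e * H) := by
        calc _ ≤ ∑ t : 𝒯, 16 ^ p * av (fun q : Q t => def1 p T (a t q) +
              def2 p T (a t q) (b t q)) := Finset.sum_le_sum fun t _ => hb1 t
          _ = 16 ^ p * ∑ t : 𝒯, av (fun q : Q t => def1 p T (a t q) +
              def2 p T (a t q) (b t q)) := by rw [Finset.mul_sum]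
          _ ≤ _ := mul_le_mul_of_nonneg_left hdef h16.le
      have h4 : 1 / e * (∑ t, ∑ i, |T 0 i| ^ p * a1 t i) ≤ 1 / 20 * H := by
        have h5 : ∑ t, ∑ i, |T 0 i| ^ p * a1 t i ≤ e * (1 / 20) * H := by
          calc _ ≤ 16 ^ p * ((16 : ℝ) ^ (-p) / 20 * e * H) := h3
            _ = ((16 : ℝ) ^ p * (16 : ℝ) ^ (-p)) * (e * (1 / 20) * H) := by ring
            _ = _ := by rw [h16', one_mul]
        calc _ ≤ 1 / e * (e * (1 / 20) * H) :=
              mul_le_mul_of_nonneg_left h5 (by positivity)
          _ = _ := by field_simp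
      linarith
    -- coordinatewise lower bound
    have hco : ∀ i, 7 / 8 * (if good i then |T 0 i| ^ p else 0) - 3 / 100 * |T 0 i| ^ p -
          16 ^ p * av (fun x => (min |(T 0 i + T (S x) i) / 2| |(T 0 i - T (S x) i) / 2|) ^ p) ≤
        c * av (fun x => (if good i then |T 0 i| ^ (p - 1) * sh (T 0 i) / c else 0) *
            (w (S x) (P i) * T (S x) i)) := by
      intro i
      have hm0 : 0 ≤ av (fun x =>
            (min |(T 0 i + T (S x) i) / 2| |(T 0 i - T (S x) i) / 2|) ^ p) :=
        av_nonneg fun q => Real.rpow_nonneg (min_abs_nonneg _ _) _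
      by_cases h : good i
      · simp only [if_pos h]
        have h0 := h.1
        have hPi := hP i h
        have e1 : c * av (fun x => (|T 0 i| ^ (p - 1) * sh (T 0 i) / c) *
            (w (S x) (P i) * T (S x) i)) =
            av (fun x => |T 0 i| ^ (p - 1) * w (S x) (P i) * (sh (T 0 i) * T (S x) i)) := by
          rw [← av_mul_left]
          congr 1
          funext q
          field_simp
        rw [e1]
        have e2 : 7 / 8 * |T 0 i| ^ p - 3 * |T 0 i| ^ p *
            av (fun x => if ff (fun U => T U i) (S x) = pr (S x) (P i) then (0 : ℝ) else 1) -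
            16 ^ p * av (fun x =>
            (min |(T 0 i + T (S x) i) / 2| |(T 0 i - T (S x) i) / 2|) ^ p) ≤
            av (fun x => |T 0 i| ^ (p - 1) * w (S x) (P i) * (sh (T 0 i) * T (S x) i)) := by
          have e3 : 7 / 8 * |T 0 i| ^ p - 3 * |T 0 i| ^ p *
            av (fun x => if ff (fun U => T U i) (S x) = pr (S x) (P i) then (0 : ℝ) else 1) -
            16 ^ p * av (fun x =>
            (min |(T 0 i + T (S x) i) / 2| |(T 0 i - T (S x) i) / 2|) ^ p) =
            av (fun x => 7 / 8 * |T 0 i| ^ p -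
              3 * |T 0 i| ^ p * (if ff (fun U => T U i) (S x) =
                pr (S x) (P i) then (0 : ℝ) else 1) -
              16 ^ p * (min |(T 0 i + T (S x) i) / 2|
                |(T 0 i - T (S x) i) / 2|) ^ p) := by
            rw [av_sub, av_sub, av_const, av_mul_left, av_mul_left]
          rw [e3]
          apply av_mono
          intro q
          refine le_trans ?_ (term_lb hp h0 (sg_or (pr (S q) (P i))))
          have e4 : (if rs (T 0 i) (T (S q) i) = w (S q) (P i) then (0 : ℝ)
              else 1) ≤ (if ff (fun U => T U i) (S q) =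
                pr (S q) (P i) then (0 : ℝ) else 1) := by
            by_cases h5 : ff (fun U => T U i) (S q) = pr (S q) (P i)
            · rw [if_pos h5, if_pos]
              unfold w
              rw [← h5, sg_ff]
            · rw [if_neg h5]
              split_ifs <;> norm_num
          have e5 := mul_le_mul_of_nonneg_left e4 (by positivity : (0 : ℝ) ≤ 3 * |T 0 i| ^ p)
          linarith
        refine le_trans ?_ e2
        have e6 := mul_le_mul_of_nonneg_left hPi (by positivity : (0 : ℝ) ≤ 3 * |T 0 i| ^ p)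
        linarith
      · simp only [if_neg h, zero_mul]
        have h1 : av (fun _ : Ω => (0 : ℝ)) = 0 := by
          unfold av; simp
        rw [h1]
        have := mul_nonneg h16.le hm0
        have := hA i
        linarith
    have hsum := Finset.sum_le_sum fun i (_ : i ∈ (univ : Finset ι)) => hco i
    rw [Finset.sum_sub_distrib, Finset.sum_sub_distrib, ← Finset.mul_sum, ← Finset.mul_sum,
      ← Finset.mul_sum, ← Finset.mul_sum, ← av_sum, ← av_sum, ← hHdef] at hsum
    have hd : av (fun x => ∑ i,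
            (min |(T 0 i + T (S x) i) / 2| |(T 0 i - T (S x) i) / 2|) ^ p) =
        av (fun x => def1 p T (S x)) := rfl
    rw [hd] at hsum
    set R := av (fun x => ∑ i,
      (if good i then |T 0 i| ^ (p - 1) * sh (T 0 i) / c else 0) *
        (w (S x) (P i) * T (S x) i)) with hR
    have hfin : 1 / 4 * H ≤ c * R := by linarith
    have hcH : H ^ (1 / p) * c = H := by
      rw [hc, ← Real.rpow_add hHpos]
      have : 1 / p + (p - 1) / p = 1 := by
        have : p ≠ 0 := by linarith
        field_simp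
        ring
      rw [this, Real.rpow_one]
    have h7 : 1 / 4 * H ^ (1 / p) ≤ R := by
      have : 1 / 4 * (H ^ (1 / p) * c) ≤ c * R := by rw [hcH]; exact hfin
      have h8 : (1 / 4 * H ^ (1 / p)) * c ≤ R * c := by linarith
      exact le_of_mul_le_mul_right h8 hc0
    have h9 : H₀ ^ (1 / p) ≤ H ^ (1 / p) :=
      Real.rpow_le_rpow hH₀.le hH (by positivity)
    linarith

lemma av_prod_sum {U Ω' : Type} [Fintype U] [Nonempty U] [Fintype Ω'] (f : U → Ω' → ℝ) :
    ∑ u, av (f u) = Fintype.card U * av (fun x : U × Ω' => f x.1 x.2) := by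
  unfold av
  rw [Fintype.sum_prod_type, Fintype.card_prod, Nat.cast_mul, ← Finset.sum_div]
  have : (Fintype.card U : ℝ) ≠ 0 := by exact_mod_cast Fintype.card_ne_zero
  by_cases h : (Fintype.card Ω' : ℝ) = 0
  · rw [h]; simp
  · field_simp

open StartAux in
theorem specStart3 : SpecStart3 := by
  intro p hp
  have h16 : (0 : ℝ) < (16 : ℝ) ^ (-p) := by positivity
  have h16' : (16 : ℝ) ^ (-p) ≤ 1 :=
    Real.rpow_le_one_of_one_le_of_nonpos (by norm_num) (by linarith)
  refine ⟨(16 : ℝ) ^ (-p) / 20, by positivity, by linarith, ?_⟩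
  intro I U Ω Ω' _ _ _ _ _ _ _ _ S s s' u₀ e he he1 hlaw hLT ι _ T H₀ hH₀ hH hdef
  have hU : (Fintype.card U : ℝ) ≠ 0 := by exact_mod_cast Fintype.card_ne_zero
  have hU0 : (0 : ℝ) < Fintype.card U := by exact_mod_cast Fintype.card_pos
  have hHpos : 0 < ∑ i, |T 0 i| ^ p := lt_of_lt_of_le hH₀ hH
  have d1 : ∀ S, 0 ≤ def1 p T S := fun S => by
    unfold def1
    exact Finset.sum_nonneg fun i _ => Real.rpow_nonneg (min_abs_nonneg _ _) _
  have d2 : ∀ S S', 0 ≤ def2 p T S S' := fun S S' => by
    unfold def2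
    exact Finset.sum_nonneg fun i _ => add_nonneg (Real.rpow_nonneg (min_abs_nonneg _ _) _)
      (Real.rpow_nonneg (min_abs_nonneg _ _) _)
  have hsum : ∑ u, av (fun x : Ω' => def1 p T (s u x) + def2 p T (s u x) (s' u x)) ≤
      (16 : ℝ) ^ (-p) / 20 * e * ∑ i, |T 0 i| ^ p := by
    rw [av_prod_sum (fun u x => def1 p T (s u x) + def2 p T (s u x) (s' u x))]
    calc _ ≤ (Fintype.card U : ℝ) * ((16 : ℝ) ^ (-p) / 20 * e / Fintype.card U *
          ∑ i, |T 0 i| ^ p) := mul_le_mul_of_nonneg_left hdef hU0.le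
      _ = _ := by field_simp
  refine start3 hp T hH₀ hH (fun _ : U => Ω') s s' S he hLT hsum ?_
  rw [hlaw]
  calc av (fun x => def1 p T (s u₀ x))
      ≤ av (fun x => def1 p T (s u₀ x) + def2 p T (s u₀ x) (s' u₀ x)) :=
        av_mono fun x => by linarith [d2 (s u₀ x) (s' u₀ x)]
    _ ≤ ∑ u, av (fun x : Ω' => def1 p T (s u x) + def2 p T (s u x) (s' u x)) :=
        Finset.single_le_sum
          (f := fun u => av (fun x : Ω' => def1 p T (s u x) + def2 p T (s u x) (s' u x)))
          (fun u _ => av_nonneg fun x => add_nonneg (d1 _) (d2 _ _)) (Finset.mem_univ u₀)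
    _ ≤ (16 : ℝ) ^ (-p) / 20 * e * ∑ i, |T 0 i| ^ p := hsum
    _ ≤ _ := by
        apply mul_le_mul_of_nonneg_right _ hHpos.le
        have := mul_le_mul_of_nonneg_left he1 h16.le
        linarith

end Vale.Agent.P249.TP3
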