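import Vale.Agent.P249.TP.Uni
import Vale.Agent.P249.TP3.Spec

/-!
# P249 phase 3, block UNI3: `specUni3` (helper54; the proof of helper583's `TP/Uni.lean` with its
constants written out)
-/

open Finset
open scoped BigOperators

namespace Vale.Agent.P249.TP3

open Vale.Agent.P249.TP Vale.Agent.P249.TP.Uni

theorem specUni3 : SpecUni3 := by
  intro p D hp hp2 hD
  have hp0 : 0 < p := by linarith
  obtain ⟨c, hc0, hcge, hcle⟩ : ∃ c : ℝ, 0 < c ∧ (2 ≤ p → c = (p / 2 - 1) / 2) ∧
      (p ≤ 2 → c = (1 - p / 2) / 2) := by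
    rcases lt_or_gt_of_ne hp2 with h | h
    · exact ⟨(1 - p / 2) / 2, by linarith, fun h' => by linarith, fun _ => rfl⟩
    · exact ⟨(p / 2 - 1) / 2, by linarith, fun _ => rfl, fun h' => by linarith⟩
  set U : ℝ := 2 ^ p * D ^ p with hU
  have hU1 : 1 ≤ U := by
    have h1 : 1 ≤ (2 : ℝ) ^ p := Real.one_le_rpow (by norm_num) hp0.le
    have h2 : 1 ≤ D ^ p := Real.one_le_rpow hD hp0.le
    exact one_le_mul_of_one_le_of_one_le h1 h2
  set c1 : ℝ := (1 / 2) ^ p with hc1
  have hc1pos : 0 < c1 := by positivity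
  refine ⟨4 * U / (c * c1) + 2 + 4 / c1, ?_, ?_⟩
  · have h1 : 0 ≤ 4 * U / (c * c1) := by positivity
    have h2 : 0 ≤ 4 / c1 := by positivity
    linarith
  intro δ hδ hδ1
  -- number of levels
  set L0 : ℕ := ⌈4 * U / (c * (δ * c1))⌉₊ + 1 with hL0
  have hL1 : 1 ≤ L0 := by omega
  have hLpos : (0 : ℝ) < L0 := by exact_mod_cast hL1
  have hd3 : U / (c * L0) ≤ δ * c1 / 4 := by
    have h1 : 4 * U / (c * (δ * c1)) ≤ L0 := by
      have := Nat.le_ceil (4 * U / (c * (δ * c1)))
      rw [hL0]; push_cast; linarith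
    rw [div_le_iff₀ (by positivity)] at h1
    rw [div_le_iff₀ (by positivity)]
    linarith
  have hLC : (L0 : ℝ) ≤ (4 * U / (c * c1) + 2 + 4 / c1) / δ := by
    have h0 : 0 ≤ 4 * U / (c * (δ * c1)) := by positivity
    have h1 : (L0 : ℝ) ≤ 4 * U / (c * (δ * c1)) + 2 := by
      have := (Nat.ceil_lt_add_one h0).le
      rw [hL0]; push_cast; linarith
    have h2 : 4 * U / (c * (δ * c1)) = 4 * U / (c * c1) / δ := by
      field_simp
    have h3 : (2 : ℝ) ≤ 2 / δ := by
      rw [le_div_iff₀ hδ]; linarith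
    have h4 : 0 ≤ 4 / c1 / δ := by positivity
    calc (L0 : ℝ) ≤ 4 * U / (c * c1) / δ + 2 / δ + 4 / c1 / δ := by linarith
      _ = (4 * U / (c * c1) + 2 + 4 / c1) / δ := by ring
  have hHC : 1 / (4 * U / (c * c1) + 2 + 4 / c1) * (1 / 4) ^ L0 ≤ c1 / 4 * (1 / 4) ^ L0 := by
    refine mul_le_mul_of_nonneg_right ?_ (by positivity)
    have h1 : 0 ≤ 4 * U / (c * c1) := by positivity
    have h2 : 0 < 4 / c1 := by positivity
    calc 1 / (4 * U / (c * c1) + 2 + 4 / c1) ≤ 1 / (4 / c1) :=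
          one_div_le_one_div_of_le h2 (by linarith)
      _ = c1 / 4 := by rw [one_div_div]
  refine ⟨L0, hL1, hLC, ?_⟩
  intro I _ _ K hK Q _ _ s s' m hs hs'
  -- the family
  have hfam : ∃ fam : TestFam p (4 ^ L0) (K (2 * L0 * m)), ∀ (ι : Type) [Fintype ι]
      (τ : List (I × ZMod 2) → V I → ι → ℝ), L3 fam τ →
      (2 ≤ p → c1 ≤ Ph s s' 0 (L0 - 1) (f0 p (τ []))) ∧
      (p ≤ 2 → c1 ≤ Ph s s' (L0 - 1) 0 (f0 p (τ []))) := by
    have hle : (L0 - 1) * (2 * m) ≤ 2 * L0 * m := by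
      calc (L0 - 1) * (2 * m) ≤ L0 * (2 * m) := Nat.mul_le_mul_right _ (by omega)
        _ = 2 * L0 * m := by ring
    rcases lt_or_gt_of_ne hp2 with h | h
    · obtain ⟨fam, hf⟩ := exists_fam hK hs hs' (p := p) (Λ := 4 ^ L0) hp (R := L0 - 1) (l := 0)
        (n := 2 * L0 * m) (by simpa using hle) (pow_le_pow_right₀ (by norm_num) (by omega))
      exact ⟨fam, fun ι _ τ h3 => ⟨fun h' => by linarith, fun _ => hf ι τ h3⟩⟩
    · obtain ⟨fam, hf⟩ := exists_fam hK hs hs' (p := p) (Λ := 4 ^ L0) hp (R := 0) (l := L0 - 1)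
        (n := 2 * L0 * m) (by simpa using hle) (pow_le_pow_right₀ (by norm_num) (by omega))
      exact ⟨fam, fun ι _ τ h3 => ⟨fun _ => hf ι τ h3, fun h' => by linarith⟩⟩
  obtain ⟨fam, hfam⟩ := hfam
  refine ⟨fam, fun ε hε0 hεν m' ι _ τ hsys hL3 => ?_⟩
  obtain ⟨hfam1, hfam2⟩ := hfam ι τ hL3
  set T := τ [] with hT
  have hε1 : ∀ l ≤ L0, ε * 4 ^ l ≤ 1 := by
    intro l hl
    have h1 : (4 : ℝ) ^ l ≤ 4 ^ L0 := pow_le_pow_right₀ (by norm_num) hl
    have h2 : (0 : ℝ) < 4 ^ L0 := by positivity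
    calc ε * 4 ^ l ≤ (1 / 4) ^ L0 * 4 ^ L0 := mul_le_mul hεν h1 (by positivity) (by positivity)
      _ = 1 := by rw [← mul_pow]; norm_num
  have hbd : ∀ R l, R + l ≤ L0 → 0 ≤ Ph s s' R l (f0 p T) ∧ Ph s s' R l (f0 p T) ≤ U := by
    intro R l hl
    refine ph_up hK hs hs' hp hD hε0 (n := 2 * L0 * m + m') ?_ (hε1 l (by omega)) hsys
    calc (R + l) * (2 * m) ≤ L0 * (2 * m) := Nat.mul_le_mul_right _ hl
      _ = 2 * L0 * m := by ring
      _ ≤ 2 * L0 * m + m' := Nat.le_add_right _ _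
  have hmain : ∃ R l, R + l = L0 - 1 ∧ l ≤ L0 ∧ c1 ≤ Ph s s' R l (f0 p T) ∧
      Ph s s' R l (De p s s' T) ≤ δ * c1 / 4 := by
    rcases lt_or_gt_of_ne hp2 with h | h
    · -- p < 2
      have hstep : ∀ R l, Ph s s' (R + 1) l (f0 p T) + c * Ph s s' R l (De p s s' T) ≤
          Ph s s' R (l + 1) (f0 p T) := by
        intro R l
        rw [hcle h.le]
        exact ph_clk_le hK hs hs' hp h.le T R l
      obtain ⟨l, hl, hGl⟩ := tele hL1 hc0 (U := U)
        (B := fun l => Ph s s' (L0 - l) l (f0 p T))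
        (G := fun l => Ph s s' (L0 - 1 - l) l (De p s s' T))
        (fun l hl => (hbd (L0 - l) l (by omega)).1) (fun l hl => (hbd (L0 - l) l (by omega)).2)
        (fun l hl => by
          have h1 := hstep (L0 - 1 - l) l
          have e1 : L0 - 1 - l + 1 = L0 - l := by omega
          have e2 : L0 - 1 - l = L0 - (l + 1) := by omega
          rw [e1] at h1
          rw [← e2]
          exact h1)
      refine ⟨L0 - 1 - l, l, by omega, hl.le, ?_, hGl.trans hd3⟩
      have hmon : ∀ l ≤ L0 - 1, c1 ≤ Ph s s' (L0 - 1 - l) l (f0 p T) := by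
        intro l
        induction l with
        | zero => intro _; simpa using hfam2 h.le
        | succ l ih =>
          intro hl
          have h1 := ih (by omega)
          have h2 := hstep (L0 - 1 - (l + 1)) l
          have e1 : L0 - 1 - (l + 1) + 1 = L0 - 1 - l := by omega
          rw [e1] at h2
          have h3 : 0 ≤ c * Ph s s' (L0 - 1 - (l + 1)) l (De p s s' T) :=
            mul_nonneg hc0.le (ph_nonneg hK hs hs' fun χ _ => De_nonneg p s s' T χ)
          linarith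
      exact hmon l (by omega)
    · -- p > 2
      have hstep : ∀ R l, Ph s s' R (l + 1) (f0 p T) + c * Ph s s' R l (De p s s' T) ≤
          Ph s s' (R + 1) l (f0 p T) := by
        intro R l
        rw [hcge h.le]
        exact ph_clk_ge hK hs hs' hp h.le T R l
      obtain ⟨l, hl, hGl⟩ := tele' hL1 hc0 (U := U)
        (B := fun l => Ph s s' (L0 - l) l (f0 p T))
        (G := fun l => Ph s s' (L0 - 1 - l) l (De p s s' T))
        (fun l hl => (hbd (L0 - l) l (by omega)).1) (fun l hl => (hbd (L0 - l) l (by omega)).2)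
        (fun l hl => by
          have h1 := hstep (L0 - 1 - l) l
          have e1 : L0 - 1 - l + 1 = L0 - l := by omega
          have e2 : L0 - 1 - l = L0 - (l + 1) := by omega
          rw [e1] at h1
          rw [← e2]
          exact h1)
      refine ⟨L0 - 1 - l, l, by omega, hl.le, ?_, hGl.trans hd3⟩
      have hmon : ∀ j, ∀ l, l + j = L0 - 1 → c1 ≤ Ph s s' (L0 - 1 - l) l (f0 p T) := by
        intro j
        induction j with
        | zero =>
          intro l hl
          have e1 : l = L0 - 1 := by omega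
          rw [e1]
          simpa using hfam1 h.le
        | succ j ih =>
          intro l hl
          have h1 := ih (l + 1) (by omega)
          have h2 := hstep (L0 - 1 - (l + 1)) l
          have e1 : L0 - 1 - (l + 1) + 1 = L0 - 1 - l := by omega
          rw [e1] at h2
          have h3 : 0 ≤ c * Ph s s' (L0 - 1 - (l + 1)) l (De p s s' T) :=
            mul_nonneg hc0.le (ph_nonneg hK hs hs' fun χ _ => De_nonneg p s s' T χ)
          linarith
      exact hmon (L0 - 1 - l) l (by omega)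
  obtain ⟨R, l, hRl, hlL, hBl, hGl⟩ := hmain
  obtain ⟨χ, hχ, hχ0, hχ1⟩ := exists_universe hK hs hs' (p := p) hδ hc1pos T hlL hBl hGl
  have h1 : ∑ i, |trans χ (τ []) 0 i| ^ p = f0 p T χ := by
    unfold f0
    exact Finset.sum_congr rfl fun i _ => by rw [trans_zero]
  refine ⟨fun P => trans χ (τ P), ?_, ?_, ?_⟩
  · refine sys_trans hK hp (by linarith) hε0 (a := (R + l) * (2 * m)) hsys hχ.supp hχ.l1 hχ.sup ?_
    have : (R + l) * (2 * m) ≤ 2 * L0 * m := by
      rw [hRl]
      calc (L0 - 1) * (2 * m) ≤ L0 * (2 * m) := Nat.mul_le_mul_right _ (by omega)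
        _ = 2 * L0 * m := by ring
    omega
  · rw [h1]
    exact hHC.trans hχ0
  · rw [h1]
    exact hχ1

end Vale.Agent.P249.TP3
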