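import Vale.Agent.P249.TP3.Core3
import Vale.Agent.P249.TP3.NumPath
import Vale.Agent.P249.TP3.NumCard
import Vale.Agent.P249.TP3.NumPar
import Vale.Agent.P249.TP3.Grade3
import Vale.Agent.P249.TP3.Block3
import Vale.Agent.P249.TP3.Uni3
import Vale.Agent.P249.TP3.Start3
import Vale.Agent.P249.TP3.Lt3
import Vale.Agent.P249.TP3.Rs
import Vale.Agent.P249.TP3.Line
import Vale.Agent.P249.TP3.Lin3
import Vale.Agent.P249.TP3.Alg
import Vale.Agent.P249.TP3.Final892
import Vale.Agent.P249.TP.Abs
import Vale.Agent.P249.TP.KeyGt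
import Vale.Agent.P249.TP.KeyLt

/-! # P249, phase 3: assembly (helper892) -/

namespace Vale.Agent.P249.TP3
open Vale.Agent.P249.TP

theorem specFinal3_892 : SpecFinal3 :=
  specFinal3_of892 (core3 specLin3 specUni3 specStart3
    (specBlock3_of specAbs specKeyGt specKeyLt)
    (specLt3_of specRs specZt specLine specAlg) specGrade3 specCount3 specNumPath specNumCard
    specNumPar)

end Vale.Agent.P249.TP3
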