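import Vale.Agent.P249.TP3.Spec
import Vale.Agent.P249.TP.Path

/-!
# P249, phase 3: the path from the root to the points for a general law (helper54, after helper557)
-/

open Finset
open scoped BigOperators

namespace Vale.Agent.P249.TP3

open Vale.Agent.P249.TP

section path

variable {I Ω : Type} [Fintype I] [DecidableEq I] [Fintype Ω] [Nonempty Ω]

/-- average over the law `S` -/
noncomputable def uu3 {ι : Type} [Fintype ι] (τ : List (I × ZMod 2) → V I → ι → ℝ) (ψ : ι → ℝ)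
    (P : ι → V I) (S : Ω → V I) (C : List I) : ℝ := av fun ω => gg τ ψ P C (S ω)

lemma uu3_step {p D ε E : ℝ} (hp : 1 < p) {K : V I → Prop} {S : Ω → V I}
    (hS : ∀ ω, K (S ω)) (hS1 : ∀ ω i, K (S ω + Pi.single i 1))
    {ι : Type} [Fintype ι] {τ : List (I × ZMod 2) → V I → ι → ℝ}
    (h : Sys p D ε K τ) {ψ : ι → ℝ} {P : ι → V I}
    (hψ : ∑ i, |ψ i| ^ (p / (p - 1)) ≤ 1) {C : List I} (hC : C.length < Fintype.card I) (i : I)
    (hE : |av (fun ω => gg τ ψ P C (S ω + Pi.single i 1) - gg τ ψ P C (S ω))| ≤ E) :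
    |uu3 τ ψ P S (C ++ [i]) - uu3 τ ψ P S C| ≤ E + ε * Fintype.card ι := by
  have h1 : ∀ ω, |gg τ ψ P (C ++ [i]) (S ω) - (1 / 2) * (gg τ ψ P C (S ω) +
        gg τ ψ P C (S ω + Pi.single i 1))| ≤ ε * Fintype.card ι :=
    fun ω => gg_step hp h hψ hC i (hS ω) (hS1 ω i)
  have h3 : |av (fun ω => gg τ ψ P (C ++ [i]) (S ω) - (1 / 2) * (gg τ ψ P C (S ω) +
        gg τ ψ P C (S ω + Pi.single i 1)))| ≤ ε * Fintype.card ι := abs_av_le_of_le h1
  have hε : 0 ≤ ε * Fintype.card ι := (abs_nonneg _).trans h3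
  have e1 : uu3 τ ψ P S (C ++ [i]) - uu3 τ ψ P S C =
      av (fun ω => gg τ ψ P (C ++ [i]) (S ω) - (1 / 2) * (gg τ ψ P C (S ω) +
        gg τ ψ P C (S ω + Pi.single i 1))) +
      (1 / 2) * av (fun ω => gg τ ψ P C (S ω + Pi.single i 1) - gg τ ψ P C (S ω)) := by
    unfold uu3
    rw [← av_sub, ← av_mul_left, ← av_add]
    exact av_congr fun q => by ring
  rw [e1]
  have hE0 : 0 ≤ E := (abs_nonneg _).trans hE
  refine (abs_add_le _ _).trans ?_
  rw [abs_mul, abs_of_pos (by norm_num : (0 : ℝ) < 1 / 2)]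
  linarith

lemma uu3_path {p D ε E : ℝ} (hp : 1 < p) {K : V I → Prop} {S : Ω → V I}
    (hS : ∀ ω, K (S ω)) (hS1 : ∀ ω i, K (S ω + Pi.single i 1))
    {ι : Type} [Fintype ι] {τ : List (I × ZMod 2) → V I → ι → ℝ}
    (h : Sys p D ε K τ) {ψ : ι → ℝ} {P : ι → V I}
    (hψ : ∑ i, |ψ i| ^ (p / (p - 1)) ≤ 1)
    (hE : ∀ C : List I, C.length ≤ Fintype.card I → ∀ i : I,
      |av (fun ω => gg τ ψ P C (S ω + Pi.single i 1) - gg τ ψ P C (S ω))| ≤ E)
    (C : List I) : C.length ≤ Fintype.card I →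
    |uu3 τ ψ P S C - uu3 τ ψ P S []| ≤ C.length * (E + ε * Fintype.card ι) := by
  induction C using List.reverseRecOn with
  | nil => intro _; simp
  | append_singleton C i ih =>
    intro hC
    rw [List.length_append, List.length_singleton] at hC ⊢
    have h1 := ih (by omega)
    have h2 := uu3_step hp hS hS1 h hψ (C := C) (by omega) i (hE C (by omega) i)
    push_cast
    have h3 : uu3 τ ψ P S (C ++ [i]) - uu3 τ ψ P S [] =
        (uu3 τ ψ P S (C ++ [i]) - uu3 τ ψ P S C) + (uu3 τ ψ P S C - uu3 τ ψ P S []) := by ring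
    rw [h3]
    refine (abs_add_le _ _).trans ?_
    nlinarith

/-- the whole path -/
theorem uu3_total {p D ε E : ℝ} (hp : 1 < p) {K : V I → Prop} {S : Ω → V I}
    (hS : ∀ ω, K (S ω)) (hS1 : ∀ ω i, K (S ω + Pi.single i 1))
    {ι : Type} [Fintype ι] {τ : List (I × ZMod 2) → V I → ι → ℝ}
    (h : Sys p D ε K τ) {ψ : ι → ℝ} {P : ι → V I}
    (hψ : ∑ i, |ψ i| ^ (p / (p - 1)) ≤ 1)
    (hE : ∀ C : List I, C.length ≤ Fintype.card I → ∀ i : I,
      |av (fun ω => gg τ ψ P C (S ω + Pi.single i 1) - gg τ ψ P C (S ω))| ≤ E) :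
    |uu3 τ ψ P S []| ≤ (Fintype.card I : ℝ) * (E + ε * Fintype.card ι) +
      (Fintype.card ι : ℝ) ^ (1 / p) *
        (D * (2 : ℝ) ^ (-(Fintype.card I : ℝ) / p) + ε) := by
  set C : List I := (univ : Finset I).toList with hC
  have hmem : ∀ i, i ∈ C := fun i => by rw [hC, Finset.mem_toList]; exact Finset.mem_univ i
  have hlen : C.length = Fintype.card I := by
    rw [hC, Finset.length_toList, Finset.card_univ]
  have h1 := uu3_path hp hS hS1 h hψ hE C hlen.le
  have h2 : |uu3 τ ψ P S C| ≤ (Fintype.card ι : ℝ) ^ (1 / p) *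
      (D * (2 : ℝ) ^ (-(Fintype.card I : ℝ) / p) + ε) := by
    refine abs_av_le_of_le fun ω => ?_
    exact gg_end hp h (P := P) hψ hmem hlen.le (hS ω)
  rw [hlen] at h1
  have h3 : uu3 τ ψ P S [] = uu3 τ ψ P S C - (uu3 τ ψ P S C - uu3 τ ψ P S []) := by ring
  rw [h3]
  refine (abs_sub _ _).trans ?_
  linarith

end path

section single

variable {F : Type} [Field F] {k s a : ℕ}

/-- coordinate vectors are elementary tensors -/
lemma single_eq_tr (β : F ≃+ V (Fin a)) (hk : 1 ≤ k) (i : Ix k a) :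
    (Pi.single i 1 : V (Ix k a)) = tr β (tn (fun l c =>
      if c = i.1 l then (if (l : ℕ) = 0 then β.symm (Pi.single i.2 1) else 1) else 0)) := by
  classical
  funext x
  obtain ⟨c, b⟩ := x
  obtain ⟨c', b'⟩ := i
  simp only [tr, tn]
  by_cases hc : c = c'
  · subst hc
    have h1 : (∏ l : Fin k, if c l = c l then
        (if (l : ℕ) = 0 then β.symm (Pi.single b' 1) else 1) else (0 : F)) =
        β.symm (Pi.single b' 1) := by
      simp only [if_true]
      rw [Finset.prod_eq_single (⟨0, by omega⟩ : Fin k)]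
      · simp
      · intro l _ hl
        rw [if_neg]
        intro h0
        exact hl (Fin.ext h0)
      · intro h; exact absurd (Finset.mem_univ _) h
    rw [h1, AddEquiv.apply_symm_apply]
    by_cases hb : b = b'
    · subst hb; simp
    · rw [Pi.single_eq_of_ne, Pi.single_eq_of_ne hb]
      intro h
      exact hb (Prod.ext_iff.1 h).2
  · have h1 : (∏ l : Fin k, if c l = c' l then
        (if (l : ℕ) = 0 then β.symm (Pi.single b' 1) else 1) else (0 : F)) = 0 := by
      obtain ⟨l, hl⟩ := Function.ne_iff.1 hc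
      exact Finset.prod_eq_zero (Finset.mem_univ l) (by rw [if_neg hl])
    rw [h1, map_zero, Pi.zero_apply, Pi.single_eq_of_ne]
    intro h
    exact hc (Prod.ext_iff.1 h).1

end single

end Vale.Agent.P249.TP3
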