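import Vale.Agent.P249.TP3.CoreSpec
import Vale.Agent.P249.TP3.Path3
import Vale.Agent.P249.TP.Core

/-!
# P249, phase 3: assembly of CORE3 (helper54, after helper557)
-/

open Finset Filter Topology
open scoped BigOperators

namespace Vale.Agent.P249.TP3

open Vale.Agent.P249.TP

namespace C3

/-- the fields -/
lemma exists_field (a : ℕ) (ha : 1 ≤ a) : ∃ (F : Type) (_ : Field F) (_ : Fintype F)
    (_ : DecidableEq F), Fintype.card F = 2 ^ a ∧ Nonempty (F ≃+ V (Fin a)) := by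
  classical
  have hp2 : Fact (Nat.Prime 2) := ⟨Nat.prime_two⟩
  have ha0 : a ≠ 0 := by omega
  let _ : Fintype (GaloisField 2 a) := Fintype.ofFinite _
  refine ⟨GaloisField 2 a, inferInstance, inferInstance, inferInstance, ?_, ?_⟩
  · rw [← Nat.card_eq_fintype_card]
    exact GaloisField.card 2 a ha0
  · exact ⟨(Module.finBasisOfFinrankEq (ZMod 2) (GaloisField 2 a)
      (GaloisField.finrank 2 ha0)).equivFun.toAddEquiv⟩

section

variable {F : Type} [Field F] {k s a q : ℕ}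

lemma KK_Sm (β : F ≃+ V (Fin a)) (ω : Om F k s) : KK β k s 1 (Sm β ω) :=
  ⟨fun _ => ω, by simp⟩

lemma KK_sum (β : F ≃+ V (Fin a)) (hG : Graded (KK β k s)) {κ : Type*} (A : Finset κ)
    (f : κ → Om F k s) : KK β k s A.card (∑ i ∈ A, Sm β (f i)) := by
  classical
  induction A using Finset.induction_on with
  | empty => simpa using hG.zero
  | insert i A hi ih =>
    rw [Finset.sum_insert hi, Finset.card_insert_of_notMem hi, add_comm A.card 1]
    exact hG.add _ _ _ _ (KK_Sm β (f i)) ih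

lemma KK_ts (β : F ≃+ V (Fin a)) (hG : Graded (KK β k s)) (hq : 1 ≤ q) (t : Fin q → F)
    (u : Fin q ⊕ Fin k) (x : Om F k s × Om F k s) : KK β k s q (ts β t u x) := by
  match u with
  | Sum.inl j =>
    have h := KK_sum β hG (univ.filter (fun i : Fin q => (i : ℕ) < (j : ℕ)))
      (fun i => x.1 + t i • x.2)
    refine hG.mono _ _ _ ?_ h
    exact (Finset.card_filter_le _ _).trans (by simp)
  | Sum.inr _ => exact hG.mono 1 q _ hq (KK_Sm β x.1)

lemma KK_ts' (β : F ≃+ V (Fin a)) (hG : Graded (KK β k s)) (hq : 1 ≤ q) (t : Fin q → F)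
    (u : Fin q ⊕ Fin k) (x : Om F k s × Om F k s) : KK β k s q (ts' β t u x) := by
  match u with
  | Sum.inl j => exact hG.mono 1 q _ hq (KK_Sm β _)
  | Sum.inr i => exact hG.mono 1 q _ hq (KK_Sm β _)

end

end C3

open C3 in
theorem core3 (hLin : SpecLin3) (hUni : SpecUni3) (hStart : SpecStart3) (hBlock : SpecBlock3)
    (hLt : SpecLt3) (hGrade : SpecGrade3) (hCount : SpecCount3) (hNP : SpecNumPath)
    (hNC : SpecNumCard) (hNPar : SpecNumPar) : SpecCore3 := by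
  intro p D hp hp2 hD
  obtain ⟨cS, hcS0, hcS1, hSt⟩ := hStart p hp
  obtain ⟨CU, hCU, hU⟩ := hUni p D hp hp2 hD
  obtain ⟨CL, hCL, hL⟩ := hLin p D hp hD
  obtain ⟨c, Cb, hc, hCb, hB⟩ := hBlock p hp hp2
  set C₁ : ℝ := CU * 1814400 / cS with hC₁
  have hC₁0 : 0 < C₁ := by positivity
  obtain ⟨C₂, hC₂, hpar⟩ := hNPar.2 c C₁ hc hC₁0
  obtain ⟨k₁, hk₁⟩ := hNP p D c Cb CU C₁ hp hD hc hCb hCU hC₁0
  obtain ⟨k₂, hk₂⟩ := hNC CL C₁ C₂ hCL hC₁0 hC₂
  refine ⟨max 1 (max k₁ k₂), fun k hk => ?_⟩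
  have hk1 : 1 ≤ k := le_trans (le_max_left _ _) hk
  have hkk₁ : k₁ ≤ k := le_trans (le_trans (le_max_left _ _) (le_max_right _ _)) hk
  have hkk₂ : k₂ ≤ k := le_trans (le_trans (le_max_right _ _) (le_max_right _ _)) hk
  have hkr : (1 : ℝ) ≤ k := by exact_mod_cast hk1
  obtain ⟨a, ha1, ha2, ha3⟩ := hNPar.1 k
  obtain ⟨F, _, _, _, hcard, ⟨β⟩⟩ := exists_field a ha1
  have hq2 : k + 2 ≤ Fintype.card F := by rw [hcard]; exact ha2
  set q : ℕ := Fintype.card F with hq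
  have hq1 : 1 ≤ q := by omega
  have hqr1 : (1 : ℝ) ≤ q := by exact_mod_cast hq1
  have hq6 : (q : ℝ) ≤ 6 * k := by
    have h1 : q ≤ 2 * (k + 2) := by rw [hcard]; exact ha3
    have h2 : (q : ℝ) ≤ 2 * (k + 2) := by exact_mod_cast h1
    linarith
  let t : Fin q ≃ F := (Fintype.equivFin F).symm
  set e : ℝ := 1 / (200 * (q : ℝ) ^ 4) with he
  have he0 : 0 < e := by positivity
  have he1 : e ≤ 1 := by
    rw [he, div_le_one (by positivity)]
    have : (1 : ℝ) ≤ (q : ℝ) ^ 4 := one_le_pow₀ hqr1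
    linarith
  set δ : ℝ := cS * e / ((q : ℝ) + k) with hδ
  have hδ0 : 0 < δ := by positivity
  have hδ1 : δ ≤ 1 := by
    rw [hδ, div_le_one (by positivity)]
    have : cS * e ≤ 1 := mul_le_one₀ hcS1 he0.le he1
    linarith
  obtain ⟨L, hL1, hLC, hfam0⟩ := hU δ hδ0 hδ1
  have hLk : (L : ℝ) ≤ C₁ * (k : ℝ) ^ 5 := by
    refine hLC.trans ?_
    have h1 : 1 / δ ≤ 1814400 * (k : ℝ) ^ 5 / cS := by
      have e1 : 1 / δ = 200 * (q : ℝ) ^ 4 * (q + k) / cS := by
        rw [hδ, he]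
        field_simp
      rw [e1]
      refine div_le_div_of_nonneg_right ?_ hcS0.le
      have e2 : (q : ℝ) ^ 4 ≤ (6 * k) ^ 4 := pow_le_pow_left₀ (by positivity) hq6 4
      have e3 : (q : ℝ) + k ≤ 7 * k := by linarith
      calc 200 * (q : ℝ) ^ 4 * (q + k) ≤ 200 * (6 * k) ^ 4 * (7 * k) := by gcongr
        _ = 1814400 * (k : ℝ) ^ 5 := by ring
    calc CU / δ = CU * (1 / δ) := by ring
      _ ≤ CU * (1814400 * (k : ℝ) ^ 5 / cS) := mul_le_mul_of_nonneg_left h1 (by linarith)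
      _ = C₁ * (k : ℝ) ^ 5 := by rw [hC₁]; ring
  obtain ⟨s, hs1, hs2, hs3⟩ := hpar k L hk1 hLk
  set y : ℕ := 2 ^ k * a with hy
  have hcI : Fintype.card (Ix k a) = y := by
    simp only [Ix, Fintype.card_prod, Fintype.card_fun, Fintype.card_bool, Fintype.card_fin, hy]
  set ε : ℝ := (1 / 2) ^ (3 * y + (2 * s + 3) ^ 2 + 2 * L) with hε
  have hε0 : 0 < ε := by positivity
  have hε1 : ε ≤ 1 := pow_le_one₀ (by norm_num) (by norm_num)
  have hεL : ε ≤ (1 / 4) ^ L := by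
    have h1 : ((1 : ℝ) / 4) ^ L = (1 / 2) ^ (2 * L) := by
      rw [pow_mul]; norm_num
    rw [h1, hε]
    exact pow_le_pow_of_le_one (by norm_num) (by norm_num) (by omega)
  have hG := hGrade F a k s β hk1
  have hne : Nonempty (Fin q ⊕ Fin k) := ⟨Sum.inr ⟨0, by omega⟩⟩
  -- the test family
  obtain ⟨fam, hfam⟩ := hfam0 (Ix k a) (KK β k s) hG
    ((Fin q ⊕ Fin k) × (Om F k s × Om F k s)) (fun x => ts β t x.1 x.2)
    (fun x => ts' β t x.1 x.2) q (fun x => KK_ts β hG hq1 t x.1 x.2)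
    (fun x => KK_ts' β hG hq1 t x.1 x.2)
  set m' : ℕ := (2 * s + 3) * (k + 1) + 2 with hm'
  set r : ℕ := 2 * L * q + m' with hr
  let fam' : TestFam p (4 ^ L) (KK β k s r) :=
    { T := fam.T
      ft := fam.ft
      π := fam.π
      b := fam.b
      π_nonneg := fam.π_nonneg
      supp := fun t S hS => fam.supp t S fun h => hS (hG.mono _ _ _ (by omega) h)
      l1 := fam.l1
      mass := fam.mass }
  obtain ⟨X, hX, hXF⟩ := hL (4 ^ L) (one_le_pow₀ (by norm_num)) (Ix k a) (KK β k s r)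
    (hG.mono 0 r 0 (Nat.zero_le _) hG.zero) ε hε0 hε1 fam'
  refine ⟨Ix k a, inferInstance, inferInstance, X, ?_, ?_⟩
  · refine hX.trans ?_
    rw [hcI]
    refine hk₂ k hkk₂ a L s r y ha1 ha3 hy hLk hs3 ?_ _ (Nat.cast_nonneg _) ?_
    · rw [hr, hm', hcard]
    · have h1 := hCount F a k s r β
      have h2 : (Fintype.card F : ℝ) = (2 : ℝ) ^ a := by rw [← hq, hcard]; push_cast; ring
      rw [h2] at h1
      exact h1
  · intro ι _ G hGι
    by_contra hcon
    push Not at hcon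
    obtain ⟨τ, hSys, hL3⟩ := hXF ι G hGι
    have hL3' : L3 fam τ := hL3
    obtain ⟨τ', hSys', hH₀', hdef⟩ := hfam ε hε0.le hεL m' ι τ hSys hL3'
    have hH₀ : 0 < 1 / CU * (1 / 4 : ℝ) ^ L := by positivity
    obtain ⟨ψ, P, hψ, hstart⟩ := hSt (Ix k a) (Fin q ⊕ Fin k) (Om F k s)
      (Om F k s × Om F k s) (Sm β) (ts β t) (ts' β t) (Sum.inr ⟨0, by omega⟩) e he0 he1
      (fun h => (av_surj (AddMonoidHom.fst (Om F k s) (Om F k s)) Prod.fst_surjective
        (fun ω => h (Sm β ω))).symm)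
      (fun f hf => by
        obtain ⟨P, hP⟩ := hLt F a k s β t hk1 hs1 hq2 f e he0.le (by
          rw [he]
          have : (0 : ℝ) < (q : ℝ) ^ 4 := by positivity
          rw [mul_one_div, div_le_one (by positivity)]
          linarith) hf
        refine ⟨P, hP.trans ?_⟩
        rw [he, mul_one_div, div_le_div_iff₀ (by positivity) (by norm_num)]
        have h1 : (q : ℝ) ^ 2 ≤ (q : ℝ) ^ 4 := pow_le_pow_right₀ hqr1 (by norm_num)
        rw [← hq]
        linarith)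
      ι (τ' []) _ hH₀ hH₀' (by
        refine hdef.trans (le_of_eq ?_)
        rw [hδ]
        congr 2
        simp only [Fintype.card_sum, Fintype.card_fin]
        push_cast
        ring)
    have hB' := hB F a k s β hk1 hs1 D ε hD hε0.le ι τ' hSys' ψ P hψ
    rw [hcI] at hB'
    have htot := uu3_total (S := Sm (k := k) (s := s) β) hp
      (K := KK β k s m')
      (fun ω => hG.mono 1 m' _ (by omega) (KK_Sm β ω))
      (fun ω i => hG.mono 2 m' _ (by omega) (hG.add 1 1 _ _ (KK_Sm β ω) (hG.single i)))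
      hSys' (P := P) hψ
      (E := k * (Cb * (D * (2 : ℝ) ^ (-c * s) + ε * 2 ^ (y + (2 * s + 3) ^ 2))))
      (fun C hC i => by
        rw [single_eq_tr β hk1 i]
        exact hB' C (by rw [hcI] at hC; exact hC) _)
    rw [hcI] at htot
    have hnum := hk₁ k hkk₁ a L s (Fintype.card ι) y ha1 ha3 hy hLk hs2 hcon ε hε
    have hlt := htot.trans_lt hnum
    have huu : uu3 τ' ψ P (Sm (k := k) (s := s) β) [] = av (fun ω : Om F k s =>
        ∑ i, ψ i * (w (Sm β ω) (P i) * τ' [] (Sm β ω) i)) := rfl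
    rw [huu] at hlt
    exact absurd (lt_of_le_of_lt (le_abs_self _) hlt) (not_lt.2 hstart)

end Vale.Agent.P249.TP3
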