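import Vale.Agent.P249.TP3.Spec

/-!
# P249, phase 3: numerics of CORE3 (statements, helper54)
Parameters: `k` modes, `q = 2 ^ a` with `k + 2 ≤ q ≤ 2 (k + 2)`, `y = 2 ^ k * a` coordinates,
`L ≤ C₁ k ^ 5`, `(2 L + 4 k) / c ≤ s ≤ C₂ k ^ 5`, `r = 2 L q + ((2 s + 3) (k + 1) + 2)`,
`ε = (1 / 2) ^ (3 y + (2 s + 3) ^ 2 + 2 L)`.
-/

open Finset
open scoped BigOperators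

namespace Vale.Agent.P249.TP3

/-- **NUM-PATH**: the total error of the path is smaller than `H₀ ^ (1/p) / 4`,
`H₀ = (1/4)^L / C_U`.  (Use `H₀ ≤ H₀ ^ (1/p)`, `y ≤ 4 ^ k / k`, `2 ^ (-c s) ≤ 2 ^ (-2L-4k)`; every
term is at most `const * 2 ^ (-k) * 4 ^ (-L)`.)  File `NumPath.lean`. -/
def SpecNumPath : Prop := ∀ p D c Cb CU C₁ : ℝ, 1 < p → 1 ≤ D → 0 < c → 0 < Cb → 1 ≤ CU →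
  0 < C₁ → ∃ k₀ : ℕ, ∀ k : ℕ, k₀ ≤ k → ∀ a L s N y : ℕ, 1 ≤ a → 2 ^ a ≤ 2 * (k + 2) →
    y = 2 ^ k * a → (L : ℝ) ≤ C₁ * (k : ℝ) ^ 5 → 2 * (L : ℝ) + 4 * k ≤ c * s →
    (N : ℝ) ≤ (2 : ℝ) ^ ((2 : ℝ) ^ k / 2) → ∀ ε : ℝ, ε = (1 / 2) ^ (3 * y + (2 * s + 3) ^ 2 + 2 * L) →
    (y : ℝ) * (k * (Cb * (D * (2 : ℝ) ^ (-c * s) + ε * 2 ^ (y + (2 * s + 3) ^ 2))) + ε * N) +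
      (N : ℝ) ^ (1 / p) * (D * (2 : ℝ) ^ (-(y : ℝ) / p) + ε) <
      1 / 4 * (1 / CU * (1 / 4) ^ L) ^ (1 / p)

/-- **NUM-CARD**: the cardinality.  File `NumCard.lean`. -/
def SpecNumCard : Prop := ∀ C C₁ C₂ : ℝ, 1 ≤ C → 0 < C₁ → 0 < C₂ → ∃ k₀ : ℕ, ∀ k : ℕ, k₀ ≤ k →
  ∀ a L s r y : ℕ, 1 ≤ a → 2 ^ a ≤ 2 * (k + 2) → y = 2 ^ k * a → (L : ℝ) ≤ C₁ * (k : ℝ) ^ 5 →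
    (s : ℝ) ≤ C₂ * (k : ℝ) ^ 5 → r = 2 * L * 2 ^ a + ((2 * s + 3) * (k + 1) + 2) →
    ∀ N : ℝ, 0 ≤ N → N ≤ ((2 : ℝ) ^ a) ^ (r * (2 * k * (s + 1) ^ 2)) →
    C * 4 ^ L * N ^ 4 * ((y : ℝ) + 1) ^ 2 *
      (1 + Real.log (1 / (1 / 2) ^ (3 * y + (2 * s + 3) ^ 2 + 2 * L))) ≤
      Real.exp ((k : ℝ) ^ 19)

/-- **NUM-PAR**: existence of `a`, and of `s` for given `L`.  File `NumCard.lean`. -/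
def SpecNumPar : Prop := (∀ k : ℕ, ∃ a : ℕ, 1 ≤ a ∧ k + 2 ≤ 2 ^ a ∧ 2 ^ a ≤ 2 * (k + 2)) ∧
  ∀ c C₁ : ℝ, 0 < c → 0 < C₁ → ∃ C₂ : ℝ, 0 < C₂ ∧ ∀ k L : ℕ, 1 ≤ k →
    (L : ℝ) ≤ C₁ * (k : ℝ) ^ 5 → ∃ s : ℕ, 1 ≤ s ∧ 2 * (L : ℝ) + 4 * k ≤ c * s ∧
      (s : ℝ) ≤ C₂ * (k : ℝ) ^ 5

end Vale.Agent.P249.TP3
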