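import Vale.Agent.P249.TP3.Asm892
import Vale.Agent.P249.SP.FinalD

/-! # P249, phase 3: corollaries of FINAL3 in terms of `Admissible` and `dimLp` (helper892) -/

open MeasureTheory Filter Asymptotics
open scoped ENNReal

namespace Vale.Agent.P249.TP3
open Vale.Agent.P249.TP

/-- lower bound for every admissible dimension. -/
theorem lower_of_final3 (h : SpecFinal3) {p : ℝ≥0∞} [Fact (1 ≤ p)] (hp1 : 1 < p) (hp : p ≠ ∞)
    (hp2 : p ≠ 2) {D : ℝ} (hD : 1 ≤ D) :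
    ∃ n₀ : ℕ, ∀ n : ℕ, n₀ ≤ n → ∀ d : ℕ, Admissible p n D d →
      Real.exp (Real.exp ((Real.log (Real.log n)) ^ (1 / 20 : ℝ))) ≤ d := by
  obtain ⟨n₀, hn₀⟩ := h p hp1 hp hp2 D hD
  refine ⟨n₀, fun n hn d hd => ?_⟩
  obtain ⟨Ω, i, μ, _, X, hX, hlow⟩ := hn₀ n hn
  exact hlow d (hd Ω μ X hX)

/-- lower bound for the dimension `d_p(n, D)`. -/
theorem dimLp_lower_of_final3 (h : SpecFinal3) {p : ℝ≥0∞} [Fact (1 ≤ p)] (hp1 : 1 < p)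
    (hp : p ≠ ∞) (hp2 : p ≠ 2) {D : ℝ} (hD : 1 < D) :
    ∃ n₀ : ℕ, ∀ n : ℕ, n₀ ≤ n →
      Real.exp (Real.exp ((Real.log (Real.log n)) ^ (1 / 20 : ℝ))) ≤ dimLp p n D := by
  obtain ⟨n₀, hn₀⟩ := lower_of_final3 h hp1 hp hp2 hD.le
  refine ⟨max n₀ 2, fun n hn => ?_⟩
  exact hn₀ n ((le_max_left _ _).trans hn) _
    (SP.admissible_dimLp hp1 hp hD ((le_max_right _ _).trans hn))

/-- diagonal choice of a function tending to infinity. -/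
lemma exists_diag (P : ℕ → ℕ → Prop) (h : ∀ k : ℕ, ∃ n₀ : ℕ, ∀ n : ℕ, n₀ ≤ n → P k n) :
    ∃ (g : ℕ → ℕ) (n₁ : ℕ), Tendsto g atTop atTop ∧ ∀ n : ℕ, n₁ ≤ n → P (g n) n := by
  classical
  choose N hN using h
  refine ⟨fun n => Nat.findGreatest (fun k => N k ≤ n) n, N 0, ?_, ?_⟩
  · rw [tendsto_atTop]
    intro k
    filter_upwards [eventually_ge_atTop (max k (N k))] with n hn
    exact Nat.le_findGreatest ((le_max_left _ _).trans hn) ((le_max_right _ _).trans hn)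
  · intro n hn
    have h1 : N (Nat.findGreatest (fun k => N k ≤ n) n) ≤ n :=
      Nat.findGreatest_spec (P := fun k => N k ≤ n) (Nat.zero_le n) hn
    exact hN _ n h1

/-- one sequence of `n`-point sets, good for all distortions up to `ω n → ∞`. -/
theorem diag_of_final3 (h : SpecFinal3) {p : ℝ≥0∞} [Fact (1 ≤ p)] (hp1 : 1 < p) (hp : p ≠ ∞)
    (hp2 : p ≠ 2) :
    ∃ (ω : ℕ → ℝ) (n₀ : ℕ), Tendsto ω atTop atTop ∧ ∀ n : ℕ, n₀ ≤ n →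
      ∃ (Ω : Type) (_ : MeasurableSpace Ω) (μ : Measure Ω) (_ : IsProbabilityMeasure μ)
        (X : Finset (Lp ℝ p μ)), X.card = n ∧ ∀ (d : ℕ) (D : ℝ), D ≤ ω n →
          (∃ f : Lp ℝ p μ → PiLp p (fun _ : Fin d => ℝ), ∃ s : ℝ, 0 < s ∧
            ∀ x ∈ X, ∀ y ∈ X, s * ‖x - y‖ ≤ ‖f x - f y‖ ∧ ‖f x - f y‖ ≤ D * s * ‖x - y‖) →
          Real.exp (Real.exp ((Real.log (Real.log n)) ^ (1 / 20 : ℝ))) ≤ d := by
  obtain ⟨g, n₁, hg, hP⟩ := exists_diag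
    (fun k n => ∃ (Ω : Type) (_ : MeasurableSpace Ω) (μ : Measure Ω) (_ : IsProbabilityMeasure μ)
      (X : Finset (Lp ℝ p μ)), X.card = n ∧ ∀ (d : ℕ),
        (∃ f : Lp ℝ p μ → PiLp p (fun _ : Fin d => ℝ), ∃ s : ℝ, 0 < s ∧
          ∀ x ∈ X, ∀ y ∈ X, s * ‖x - y‖ ≤ ‖f x - f y‖ ∧
            ‖f x - f y‖ ≤ ((k : ℝ) + 1) * s * ‖x - y‖) →
        Real.exp (Real.exp ((Real.log (Real.log n)) ^ (1 / 20 : ℝ))) ≤ d)
    (fun k => h p hp1 hp hp2 ((k : ℝ) + 1) (by linarith [Nat.cast_nonneg (α := ℝ) k]))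
  refine ⟨fun n => (g n : ℝ), n₁, tendsto_natCast_atTop_atTop.comp hg, fun n hn => ?_⟩
  obtain ⟨Ω, i, μ, j, X, hX, h⟩ := hP n hn
  refine ⟨Ω, i, μ, j, X, hX, fun d D hD hE => h d ?_⟩
  obtain ⟨f, s, hs, hf⟩ := hE
  exact ⟨f, s, hs, fun x hx y hy => ⟨(hf x hx y hy).1, (hf x hx y hy).2.trans
    (mul_le_mul_of_nonneg_right (mul_le_mul_of_nonneg_right (hD.trans (by linarith)) hs.le)
      (norm_nonneg _))⟩⟩

end Vale.Agent.P249.TP3
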