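import Vale.Agent.P249.SP.LinSpec

/-!
# P249, phase 3, block LIN3: numerics of the cardinality, explicit in `Λ`
(adaptation of `SP/LinLog.lean` of helper136 by helper892)
-/

open Finset

namespace Vale.Agent.P249.TP3

/-- numerics of LIN3 -/
def SpecLogx : Prop := ∀ (D C₁ : ℝ) (N : ℕ), 1 ≤ D → 1 ≤ C₁ → ∃ C : ℝ, 1 ≤ C ∧
  ∀ Λ : ℝ, 1 ≤ Λ → ∀ (d k : ℕ) (ε : ℝ), 1 ≤ k → 0 < ε → ε ≤ 1 → ∀ r B M c : ℕ,
    r = ⌈32 * D * Λ ^ 3 * ((k : ℝ) + 1) / ε⌉₊ → B = ⌈C₁ * Λ ^ 3⌉₊ * r ^ 2 →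
    M = 4 * B ^ (N + 2) →
    c ≤ (2 * d + 1) ^ d * ((2 * M + 1) ^ k * ((4 * r ^ 2 + 1) ^ k) ^ d) →
    Real.log c ≤ C * Λ * (k : ℝ) ^ 4 * ((d : ℝ) + 1) ^ 2 * (1 + Real.log (1 / ε))

namespace LogX

/-- a nonnegative constant is absorbed -/
private lemma absorb {a X : ℝ} (ha : 0 ≤ a) (hX : 1 ≤ X) : a ≤ a * X := by
  have := mul_le_mul_of_nonneg_left hX ha
  linarith

private lemma log_r {A k ε : ℝ} (hA : 1 ≤ A) (hk : 1 ≤ k) (hε : 0 < ε) (hε1 : ε ≤ 1) (r : ℕ)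
    (hr : r = ⌈32 * A * (k + 1) / ε⌉₊) :
    1 ≤ (r : ℝ) ∧ Real.log (r : ℝ) ≤ (Real.log (66 * A) + 2) * (k * (1 + Real.log (1 / ε))) := by
  have hinv : 1 ≤ 1 / ε := by rw [le_div_iff₀ hε]; linarith
  have hlog : 0 ≤ Real.log (1 / ε) := Real.log_nonneg hinv
  have hx : 32 * A * (k + 1) / ε ≤ 64 * (A * k * (1 / ε)) := by
    have h1 : 32 * A * (k + 1) ≤ 64 * (A * k) := by nlinarith
    calc 32 * A * (k + 1) / ε ≤ 64 * (A * k) / ε := div_le_div_of_nonneg_right h1 hε.le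
      _ = 64 * (A * k * (1 / ε)) := by ring
  have hAk : 1 ≤ A * k * (1 / ε) :=
    one_le_mul_of_one_le_of_one_le (one_le_mul_of_one_le_of_one_le hA hk) hinv
  have hxpos : 0 < 32 * A * (k + 1) / ε := by positivity
  have hr1 : 1 ≤ r := by
    rw [hr]
    exact Nat.one_le_iff_ne_zero.mpr (Nat.ceil_pos.mpr hxpos).ne'
  have hr1' : (1 : ℝ) ≤ (r : ℝ) := by exact_mod_cast hr1
  refine ⟨hr1', ?_⟩
  have hr_le : (r : ℝ) ≤ 66 * A * k * (1 / ε) := by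
    have h1 : (r : ℝ) < 32 * A * (k + 1) / ε + 1 := by
      rw [hr]; exact Nat.ceil_lt_add_one hxpos.le
    have h2 : 66 * A * k * (1 / ε) = 66 * (A * k * (1 / ε)) := by ring
    linarith
  have h1 : Real.log (r : ℝ) ≤ Real.log (66 * A * k * (1 / ε)) :=
    Real.log_le_log (by linarith) hr_le
  have hAp : 0 < A := by linarith
  have hkp : 0 < k := by linarith
  have h2 : Real.log (66 * A * k * (1 / ε)) =
      Real.log (66 * A) + Real.log k + Real.log (1 / ε) := by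
    rw [Real.log_mul (by positivity) (by positivity), Real.log_mul (by positivity) (by positivity)]
  have h3 : 0 ≤ Real.log (66 * A) := Real.log_nonneg (by linarith)
  have hX : 1 ≤ k * (1 + Real.log (1 / ε)) :=
    one_le_mul_of_one_le_of_one_le hk (by linarith)
  have h4 := absorb h3 hX
  have h5 : Real.log k ≤ k := by
    have := Real.log_le_sub_one_of_pos hkp
    linarith
  have h6 : k ≤ k * (1 + Real.log (1 / ε)) := absorb hkp.le (by linarith)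
  have h7 : Real.log (1 / ε) ≤ k * (1 + Real.log (1 / ε)) := by nlinarith
  have h8 : (Real.log (66 * A) + 2) * (k * (1 + Real.log (1 / ε))) =
      Real.log (66 * A) * (k * (1 + Real.log (1 / ε))) + k * (1 + Real.log (1 / ε)) +
        k * (1 + Real.log (1 / ε)) := by ring
  linarith

private lemma log_B {c r X K1 : ℝ} (hc : 1 ≤ c) (hr : 1 ≤ r) (hX : 1 ≤ X)
    (h : Real.log r ≤ K1 * X) (B : ℝ) (hB : B = c * r ^ 2) :
    1 ≤ B ∧ Real.log B ≤ (Real.log c + 2 * K1) * X := by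
  have h1 : 1 ≤ r ^ 2 := one_le_pow₀ hr
  refine ⟨by rw [hB]; exact one_le_mul_of_one_le_of_one_le hc h1, ?_⟩
  have h2 := absorb (Real.log_nonneg hc) hX
  rw [hB, Real.log_mul (by positivity) (by positivity), Real.log_pow]
  have h3 : (Real.log c + 2 * K1) * X = Real.log c * X + 2 * (K1 * X) := by ring
  push_cast
  linarith

private lemma log_M {B X K2 : ℝ} (N : ℕ) (hB : 1 ≤ B) (hX : 1 ≤ X)
    (h : Real.log B ≤ K2 * X) (M : ℝ) (hM : M = 4 * B ^ (N + 2)) :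
    1 ≤ M ∧ Real.log (2 * M + 1) ≤ (Real.log 12 + ((N : ℝ) + 2) * K2) * X := by
  have h1 : 1 ≤ B ^ (N + 2) := one_le_pow₀ hB
  have hM1 : 1 ≤ M := by linarith
  refine ⟨hM1, ?_⟩
  have h2 := absorb (Real.log_nonneg (show (1 : ℝ) ≤ 12 by norm_num)) hX
  have h3 : Real.log (2 * M + 1) ≤ Real.log (12 * B ^ (N + 2)) :=
    Real.log_le_log (by linarith) (by linarith)
  rw [Real.log_mul (by positivity) (by positivity), Real.log_pow] at h3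
  have h4 : ((N : ℝ) + 2) * Real.log B ≤ ((N : ℝ) + 2) * (K2 * X) :=
    mul_le_mul_of_nonneg_left h (by positivity)
  have h5 : (Real.log 12 + ((N : ℝ) + 2) * K2) * X = Real.log 12 * X + ((N : ℝ) + 2) * (K2 * X) := by
    ring
  push_cast at h3
  linarith

private lemma log_4 {r X K1 : ℝ} (hr : 1 ≤ r) (hX : 1 ≤ X) (h : Real.log r ≤ K1 * X) :
    Real.log (4 * r ^ 2 + 1) ≤ (Real.log 5 + 2 * K1) * X := by
  have h1 : 1 ≤ r ^ 2 := one_le_pow₀ hr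
  have h2 := absorb (Real.log_nonneg (show (1 : ℝ) ≤ 5 by norm_num)) hX
  have h3 : Real.log (4 * r ^ 2 + 1) ≤ Real.log (5 * r ^ 2) :=
    Real.log_le_log (by positivity) (by linarith)
  rw [Real.log_mul (by positivity) (by positivity), Real.log_pow] at h3
  have h4 : (Real.log 5 + 2 * K1) * X = Real.log 5 * X + 2 * (K1 * X) := by ring
  push_cast at h3
  linarith

private lemma final {d k L K3 K4 l1 l2 l3 : ℝ} (hd : 0 ≤ d) (hk : 1 ≤ k) (hL : 1 ≤ L)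
    (hK3 : 0 ≤ K3) (hK4 : 0 ≤ K4) (h1 : l1 ≤ 2 * d) (h2 : l2 ≤ K3 * (k * L))
    (h3 : l3 ≤ K4 * (k * L)) :
    d * l1 + (k * l2 + d * (k * l3)) ≤ (2 + K3 + K4) * k ^ 4 * (d + 1) ^ 2 * L := by
  have hk0 : 0 ≤ k := by linarith
  have hk24 : k ^ 2 ≤ k ^ 4 := pow_le_pow_right₀ hk (by norm_num)
  have hk4 : 1 ≤ k ^ 4 := one_le_pow₀ hk
  have hW1 : 1 ≤ k ^ 4 * L := one_le_mul_of_one_le_of_one_le hk4 hL
  have hW2 : k ^ 2 * L ≤ k ^ 4 * L := mul_le_mul_of_nonneg_right hk24 (by linarith)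
  have hQ1 : 1 ≤ (d + 1) ^ 2 := one_le_pow₀ (by linarith)
  have hQd : d ≤ (d + 1) ^ 2 := by nlinarith
  have hQd2 : d ^ 2 ≤ (d + 1) ^ 2 := by nlinarith
  have a1 : d * l1 ≤ 2 * ((d + 1) ^ 2 * (k ^ 4 * L)) := by
    calc d * l1 ≤ d * (2 * d) := mul_le_mul_of_nonneg_left h1 hd
      _ = 2 * d ^ 2 := by ring
      _ ≤ 2 * (d + 1) ^ 2 := by linarith
      _ ≤ 2 * ((d + 1) ^ 2 * (k ^ 4 * L)) := by
        have := absorb (show 0 ≤ (d + 1) ^ 2 by positivity) hW1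
        linarith
  have a2 : k * l2 ≤ K3 * ((d + 1) ^ 2 * (k ^ 4 * L)) := by
    calc k * l2 ≤ k * (K3 * (k * L)) := mul_le_mul_of_nonneg_left h2 hk0
      _ = K3 * (k ^ 2 * L) := by ring
      _ ≤ K3 * (k ^ 4 * L) := mul_le_mul_of_nonneg_left hW2 hK3
      _ ≤ K3 * ((d + 1) ^ 2 * (k ^ 4 * L)) := by
        refine mul_le_mul_of_nonneg_left ?_ hK3
        have := absorb (show 0 ≤ k ^ 4 * L by linarith) hQ1
        linarith
  have a3 : d * (k * l3) ≤ K4 * ((d + 1) ^ 2 * (k ^ 4 * L)) := by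
    calc d * (k * l3) ≤ d * (k * (K4 * (k * L))) :=
          mul_le_mul_of_nonneg_left (mul_le_mul_of_nonneg_left h3 hk0) hd
      _ = K4 * (d * (k ^ 2 * L)) := by ring
      _ ≤ K4 * ((d + 1) ^ 2 * (k ^ 4 * L)) := by
        refine mul_le_mul_of_nonneg_left ?_ hK4
        exact mul_le_mul hQd hW2 (by positivity) (by positivity)
  have e : (2 + K3 + K4) * k ^ 4 * (d + 1) ^ 2 * L = 2 * ((d + 1) ^ 2 * (k ^ 4 * L)) +
      K3 * ((d + 1) ^ 2 * (k ^ 4 * L)) + K4 * ((d + 1) ^ 2 * (k ^ 4 * L)) := by ring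
  rw [e]
  linarith

/-- the constant of `SP/LinLog.lean` -/
theorem base (D Λ C₀ : ℝ) (N : ℕ) (hD : 1 ≤ D) (hΛ : 1 ≤ Λ) (hC₀ : 1 ≤ C₀) :
  ∀ (d k : ℕ) (ε : ℝ), 1 ≤ k → 0 < ε → ε ≤ 1 → ∀ r B M c : ℕ,
    r = ⌈32 * D * Λ ^ 3 * ((k : ℝ) + 1) / ε⌉₊ → B = ⌈C₀⌉₊ * r ^ 2 → M = 4 * B ^ (N + 2) →
    c ≤ (2 * d + 1) ^ d * ((2 * M + 1) ^ k * ((4 * r ^ 2 + 1) ^ k) ^ d) →
    Real.log c ≤ (2 + (Real.log 12 + ((N : ℝ) + 2) *
      (Real.log (⌈C₀⌉₊ : ℝ) + 2 * (Real.log (66 * (D * Λ ^ 3)) + 2))) +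
      (Real.log 5 + 2 * (Real.log (66 * (D * Λ ^ 3)) + 2))) * (k : ℝ) ^ 4 *
      ((d : ℝ) + 1) ^ 2 * (1 + Real.log (1 / ε)) := by
  have hA : (1 : ℝ) ≤ D * Λ ^ 3 := one_le_mul_of_one_le_of_one_le hD (one_le_pow₀ hΛ)
  have hCc : (1 : ℝ) ≤ (⌈C₀⌉₊ : ℝ) := hC₀.trans (Nat.le_ceil C₀)
  have hK1 : 0 ≤ Real.log (66 * (D * Λ ^ 3)) + 2 := by
    have := Real.log_nonneg (show (1 : ℝ) ≤ 66 * (D * Λ ^ 3) by linarith)
    linarith
  have hK2 : 0 ≤ Real.log (⌈C₀⌉₊ : ℝ) + 2 * (Real.log (66 * (D * Λ ^ 3)) + 2) := by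
    have := Real.log_nonneg hCc
    linarith
  have hK3 : 0 ≤ Real.log 12 + ((N : ℝ) + 2) *
      (Real.log (⌈C₀⌉₊ : ℝ) + 2 * (Real.log (66 * (D * Λ ^ 3)) + 2)) := by
    have h1 : 0 ≤ Real.log 12 := Real.log_nonneg (by norm_num)
    have h2 : 0 ≤ ((N : ℝ) + 2) *
        (Real.log (⌈C₀⌉₊ : ℝ) + 2 * (Real.log (66 * (D * Λ ^ 3)) + 2)) :=
      mul_nonneg (by positivity) hK2
    linarith
  have hK4 : 0 ≤ Real.log 5 + 2 * (Real.log (66 * (D * Λ ^ 3)) + 2) := by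
    have h1 : 0 ≤ Real.log 5 := Real.log_nonneg (by norm_num)
    linarith
  intro d k ε hk hε hε1 r B M c hr hB hM hc
  have hk' : (1 : ℝ) ≤ (k : ℝ) := by exact_mod_cast hk
  have hinv : 1 ≤ 1 / ε := by rw [le_div_iff₀ hε]; linarith
  have hlog : 0 ≤ Real.log (1 / ε) := Real.log_nonneg hinv
  have hL1 : 1 ≤ 1 + Real.log (1 / ε) := by linarith
  have hX : 1 ≤ (k : ℝ) * (1 + Real.log (1 / ε)) := one_le_mul_of_one_le_of_one_le hk' hL1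
  have hr' : r = ⌈32 * (D * Λ ^ 3) * ((k : ℝ) + 1) / ε⌉₊ := by
    rw [hr]; congr 2; ring
  obtain ⟨hr1, hlr⟩ := log_r hA hk' hε hε1 r hr'
  have hBr : (B : ℝ) = (⌈C₀⌉₊ : ℝ) * (r : ℝ) ^ 2 := by rw [hB]; push_cast; ring
  obtain ⟨hB1, hlB⟩ := log_B hCc hr1 hX hlr (B : ℝ) hBr
  have hMr : (M : ℝ) = 4 * (B : ℝ) ^ (N + 2) := by rw [hM]; push_cast; ring
  obtain ⟨hM1, hlM⟩ := log_M N hB1 hX hlB (M : ℝ) hMr
  have hl4 := log_4 hr1 hX hlr
  have hd0 : (0 : ℝ) ≤ (d : ℝ) := Nat.cast_nonneg d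
  have hld : Real.log (2 * (d : ℝ) + 1) ≤ 2 * (d : ℝ) := by
    have := Real.log_le_sub_one_of_pos (show (0 : ℝ) < 2 * (d : ℝ) + 1 by positivity)
    linarith
  have hfin := final hd0 hk' hL1 hK3 hK4 hld hlM hl4
  rcases Nat.eq_zero_or_pos c with h0 | hcpos
  · rw [h0, Nat.cast_zero, Real.log_zero]
    have h2 : (0 : ℝ) ≤ 2 + (Real.log 12 + ((N : ℝ) + 2) *
      (Real.log (⌈C₀⌉₊ : ℝ) + 2 * (Real.log (66 * (D * Λ ^ 3)) + 2))) +
      (Real.log 5 + 2 * (Real.log (66 * (D * Λ ^ 3)) + 2)) := by linarith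
    have h3 : (0 : ℝ) ≤ (k : ℝ) ^ 4 * ((d : ℝ) + 1) ^ 2 * (1 + Real.log (1 / ε)) := by positivity
    calc (0 : ℝ) ≤ _ := mul_nonneg h2 h3
      _ = _ := by ring
  refine le_trans ?_ hfin
  have hcpos' : (0 : ℝ) < (c : ℝ) := by exact_mod_cast hcpos
  have hc' : (c : ℝ) ≤ (2 * (d : ℝ) + 1) ^ d * ((2 * (M : ℝ) + 1) ^ k *
      ((4 * (r : ℝ) ^ 2 + 1) ^ k) ^ d) := by exact_mod_cast hc
  have h1 := Real.log_le_log hcpos' hc'
  have e1 : (0 : ℝ) < 2 * (d : ℝ) + 1 := by positivity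
  have e2 : (0 : ℝ) < 2 * (M : ℝ) + 1 := by positivity
  have e3 : (0 : ℝ) < 4 * (r : ℝ) ^ 2 + 1 := by positivity
  rwa [Real.log_mul (by positivity) (by positivity), Real.log_mul (by positivity) (by positivity),
    Real.log_pow, Real.log_pow, Real.log_pow, Real.log_pow] at h1

end LogX

open LogX in
theorem specLogx : SpecLogx := by
  intro D C₁ N hD hC₁
  have l5 : 0 ≤ Real.log 5 := Real.log_nonneg (by norm_num)
  have l12 : 0 ≤ Real.log 12 := Real.log_nonneg (by norm_num)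
  have lD : 0 ≤ Real.log (66 * D) := Real.log_nonneg (by linarith)
  have lC : 0 ≤ Real.log (2 * C₁) := Real.log_nonneg (by linarith)
  have hN : (0 : ℝ) ≤ (N : ℝ) + 2 := by positivity
  refine ⟨2 + (Real.log 12 + ((N : ℝ) + 2) *
      ((Real.log (2 * C₁) + 3) + 2 * ((Real.log (66 * D) + 3) + 2))) +
      (Real.log 5 + 2 * ((Real.log (66 * D) + 3) + 2)), ?_, ?_⟩
  · have h1 : 0 ≤ ((N : ℝ) + 2) *
        ((Real.log (2 * C₁) + 3) + 2 * ((Real.log (66 * D) + 3) + 2)) :=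
      mul_nonneg hN (by linarith)
    linarith
  · intro Λ hΛ d k ε hk hε hε1 r B M c hr hB hM hc
    have hΛ3 : 1 ≤ Λ ^ 3 := one_le_pow₀ hΛ
    have hC₀ : 1 ≤ C₁ * Λ ^ 3 := one_le_mul_of_one_le_of_one_le hC₁ hΛ3
    have h1 := base D Λ (C₁ * Λ ^ 3) N hD hΛ hC₀ d k ε hk hε hε1 r B M c hr hB hM hc
    refine h1.trans ?_
    have hΛ0 : 0 < Λ := by linarith
    have hlΛ : Real.log Λ ≤ Λ := by
      have := Real.log_le_sub_one_of_pos hΛ0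
      linarith
    have e1 : Real.log (66 * (D * Λ ^ 3)) ≤ (Real.log (66 * D) + 3) * Λ := by
      have e : 66 * (D * Λ ^ 3) = (66 * D) * Λ ^ 3 := by ring
      rw [e, Real.log_mul (by positivity) (by positivity), Real.log_pow]
      have := absorb lD hΛ
      push_cast
      nlinarith
    have e2 : Real.log (⌈C₁ * Λ ^ 3⌉₊ : ℝ) ≤ (Real.log (2 * C₁) + 3) * Λ := by
      have h2 : (⌈C₁ * Λ ^ 3⌉₊ : ℝ) ≤ (2 * C₁) * Λ ^ 3 := by
        have := (Nat.ceil_lt_add_one (show 0 ≤ C₁ * Λ ^ 3 by positivity)).le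
        nlinarith
      have h3 : (0 : ℝ) < (⌈C₁ * Λ ^ 3⌉₊ : ℝ) := by
        have := hC₀.trans (Nat.le_ceil (C₁ * Λ ^ 3))
        linarith
      have h4 := Real.log_le_log h3 h2
      rw [Real.log_mul (by positivity) (by positivity), Real.log_pow] at h4
      have := absorb lC hΛ
      push_cast at h4
      nlinarith
    have hW : (0 : ℝ) ≤ (k : ℝ) ^ 4 * ((d : ℝ) + 1) ^ 2 * (1 + Real.log (1 / ε)) := by
      have hinv : 1 ≤ 1 / ε := by rw [le_div_iff₀ hε]; linarith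
      have hlog : 0 ≤ Real.log (1 / ε) := Real.log_nonneg hinv
      positivity
    have key : (2 + (Real.log 12 + ((N : ℝ) + 2) *
      (Real.log (⌈C₁ * Λ ^ 3⌉₊ : ℝ) + 2 * (Real.log (66 * (D * Λ ^ 3)) + 2))) +
      (Real.log 5 + 2 * (Real.log (66 * (D * Λ ^ 3)) + 2))) ≤
      (2 + (Real.log 12 + ((N : ℝ) + 2) *
      ((Real.log (2 * C₁) + 3) + 2 * ((Real.log (66 * D) + 3) + 2))) +
      (Real.log 5 + 2 * ((Real.log (66 * D) + 3) + 2))) * Λ := by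
      have f1 : Real.log (⌈C₁ * Λ ^ 3⌉₊ : ℝ) + 2 * (Real.log (66 * (D * Λ ^ 3)) + 2) ≤
          ((Real.log (2 * C₁) + 3) + 2 * ((Real.log (66 * D) + 3) + 2)) * Λ := by
        nlinarith
      have f2 := mul_le_mul_of_nonneg_left f1 hN
      have f3 : 2 * (Real.log (66 * (D * Λ ^ 3)) + 2) ≤
          (2 * ((Real.log (66 * D) + 3) + 2)) * Λ := by nlinarith
      have f4 := absorb l12 hΛ
      have f5 := absorb l5 hΛ
      nlinarith
    have := mul_le_mul_of_nonneg_right key hW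
    calc _ = (2 + (Real.log 12 + ((N : ℝ) + 2) *
      (Real.log (⌈C₁ * Λ ^ 3⌉₊ : ℝ) + 2 * (Real.log (66 * (D * Λ ^ 3)) + 2))) +
      (Real.log 5 + 2 * (Real.log (66 * (D * Λ ^ 3)) + 2))) *
        ((k : ℝ) ^ 4 * ((d : ℝ) + 1) ^ 2 * (1 + Real.log (1 / ε))) := by ring
      _ ≤ _ := this
      _ = _ := by ring

end Vale.Agent.P249.TP3
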