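import Vale.Agent.P249.TP3.Core3
import Vale.Agent.P249.TP3.Lin3
import Vale.Agent.P249.TP3.Uni3
import Vale.Agent.P249.TP3.Start3
import Vale.Agent.P249.TP3.Block3
import Vale.Agent.P249.TP3.Lt3
import Vale.Agent.P249.TP3.Rs
import Vale.Agent.P249.TP3.Line
import Vale.Agent.P249.TP3.Alg
import Vale.Agent.P249.TP3.Grade3
import Vale.Agent.P249.TP3.NumPath
import Vale.Agent.P249.TP3.NumCard
import Vale.Agent.P249.TP3.NumPar
import Vale.Agent.P249.TP3.Final892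
import Vale.Agent.P249.TP.Abs
import Vale.Agent.P249.TP.KeyGt
import Vale.Agent.P249.TP.KeyLt
import Vale.Agent.P249.SP.FinalD

/-!
# P249, phase 3: assembly, and the corollary for `d_p(n, D)` (helper557)
-/

open MeasureTheory Filter Asymptotics
open scoped ENNReal

namespace Vale.Agent.P249.TP3

open Vale.Agent.P249.TP

theorem specCore3 : SpecCore3 :=
  core3 specLin3 specUni3 specStart3 (specBlock3_of specAbs specKeyGt specKeyLt)
    (specLt3_of specRs specZt specLine specAlg) specGrade3 specCount3 specNumPath specNumCard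
    specNumPar

theorem specFinal3 : SpecFinal3 := specFinal3_of892 specCore3

/-- lower bound for every admissible dimension -/
theorem lower_of_final3 (h : SpecFinal3) {p : ℝ≥0∞} [Fact (1 ≤ p)] (hp1 : 1 < p) (hp : p ≠ ∞)
    (hp2 : p ≠ 2) {D : ℝ} (hD : 1 ≤ D) :
    ∃ n₀ : ℕ, ∀ n : ℕ, n₀ ≤ n → ∀ d : ℕ, Admissible p n D d →
      Real.exp (Real.exp ((Real.log (Real.log n)) ^ (1 / 20 : ℝ))) ≤ d := by
  obtain ⟨n₀, hn₀⟩ := h p hp1 hp hp2 D hD
  refine ⟨n₀, fun n hn d hd => ?_⟩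
  obtain ⟨Ω, i, μ, _, X, hX, hlow⟩ := hn₀ n hn
  exact hlow d (hd Ω μ X hX)

/-- `exp (exp ((log log n) ^ (1/20))) ≤ d_p(n, D)` for all large `n`. -/
theorem dimLp_of_final3 (h : SpecFinal3) {p : ℝ≥0∞} [Fact (1 ≤ p)] (hp1 : 1 < p) (hp : p ≠ ∞)
    (hp2 : p ≠ 2) {D : ℝ} (hD : 1 < D) :
    ∃ n₀ : ℕ, ∀ n : ℕ, n₀ ≤ n →
      Real.exp (Real.exp ((Real.log (Real.log n)) ^ (1 / 20 : ℝ))) ≤ (dimLp p n D : ℝ) := by
  obtain ⟨n₀, hn₀⟩ := lower_of_final3 h hp1 hp hp2 hD.le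
  exact ⟨max n₀ 2, fun n hn => hn₀ n ((le_max_left _ _).trans hn) _
    (SP.admissible_dimLp hp1 hp hD ((le_max_right _ _).trans hn))⟩

end Vale.Agent.P249.TP3
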